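import Vale.Agent.P160.Height.Defs

/-! Elementary facts about finite laws and coordinate subspaces. -/

noncomputable section

open Finset Module

namespace Vale.Agent.P160.Height

variable {α : Type} (μ : Law α)

namespace Law

open Classical in
lemma pr_eq_ex (P : α → Prop) : μ.pr P = μ.ex fun x => if P x then 1 else 0 := by
  simp [pr, ex, sum_filter]

lemma ex_mono {f g : α → ℝ} (h : ∀ x ∈ μ.supp, f x ≤ g x) : μ.ex f ≤ μ.ex g :=
  sum_le_sum fun x hx => mul_le_mul_of_nonneg_left (h x hx) (μ.nonneg x)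

lemma ex_const (c : ℝ) : (μ.ex fun _ => c) = c := by
  rw [ex, ← sum_mul, μ.sum_one, one_mul]

lemma ex_nonneg {f : α → ℝ} (h : ∀ x ∈ μ.supp, 0 ≤ f x) : 0 ≤ μ.ex f :=
  sum_nonneg fun x hx => mul_nonneg (μ.nonneg x) (h x hx)

lemma ex_mul_left (c : ℝ) (f : α → ℝ) : (μ.ex fun x => c * f x) = c * μ.ex f := by
  rw [ex, ex, mul_sum]
  exact sum_congr rfl fun x _ => by ring

lemma ex_sum {ι : Type} (s : Finset ι) (f : ι → α → ℝ) :
    (μ.ex fun x => ∑ i ∈ s, f i x) = ∑ i ∈ s, μ.ex (f i) := by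
  simp only [ex, mul_sum]
  exact sum_comm

lemma pr_nonneg (P : α → Prop) : 0 ≤ μ.pr P := sum_nonneg fun x _ => μ.nonneg x

lemma pr_mono {P Q : α → Prop} (h : ∀ x ∈ μ.supp, P x → Q x) : μ.pr P ≤ μ.pr Q := by
  classical
  exact sum_le_sum_of_subset_of_nonneg
    (fun x hx => by simp only [mem_filter] at hx ⊢; exact ⟨hx.1, h x hx.1 hx.2⟩)
    fun x _ _ => μ.nonneg x

lemma pr_le_one (P : α → Prop) : μ.pr P ≤ 1 := by
  classical
  rw [← μ.sum_one]
  exact sum_le_sum_of_subset_of_nonneg (filter_subset _ _) fun x _ _ => μ.nonneg x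

lemma pr_true : (μ.pr fun _ => True) = 1 := by
  rw [pr_eq_ex]; simpa using μ.ex_const 1

lemma pr_exists_le {ι : Type} (s : Finset ι) (P : ι → α → Prop) :
    (μ.pr fun x => ∃ i ∈ s, P i x) ≤ ∑ i ∈ s, μ.pr (P i) := by
  classical
  simp only [pr_eq_ex, ← ex_sum]
  refine ex_mono μ fun x _ => ?_
  split_ifs with h
  · obtain ⟨i, hi, hP⟩ := h
    refine le_trans ?_ (single_le_sum (fun j _ => ?_) hi)
    · simp [hP]
    · split_ifs <;> norm_num
  · exact sum_nonneg fun j _ => by split_ifs <;> norm_num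

lemma pr_or_le (P Q : α → Prop) : (μ.pr fun x => P x ∨ Q x) ≤ μ.pr P + μ.pr Q := by
  classical
  simp only [pr_eq_ex]
  rw [show μ.ex (fun x => if P x then (1:ℝ) else 0) + μ.ex (fun x => if Q x then (1:ℝ) else 0)
    = μ.ex (fun x => (if P x then (1:ℝ) else 0) + (if Q x then (1:ℝ) else 0)) by
      simp [ex, mul_add, sum_add_distrib]]
  refine ex_mono μ fun x _ => ?_
  by_cases hP : P x <;> by_cases hQ : Q x <;> simp [hP, hQ]

variable {ι : Type} [Fintype ι] [DecidableEq ι]

lemma ex_pi_congr (p : ι → Prop) [DecidablePred p] (μ : ι → Law α) (f : (ι → α) → ℝ) :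
    (Law.pi μ).ex f = (Law.pi fun i : {i // p i} => μ i).ex fun y =>
      (Law.pi fun i : {i // ¬p i} => μ i).ex fun z =>
        f ((Equiv.piEquivPiSubtypeProd p fun _ => α).symm (y, z)) := by
  simp only [ex, mul_sum]
  rw [← sum_product']
  refine sum_equiv (Equiv.piEquivPiSubtypeProd p fun _ => α) ?_ ?_
  · intro x
    simp only [Law.pi, Fintype.mem_piFinset, mem_product, Equiv.piEquivPiSubtypeProd_apply]
    refine ⟨fun h => ⟨fun i => h i, fun i => h i⟩, fun h i => ?_⟩
    by_cases hi : p i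
    · exact h.1 ⟨i, hi⟩
    · exact h.2 ⟨i, hi⟩
  · intro x _
    simp only [Law.pi, Equiv.piEquivPiSubtypeProd_apply]
    rw [show (Equiv.piEquivPiSubtypeProd p fun _ => α).symm
      (fun i => x i, fun i => x i) = x from funext fun i => by
        simp [Equiv.piEquivPiSubtypeProd_symm_apply]]
    rw [← Fintype.prod_subtype_mul_prod_subtype p fun i => (μ i).w (x i)]
    ring

lemma ex_pi_finset (S : Finset ι) (μ : ι → Law α) (f : (ι → α) → ℝ) :
    (Law.pi μ).ex f = (Law.pi fun i : {i // i ∈ S} => μ i).ex fun y =>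
      (Law.pi fun i : {i // i ∉ S} => μ i).ex fun z =>
        f ((Equiv.piEquivPiSubtypeProd (fun i => i ∈ S) fun _ => α).symm (y, z)) := by
  rw [ex_pi_congr (fun i => i ∈ S) μ f,
    Subsingleton.elim (Subtype.fintype fun i => i ∈ S) (Finset.Subtype.fintype S)]

lemma pr_pi_forall (μ : ι → Law α) (P : ι → α → Prop) :
    (Law.pi μ).pr (fun x => ∀ i, P i (x i)) = ∏ i, (μ i).pr (P i) := by
  classical
  simp only [pr, prod_univ_sum]
  refine sum_congr ?_ fun _ _ => rfl
  ext x
  simp [Law.pi, Fintype.mem_piFinset, forall_and]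

lemma ex_pi_comp {κ : Type} [Fintype κ] [DecidableEq κ] (e : κ ≃ ι) (μ : Law α)
    (f : (ι → α) → ℝ) :
    (Law.pi fun _ : ι => μ).ex f = (Law.pi fun _ : κ => μ).ex fun y => f (y ∘ e.symm) := by
  refine sum_equiv (Equiv.arrowCongr e.symm (Equiv.refl α)) ?_ ?_
  · intro x
    simp only [Law.pi, Fintype.mem_piFinset, Equiv.arrowCongr_apply, Equiv.coe_refl,
      Function.id_comp, Equiv.symm_symm, Function.comp_apply]
    exact ⟨fun h i => h (e i), fun h i => by simpa using h (e.symm i)⟩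
  · intro x _
    simp only [Law.pi, Equiv.arrowCongr_apply, Equiv.coe_refl, Function.id_comp, Equiv.symm_symm]
    congr 1
    · exact (e.prod_comp fun i => μ.w (x i)).symm
    · congr 1; funext i; simp

end Law

variable {r : ℕ}

/-- A few coordinates determine the elements of a subspace. -/
theorem exists_coords (W : Submodule ℚ (Fin r → ℚ)) :
    ∃ S : Finset (Fin r), S.card ≤ finrank ℚ W ∧
      ∀ x ∈ W, ∀ y ∈ W, (∀ i ∈ S, x i = y i) → x = y := by
  suffices h : ∀ k, ∀ W : Submodule ℚ (Fin r → ℚ), finrank ℚ W ≤ k →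
      ∃ S : Finset (Fin r), S.card ≤ k ∧ ∀ x ∈ W, (∀ i ∈ S, x i = 0) → x = 0 by
    obtain ⟨S, hS, h0⟩ := h _ W le_rfl
    exact ⟨S, hS, fun x hx y hy hxy =>
      sub_eq_zero.1 (h0 _ (W.sub_mem hx hy) fun i hi => by simp [hxy i hi])⟩
  intro k
  induction k with
  | zero =>
    intro W hW
    refine ⟨∅, le_rfl, fun x hx _ => ?_⟩
    rw [Submodule.finrank_eq_zero.1 (Nat.le_zero.1 hW), Submodule.mem_bot] at hx
    exact hx
  | succ k ih =>
    intro W hW
    by_cases hb : W = ⊥
    · exact ⟨∅, Nat.zero_le _, fun x hx _ => by rwa [hb, Submodule.mem_bot] at hx⟩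
    obtain ⟨w, hw, hw0⟩ := Submodule.exists_mem_ne_zero_of_ne_bot hb
    obtain ⟨i, hi⟩ := Function.ne_iff.1 hw0
    set W' := W ⊓ LinearMap.ker (LinearMap.proj i : (Fin r → ℚ) →ₗ[ℚ] ℚ) with hW'
    have hlt : W' < W := by
      refine lt_of_le_of_ne inf_le_left fun h => hi ?_
      have : w ∈ W' := by rw [h]; exact hw
      simpa [hW'] using this.2
    obtain ⟨S, hS, h0⟩ := ih W' (by have := Submodule.finrank_lt_finrank_of_lt hlt; omega)
    refine ⟨insert i S, (card_insert_le _ _).trans (by omega), fun x hx hxS => h0 x ⟨hx, ?_⟩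
      fun j hj => hxS j (mem_insert_of_mem hj)⟩
    simpa using hxS i (mem_insert_self i S)

lemma qcast_injective : Function.Injective (qcast (r := r)) := fun x y h =>
  funext fun i => by simpa [qcast] using congrFun h i

/-- The box of integer vectors of sup norm at most `N`. -/
def box (r N : ℕ) : Finset (Fin r → ℤ) := Fintype.piFinset fun _ => Icc (-(N : ℤ)) N

lemma mem_box {N : ℕ} {v : Fin r → ℤ} : v ∈ box r N ↔ ∀ i, |v i| ≤ (N : ℤ) := by
  simp [box, Fintype.mem_piFinset, abs_le]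

/-- Lattice points of a subspace in a box. -/
theorem card_box_le (W : Submodule ℚ (Fin r → ℚ)) (N : ℕ) (V : Finset (Fin r → ℤ))
    (hV : ∀ v ∈ V, v ∈ box r N ∧ qcast v ∈ W) :
    V.card ≤ (2 * N + 1) ^ finrank ℚ W := by
  classical
  obtain ⟨S, hS, hd⟩ := exists_coords W
  calc V.card ≤ (Fintype.piFinset fun _ : S => Icc (-(N : ℤ)) N).card := by
        refine card_le_card_of_injOn (fun v i => v i) (fun v hv => ?_) fun v hv u hu h => ?_
        · exact Fintype.mem_piFinset.2 fun i => mem_Icc.2 (abs_le.1 (mem_box.1 (hV v hv).1 i))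
        · exact qcast_injective (hd _ (hV v hv).2 _ (hV u hu).2
            fun i hi => by simpa [qcast] using congrFun h ⟨i, hi⟩)
    _ = (2 * N + 1) ^ S.card := by
        rw [Fintype.card_piFinset, prod_const, card_univ, Fintype.card_coe, Int.card_Icc]
        congr 1
        omega
    _ ≤ _ := Nat.pow_le_pow_right (by omega) hS

/-- The inequality of Odlyzko. -/
theorem odlyzko (g : Law ℤ) {q : ℝ} (hq1 : q ≤ 1) (hg : ∀ x ∈ g.supp, g.w x ≤ q)
    (W : Submodule ℚ (Fin r → ℚ)) :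
    (rowLaw g r).pr (fun x => qcast x ∈ W) ≤ q ^ (r - finrank ℚ W) := by
  classical
  have hq0 : 0 ≤ q := by
    obtain ⟨x, hx⟩ := Finset.nonempty_of_sum_ne_zero (by rw [g.sum_one]; norm_num : ∑ x ∈ g.supp, g.w x ≠ 0)
    exact (g.nonneg x).trans (hg x hx)
  obtain ⟨S, hS, hd⟩ := exists_coords W
  rw [Law.pr_eq_ex, rowLaw, Law.ex_pi_congr (fun i => i ∈ S)]
  refine le_trans (Law.ex_mono _ fun y hy => ?_) (le_of_eq (Law.ex_const _ _))
  have hc : Fintype.card {i // i ∉ S} = r - S.card := by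
    rw [Fintype.card_subtype_compl, Fintype.card_coe, Fintype.card_fin]
  set Z := (Law.pi fun _ : {i // i ∉ S} => g)
  set P : ({i // i ∉ S} → ℤ) → Prop := fun z =>
    qcast ((Equiv.piEquivPiSubtypeProd (fun i => i ∈ S) fun _ => ℤ).symm (y, z)) ∈ W
  change Z.ex (fun z => if P z then 1 else 0) ≤ _
  rw [← Law.pr_eq_ex]
  have h1 : (Z.supp.filter P).card ≤ 1 := by
    refine card_le_one.2 fun z hz z' hz' => ?_
    have h := hd _ (mem_filter.1 hz).2 _ (mem_filter.1 hz').2 fun i hi => by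
      simp [qcast, Equiv.piEquivPiSubtypeProd_symm_apply, hi]
    funext i
    simpa [qcast, Equiv.piEquivPiSubtypeProd_symm_apply, i.2] using congrFun h i.1
  calc Z.pr P ≤ ∑ z ∈ Z.supp.filter P, q ^ (r - finrank ℚ W) := by
        refine sum_le_sum fun z hz => ?_
        change ∏ i, g.w (z i) ≤ _
        refine le_trans (prod_le_prod (fun i _ => g.nonneg _) fun i _ =>
          hg _ (Fintype.mem_piFinset.1 (mem_filter.1 hz).1 i)) ?_
        rw [prod_const, card_univ, hc]
        exact pow_le_pow_of_le_one hq0 hq1 (by omega)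
    _ ≤ _ := by
        rw [sum_const, nsmul_eq_mul]
        exact mul_le_of_le_one_left (pow_nonneg hq0 _) (by exact_mod_cast h1)

end Vale.Agent.P160.Height
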