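import Vale.Agent.P160.Height.Swap

/-! Kernels of non-symmetric Gaussian matrices: corank and second moment of small kernel vectors. -/

noncomputable section

open Finset Module Filter

namespace Vale.Agent.P160.Height

variable {r : ℕ}

/-- The law of a square matrix with Gaussian entries. -/
def matLaw (r : ℕ) : Law (Fin r → Fin r → ℤ) := Law.pi fun _ => rowLaw (gauss 2 r) r

/-- The rank over the rationals. -/
def rk (D : Fin r → Fin r → ℤ) : ℕ :=
  finrank ℚ (Submodule.span ℚ (Set.range fun j => qcast (D j)))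

lemma rk_le (D : Fin r → Fin r → ℤ) : rk D ≤ r := by
  simpa [rk, Set.finrank] using finrank_range_le_card (R := ℚ) (fun j => qcast (D j))

lemma gauss3_atom {r : ℕ} (hr : 1 ≤ r) (x : ℤ) : (gauss 3 r).w x ≤ 11 / 12 := by
  set f : ℤ → ℝ := fun y => Real.exp (-(3:ℝ) * (y : ℝ) ^ 2)
  have hsub : ({-1, 0, 1} : Finset ℤ) ⊆ Icc (-(r : ℤ)) r := by
    intro y hy
    simp only [mem_insert, mem_singleton] at hy
    rw [mem_Icc]; omega
  have h := sum_le_sum_of_subset_of_nonneg hsub (f := f) fun y _ _ => (Real.exp_pos _).le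
  simp only [sum_insert, mem_insert, mem_singleton, sum_singleton, show (-1:ℤ) ≠ 0 by decide,
    show (-1:ℤ) ≠ 1 by decide, show (0:ℤ) ≠ 1 by decide, or_self, not_false_eq_true] at h
  norm_num [f] at h
  have he3 : (1/21 : ℝ) ≤ Real.exp (-3) := by
    rw [Real.exp_neg, one_div]
    refine inv_anti₀ (Real.exp_pos _) ?_
    rw [show (3:ℝ) = ((3:ℕ):ℝ) * 1 by norm_num, Real.exp_nat_mul]
    calc Real.exp 1 ^ 3 ≤ 2.7182818286 ^ 3 := by gcongr; exact Real.exp_one_lt_d9.le
      _ ≤ 21 := by norm_num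
  have hs : (0:ℝ) < ∑ y ∈ Icc (-(r : ℤ)) r, f y :=
    sum_pos (fun _ _ => Real.exp_pos _) ⟨0, by simp⟩
  simp only [gauss]
  rw [div_le_iff₀ (by simpa [f] using hs)]
  norm_num
  have : Real.exp (-(3 * (x : ℝ) ^ 2)) ≤ 1 :=
    Real.exp_le_one_iff.2 (by have := sq_nonneg (x:ℝ); linarith)
  linarith

lemma lazy_atom (m : ℕ) (hm : 1 ≤ m) (x : ℤ) :
    (lazySign m).w x ≤ 1 - 1 / (32 * (m : ℝ) ^ 2) := by
  have h1 : (1 : ℝ) ≤ m := by exact_mod_cast hm
  have h2 : 1 / (64 * (m : ℝ) ^ 2) ≤ 1 / 64 := by gcongr; nlinarith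
  have e : 1 / (32 * (m : ℝ) ^ 2) = 2 * (1 / (64 * (m : ℝ) ^ 2)) := by ring
  rw [e]
  simp only [lazySign]
  split_ifs <;> linarith

/-- Choice of an independent family inside `W`. -/
lemma half_pow_le_indep (μ : Law (Fin r → ℤ)) {q : ℝ} (hq0 : 0 ≤ q) (hq1 : q ≤ 1)
    (hodl : ∀ U : Submodule ℚ (Fin r → ℚ), rowPr μ U ≤ q ^ (r - finrank ℚ U))
    (W : Submodule ℚ (Fin r → ℚ)) (t : ℕ) (htr : t ≤ r)
    (hrich : 2 * (r : ℝ) * q ^ (r - t) ≤ rowPr μ W) :
    rowPr μ W ^ t ≤ 2 * (Law.pi fun _ : Fin t => μ).pr (IndepIn W) := by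
  have h := indep_pr_ge μ hq0 hq1 hodl W t
  rcases Nat.eq_zero_or_pos t with rfl | ht
  · simp at h ⊢; linarith
  have hρ : 0 ≤ rowPr μ W := Law.pr_nonneg _ _
  have h1 : 2 * (t : ℝ) * q ^ (r - t) ≤ rowPr μ W := le_trans (by gcongr) hrich
  have h2 := mul_le_mul_of_nonneg_left h1 (pow_nonneg hρ (t - 1))
  rw [← pow_succ, Nat.sub_add_cancel ht] at h2
  linarith

theorem corank_le (hG : GaussCompare) : ∀ᶠ r : ℕ in atTop, ∀ k, 1 ≤ k → k ≤ r →
    (matLaw r).pr (fun D => rk D + k = r) ≤ 3 * 2 ^ r * Real.exp (-((k:ℝ) * r) / 100) := by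
  classical
  obtain ⟨R0, hG⟩ := hG
  have hlim : Tendsto (fun r : ℕ => 2 * ((r:ℝ) ^ 1 *
      (Real.sqrt (11/12) * Real.exp (1/100)) ^ r)) atTop (nhds 0) := by
    simpa using (tendsto_pow_const_mul_const_pow_of_abs_lt_one 1
      (show |Real.sqrt (11/12) * Real.exp (1/100)| < 1 by
        rw [abs_of_nonneg (by positivity)]
        have h1 : Real.sqrt (11/12:ℝ) ≤ 0.958 := Real.sqrt_le_iff.2 ⟨by norm_num, by norm_num⟩
        have h2 : Real.exp (1/100:ℝ) ≤ 1 / (1 - 1/100) :=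
          Real.exp_bound_div_one_sub_of_interval (by norm_num) (by norm_num)
        calc _ ≤ (0.958:ℝ) * (1 / (1 - 1/100)) := mul_le_mul h1 h2 (by positivity) (by norm_num)
          _ < 1 := by norm_num)).const_mul 2
  filter_upwards [eventually_ge_atTop R0, eventually_ge_atTop 1,
    hlim.eventually_le_const zero_lt_one] with r hr hr1 hη
  intro k hk hkr
  set q : ℝ := 11/12
  set d := r - k
  set t := d / 2
  set μ := rowLaw (gauss 2 r) r
  set μ' := rowLaw (gauss 3 r) r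
  set η := 2 * (r:ℝ) * q ^ (r - t)
  have hodl : ∀ U : Submodule ℚ (Fin r → ℚ), rowPr μ' U ≤ q ^ (r - finrank ℚ U) := fun U =>
    odlyzko _ (by norm_num [q]) (fun x _ => gauss3_atom hr1 x) U
  have hηle : η ≤ Real.exp (-(r:ℝ) / 100) := by
    have h1 : q ^ (r - t) ≤ Real.sqrt q ^ r := by
      calc q ^ (r - t) = Real.sqrt q ^ (2 * (r - t)) := by
            rw [pow_mul, Real.sq_sqrt (by norm_num [q])]
        _ ≤ _ := pow_le_pow_of_le_one (Real.sqrt_nonneg _) (Real.sqrt_le_one.2 (by norm_num [q]))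
          (by omega)
    rw [neg_div, Real.exp_neg, inv_eq_one_div, le_div_iff₀ (Real.exp_pos _)]
    refine le_trans ?_ hη
    rw [pow_one, mul_pow, ← Real.exp_nat_mul]
    calc η * Real.exp ((r:ℝ) / 100) ≤ 2 * (r:ℝ) * Real.sqrt q ^ r * Real.exp ((r:ℝ) / 100) := by
          simp only [η]; gcongr
      _ = _ := by rw [show (r:ℝ) * (1/100) = (r:ℝ)/100 by ring]; ring
  set fam : Finset (Submodule ℚ (Fin r → ℚ)) := ((Law.pi fun _ : Fin r => μ).supp.image fun D =>
      Submodule.span ℚ (Set.range fun j => qcast (D j))).filter fun W => finrank ℚ W = d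
  set P : Submodule ℚ (Fin r → ℚ) → (Fin r → Fin r → ℤ) → Prop := fun W D =>
    (∀ j, qcast (D j) ∈ W) ∧ d ≤ rk D
  have hdim : ∀ W ∈ fam, finrank ℚ W = d := fun W hW => (mem_filter.1 hW).2
  have hmult : ∀ (s : ℕ) (_ : s ≤ d) (G : Finset (Submodule ℚ (Fin r → ℚ))), G ⊆ fam →
      ∀ (μ0 : Law (Fin r → ℤ)) (x : Fin d → Fin r → ℤ), (∀ a, x a ∈ μ0.supp ∪ μ'.supp) →
      LinearIndependent ℚ (fun a => qcast (x a)) →
      ∀ s' ⊆ G, (∀ i ∈ s', ∀ a, qcast (x a) ∈ i) → s'.card ≤ 1 := by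
    intro s _ G hGs μ0 x _ hx s' hs' hin
    refine card_le_one.2 fun W hW W' hW' => ?_
    have key : ∀ U ∈ s', Submodule.span ℚ (Set.range fun a => qcast (x a)) = U := fun U hU =>
      Submodule.eq_of_le_of_finrank_le (Submodule.span_le.2 (Set.range_subset_iff.2 (hin U hU)))
        (by rw [hdim U (hGs (hs' hU)), finrank_span_eq_card hx, Fintype.card_fin])
    rw [← key W hW, key W' hW']
  have hgc : ∀ W ∈ fam, rowPr μ W ≤ Real.exp (-(k:ℝ)/50) * rowPr μ' W := fun W hW =>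
    hG r k hr hk W (by rw [hdim W hW]; omega)
  have hρ' : ∀ W, 0 ≤ rowPr μ' W ∧ rowPr μ' W ≤ 1 := fun W =>
    ⟨Law.pr_nonneg _ _, Law.pr_le_one _ _⟩
  have hpos : ∀ W, 0 ≤ rowPr μ W := fun W => Law.pr_nonneg _ _
  have hrichb : ∑ W ∈ fam.filter (fun W => η ≤ rowPr μ' W), (matLaw r).pr (P W)
      ≤ (2:ℝ) ^ r * (2 * Real.exp (-((k:ℝ) * r) / 100)) := by
    refine le_trans (swap_bound μ μ' _ id (d := d) (t := t) (by omega) (by omega) 1
      (R := 2 * Real.exp (-((k:ℝ) * r) / 100)) (by positivity)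
      (hmult t (by omega) _ (filter_subset _ _) μ) fun W hW => ?_) ?_
    · obtain ⟨hWf, hrich⟩ := mem_filter.1 hW
      have hi := half_pow_le_indep μ' (by norm_num [q]) (by norm_num [q]) hodl W t (by omega) hrich
      rw [show r - (d - t) = t + k by omega]
      calc rowPr μ W ^ (t + k) ≤ (Real.exp (-(k:ℝ)/50) * rowPr μ' W) ^ (t + k) :=
            pow_le_pow_left₀ (hpos W) (hgc W hWf) _
        _ = Real.exp (-(k:ℝ)/50) ^ (t + k) * rowPr μ' W ^ t * rowPr μ' W ^ k := by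
            rw [mul_pow, pow_add (rowPr μ' W)]; ring
        _ ≤ Real.exp (-((k:ℝ) * r) / 100) * rowPr μ' W ^ t * 1 := by
            refine mul_le_mul (mul_le_mul_of_nonneg_right ?_ (pow_nonneg (hρ' W).1 _))
              (pow_le_one₀ (hρ' W).1 (hρ' W).2) (pow_nonneg (hρ' W).1 _)
              (mul_nonneg (Real.exp_pos _).le (pow_nonneg (hρ' W).1 _))
            rw [← Real.exp_nat_mul]
            refine Real.exp_le_exp.2 ?_
            have h2 : (r:ℝ) ≤ 2 * ((t + k : ℕ) : ℝ) := by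
              exact_mod_cast (show r ≤ 2 * (t + k) by omega)
            have := mul_le_mul_of_nonneg_left h2 (Nat.cast_nonneg (α := ℝ) k)
            linarith
        _ ≤ _ := by
            rw [mul_one, mul_right_comm (2:ℝ), mul_comm (2:ℝ), mul_comm _ (Real.exp _)]
            refine le_trans (mul_le_mul_of_nonneg_left hi (Real.exp_pos _).le) (le_of_eq ?_)
            simp only [id]; ring
    · refine mul_le_mul_of_nonneg_right ?_ (by positivity)
      rw [Nat.cast_one, mul_one]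
      exact_mod_cast Nat.choose_le_two_pow r _
  have hpoor : ∑ W ∈ fam.filter (fun W => ¬η ≤ rowPr μ' W), (matLaw r).pr (P W)
      ≤ (2:ℝ) ^ r * Real.exp (-((k:ℝ) * r) / 100) := by
    refine le_trans (swap_bound μ μ' _ id (d := d) (t := 0) (Nat.zero_le _) (by omega) 1
      (R := Real.exp (-((k:ℝ) * r) / 100)) (by positivity)
      (hmult 0 (by omega) _ (filter_subset _ _) μ) fun W hW => ?_) ?_
    · obtain ⟨hWf, hp⟩ := mem_filter.1 hW
      push_neg at hp
      have h1 : (Law.pi fun _ : Fin 0 => μ').pr (IndepIn (id W)) = 1 := by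
        refine le_antisymm (Law.pr_le_one _ _) ?_
        rw [← Law.pr_true (Law.pi fun _ : Fin 0 => μ')]
        exact Law.pr_mono _ fun G _ _ => ⟨linearIndependent_empty_type, fun a => a.elim0⟩
      rw [h1, mul_one, show r - (d - 0) = k by omega]
      have hρ : rowPr μ (id W) ≤ Real.exp (-(r:ℝ) / 100) := by
        refine le_trans (hgc W hWf) (le_trans ?_ hηle)
        refine le_trans (mul_le_of_le_one_left (hρ' W).1 (Real.exp_le_one_iff.2 ?_)) hp.le
        have : (0:ℝ) ≤ k := Nat.cast_nonneg k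
        linarith
      refine (pow_le_pow_left₀ (hpos _) hρ k).trans (le_of_eq ?_)
      rw [← Real.exp_nat_mul]; ring_nf
    · refine mul_le_mul_of_nonneg_right ?_ (Real.exp_pos _).le
      rw [Nat.cast_one, mul_one]
      exact_mod_cast Nat.choose_le_two_pow r _
  refine le_trans ((matLaw r).pr_mono (Q := fun D => ∃ W ∈ fam, P W D) fun D hD hrk => ?_) ?_
  · exact ⟨_, mem_filter.2 ⟨mem_image_of_mem _ hD, show rk D = d by omega⟩,
      fun j => Submodule.subset_span ⟨j, rfl⟩, show d ≤ rk D by omega⟩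
  refine ((matLaw r).pr_exists_le _ _).trans ?_
  rw [← sum_filter_add_sum_filter_not fam (fun W => η ≤ rowPr μ' W)]
  linarith

/-- The orthogonal of an integer vector. -/
def orth (v : Fin r → ℤ) : Submodule ℚ (Fin r → ℚ) :=
  LinearMap.ker (∑ i, (v i : ℚ) • LinearMap.proj i : (Fin r → ℚ) →ₗ[ℚ] ℚ)

lemma mem_orth {v x : Fin r → ℤ} : qcast x ∈ orth v ↔ ∑ i, x i * v i = 0 := by
  simp only [orth, LinearMap.mem_ker, LinearMap.coe_sum, Finset.sum_apply, LinearMap.smul_apply,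
    LinearMap.coe_proj, Function.eval, smul_eq_mul, qcast]
  rw [← Int.cast_inj (α := ℚ)]
  push_cast
  simp only [mul_comm]

/-- Integer box vectors orthogonal to given rows. -/
lemma card_orth_le {ι : Type} [Fintype ι] (x : ι → Fin r → ℤ) (N : ℕ) (V : Finset (Fin r → ℤ))
    (hV : ∀ v ∈ V, v ∈ box r N ∧ ∀ a, ∑ i, x a i * v i = 0) :
    V.card ≤ (2 * N + 1) ^ (r - finrank ℚ (Submodule.span ℚ (Set.range fun a => qcast (x a)))) := by
  classical
  set A : Matrix ι (Fin r) ℚ := Matrix.of fun a => qcast (x a)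
  refine le_trans (card_box_le (LinearMap.ker A.mulVecLin) N V fun v hv =>
    ⟨(hV v hv).1, LinearMap.mem_ker.2 (funext fun a => ?_)⟩) (le_of_eq ?_)
  · have h := (hV v hv).2 a
    rw [← Int.cast_inj (α := ℚ)] at h
    push_cast at h
    simpa [A, Matrix.mulVec, dotProduct, qcast] using h
  · congr 1
    have h := LinearMap.finrank_range_add_finrank_ker A.mulVecLin
    have e : A.rank = finrank ℚ (LinearMap.range A.mulVecLin) := rfl
    rw [← e, Matrix.rank_eq_finrank_span_row, finrank_fintype_fun_eq_card, Fintype.card_fin] at h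
    have e2 : finrank ℚ (Submodule.span ℚ (Set.range fun a => qcast (x a)))
        = finrank ℚ (Submodule.span ℚ (Set.range A.row)) := rfl
    omega

/-- Dense integer vectors in the box. -/
def denseBox (r N : ℕ) : Finset (Fin r → ℤ) :=
  (box r N).filter fun v => r ≤ 2 * (univ.filter fun i => v i ≠ 0).card

theorem dense_kernel_le (hH : HalaszBound) (m : ℕ) (hm : 1 ≤ m) : ∃ δ : ℝ, 0 < δ ∧
    ∀ᶠ r : ℕ in atTop, ∀ N : ℕ, (N : ℝ) ≤ (2:ℝ) ^ (δ * r) → ∀ K, K ≤ r / 2 →
      (matLaw r).pr (fun D => r - K ≤ rk D ∧ ∃ v ∈ denseBox r N, ∀ j, ∑ i, D j i * v i = 0)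
        ≤ (2:ℝ) ^ r * (2 * (N:ℝ) + 1) ^ K * (2 * (11 / (m:ℝ)) ^ (r / 2)) := by
  classical
  obtain ⟨δ0, hδ0, R0, hH⟩ := hH m hm
  have hm' : (1:ℝ) ≤ m := by exact_mod_cast hm
  set ν : ℝ := 1 / (32 * (m:ℝ) ^ 2)
  have hν : 0 < ν := by positivity
  have hν1 : ν ≤ 1 := by
    simp only [ν]; rw [div_le_one (by positivity)]; nlinarith
  set δ := min δ0 (ν / 4)
  have hδ : 0 < δ := lt_min hδ0 (by positivity)
  refine ⟨δ, hδ, ?_⟩
  have hlim : Tendsto (fun r : ℕ => 6 * ((r:ℝ) ^ 2 * Real.exp (-(ν / 4)) ^ r)) atTop (nhds 0) := by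
    simpa using (tendsto_pow_const_mul_const_pow_of_abs_lt_one 2
      (show |Real.exp (-(ν / 4))| < 1 by
        rw [abs_of_pos (Real.exp_pos _), Real.exp_lt_one_iff]; linarith)).const_mul 6
  filter_upwards [eventually_ge_atTop R0, eventually_ge_atTop 1,
    hlim.eventually_le_const zero_lt_one] with r hr hr1 hsmall
  intro N hN K hK
  set t := r / 2
  set d := r - K
  set μ := rowLaw (gauss 2 r) r
  set μ' := rowLaw (lazySign m) r
  set q : ℝ := 1 - ν
  have hq0 : 0 ≤ q := by simp only [q]; linarith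
  have hq1 : q ≤ 1 := by simp only [q]; linarith
  have hodl : ∀ U : Submodule ℚ (Fin r → ℚ), rowPr μ' U ≤ q ^ (r - finrank ℚ U) := fun U =>
    odlyzko _ hq1 (fun x _ => lazy_atom m hm x) U
  have hr' : (1:ℝ) ≤ r := by exact_mod_cast hr1
  have h2pow : ∀ a b : ℝ, a ≤ b → (2:ℝ) ^ (a * r) ≤ (2:ℝ) ^ (b * r) := fun a b hab =>
    Real.rpow_le_rpow_of_exponent_le one_le_two (mul_le_mul_of_nonneg_right hab (by linarith))
  have hrate : ∀ v ∈ denseBox r N,
      rowPr μ (orth v) ≤ 11 / (m:ℝ) * rowPr μ' (orth v) ∧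
        2 * (r:ℝ) * q ^ (r - t) ≤ rowPr μ' (orth v) := by
    intro v hv
    obtain ⟨hbox, hsupp⟩ := mem_filter.1 hv
    obtain ⟨h1, h2⟩ := hH r hr N (hN.trans (h2pow _ _ (min_le_left _ _))) v (mem_box.1 hbox) hsupp
    refine ⟨by simpa [rowPr, mem_orth] using h1, ?_⟩
    refine le_trans ?_ (le_trans h2 (by simp [rowPr, mem_orth, μ']))
    have hq : q ^ (r - t) ≤ Real.exp (-(ν / 2)) ^ r := by
      calc q ^ (r - t) ≤ Real.exp (-ν) ^ (r - t) :=
            pow_le_pow_left₀ hq0 (by simp only [q]; linarith [Real.add_one_le_exp (-ν)]) _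
        _ = Real.exp (-(ν / 2)) ^ (2 * (r - t)) := by
            rw [← Real.exp_nat_mul, ← Real.exp_nat_mul]; congr 1; push_cast; ring
        _ ≤ _ := pow_le_pow_of_le_one (Real.exp_pos _).le
            (Real.exp_le_one_iff.2 (by linarith)) (by omega)
    have hN2 : (N:ℝ) ≤ Real.exp (ν / 4) ^ r := by
      refine hN.trans ((h2pow _ _ (min_le_right _ _)).trans ?_)
      rw [← Real.exp_nat_mul, Real.rpow_def_of_pos two_pos]
      refine Real.exp_le_exp.2 ?_
      have := mul_le_mul_of_nonneg_right (show Real.log 2 ≤ 1 by linarith [Real.log_two_lt_d9])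
        (show 0 ≤ ν / 4 * (r:ℝ) by positivity)
      linarith
    have hE : (1:ℝ) ≤ Real.exp (ν / 4) ^ r := one_le_pow₀ (Real.one_le_exp (by linarith))
    rw [le_div_iff₀ (by positivity)]
    refine le_trans ?_ hsmall
    calc 2 * (r:ℝ) * q ^ (r - t) * (2 * r * N + 1)
        ≤ 2 * (r:ℝ) * Real.exp (-(ν / 2)) ^ r * (3 * r * Real.exp (ν / 4) ^ r) := by
          gcongr
          have h3 := mul_le_mul_of_nonneg_left hN2 (show (0:ℝ) ≤ 2 * r by positivity)
          have h4 := mul_le_mul hr' hE zero_le_one (by linarith : (0:ℝ) ≤ r)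
          linarith
      _ = _ := by
          have e : Real.exp (-(ν / 4)) = Real.exp (-(ν / 2)) * Real.exp (ν / 4) := by
            rw [← Real.exp_add]; congr 1; ring
          rw [e, mul_pow]; ring
  refine le_trans ((matLaw r).pr_mono (Q := fun D => ∃ v ∈ denseBox r N,
    (∀ j, qcast (D j) ∈ orth v) ∧ d ≤ rk D) fun D _ hD => ?_) ?_
  · obtain ⟨hk, v, hv, hker⟩ := hD
    exact ⟨v, hv, fun j => mem_orth.2 (hker j), hk⟩
  refine ((matLaw r).pr_exists_le _ _).trans ?_
  refine le_trans (swap_bound μ μ' (denseBox r N) orth (d := d) (t := t) (by omega) (by omega)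
    ((2 * N + 1) ^ K) (R := 2 * (11 / (m:ℝ)) ^ t) (by positivity) ?_ ?_) ?_
  · intro x _ hx s hs hin
    refine le_trans (card_orth_le x N s fun v hv =>
      ⟨(mem_filter.1 (hs hv)).1, fun a => mem_orth.1 (hin v hv a)⟩) ?_
    rw [finrank_span_eq_card hx, Fintype.card_fin, show r - d = K by omega]
  · intro v hv
    obtain ⟨h1, h2⟩ := hrate v hv
    have hi := half_pow_le_indep μ' hq0 hq1 hodl (orth v) t (by omega) h2
    calc rowPr μ (orth v) ^ (r - (d - t)) ≤ rowPr μ (orth v) ^ t :=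
          pow_le_pow_of_le_one (Law.pr_nonneg _ _) (Law.pr_le_one _ _) (by omega)
      _ ≤ (11 / (m:ℝ) * rowPr μ' (orth v)) ^ t := pow_le_pow_left₀ (Law.pr_nonneg _ _) h1 _
      _ ≤ (11 / (m:ℝ)) ^ t * (2 * (Law.pi fun _ : Fin t => μ').pr (IndepIn (orth v))) := by
          rw [mul_pow]; exact mul_le_mul_of_nonneg_left hi (by positivity)
      _ = _ := by ring
  · push_cast
    gcongr
    exact_mod_cast Nat.choose_le_two_pow r _

/-- The number of dense box vectors killed by `D`. -/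
def kerCount (N : ℕ) (D : Fin r → Fin r → ℤ) : ℝ :=
  (((denseBox r N).filter fun v => ∀ j, ∑ i, D j i * v i = 0).card : ℝ)

theorem second_moment (hG : GaussCompare) (hH : HalaszBound) : ∃ δ : ℝ, 0 < δ ∧
    ∀ᶠ r : ℕ in atTop, ∀ N : ℕ, (N : ℝ) ≤ (2:ℝ) ^ (δ * r) →
      (matLaw r).ex (fun D => kerCount N D ^ 2) ≤ (1/8:ℝ) ^ r := by
  classical
  obtain ⟨δ0, hδ0, hd⟩ := dense_kernel_le hH 45056 (by norm_num)
  set δ := min δ0 (1/100000)
  have hδ : 0 < δ := lt_min hδ0 (by norm_num)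
  refine ⟨δ, hδ, ?_⟩
  have hlim : Tendsto (fun r : ℕ => (3:ℝ) * ((r:ℝ) ^ 1 * (1/2:ℝ) ^ r) + (3:ℝ) * (1/2:ℝ) ^ r
      + 128 * (1/2:ℝ) ^ r) atTop (nhds 0) := by
    simpa using (((tendsto_pow_const_mul_const_pow_of_abs_lt_one 1
      (show |(1/2:ℝ)| < 1 by norm_num)).const_mul 3).add
      ((tendsto_pow_atTop_nhds_zero_of_lt_one (by norm_num) (show (1/2:ℝ) < 1 by norm_num)).const_mul 3)).add
      ((tendsto_pow_atTop_nhds_zero_of_lt_one (by norm_num) (show (1/2:ℝ) < 1 by norm_num)).const_mul 128)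
  filter_upwards [hd, corank_le hG, eventually_ge_atTop 100000,
    hlim.eventually_le_const zero_lt_one] with r hd hc hr hsmall
  intro N hN
  set M : ℝ := 2 * (N:ℝ) + 1
  have hM1 : 1 ≤ M := by simp only [M]; linarith [(Nat.cast_nonneg N : (0:ℝ) ≤ N)]
  have hr' : (100000:ℝ) ≤ r := by exact_mod_cast hr
  have hMexp : M ≤ Real.exp ((r:ℝ) / 10000) := by
    have h1 : (N:ℝ) ≤ Real.exp ((r:ℝ) / 100000) := by
      refine hN.trans ?_
      rw [Real.rpow_def_of_pos two_pos]
      refine Real.exp_le_exp.2 ?_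
      have h := mul_le_mul (show Real.log 2 ≤ 1 by linarith [Real.log_two_lt_d9])
        (mul_le_mul_of_nonneg_right (min_le_right δ0 (1/100000)) (by linarith : (0:ℝ) ≤ r))
        (by positivity) zero_le_one
      linarith
    have h2 : (1:ℝ) ≤ Real.exp ((r:ℝ) / 100000) := Real.one_le_exp (by positivity)
    have h3 : (3:ℝ) ≤ Real.exp ((r:ℝ) / 10000 - (r:ℝ) / 100000) :=
      le_trans (by linarith) (Real.add_one_le_exp _)
    have h4 : Real.exp ((r:ℝ) / 10000) = Real.exp ((r:ℝ) / 10000 - (r:ℝ) / 100000)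
        * Real.exp ((r:ℝ) / 100000) := by rw [← Real.exp_add]; congr 1; ring
    have h5 := mul_le_mul_of_nonneg_right h3 (Real.exp_pos ((r:ℝ) / 100000)).le
    simp only [M]
    linarith
  obtain ⟨K, hKv⟩ : ∃ K : ℕ, K = 700 := ⟨700, rfl⟩
  set ev : (Fin r → Fin r → ℤ) → Prop := fun D =>
    r - K ≤ rk D ∧ ∃ v ∈ denseBox r N, ∀ j, ∑ i, D j i * v i = 0
  have hpt : ∀ D : Fin r → Fin r → ℤ, kerCount N D ^ 2 ≤
      M ^ (2 * K) * (if ev D then 1 else 0)
        + ∑ k ∈ Icc K r, M ^ (2 * k) * (if rk D + k = r then 1 else 0) := by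
    intro D
    have hle : kerCount N D ≤ M ^ (r - rk D) := by
      have h := card_orth_le D N ((denseBox r N).filter fun v => ∀ j, ∑ i, D j i * v i = 0)
        fun v hv => ⟨(mem_filter.1 (mem_filter.1 hv).1).1, (mem_filter.1 hv).2⟩
      simp only [kerCount, M]
      calc _ ≤ (((2 * N + 1) ^ (r - rk D) : ℕ) : ℝ) := by exact_mod_cast h
        _ = _ := by push_cast; ring
    have hnn : ∀ k ∈ Icc K r, 0 ≤ M ^ (2 * k) * (if rk D + k = r then (1:ℝ) else 0) :=
      fun k _ => by split_ifs <;> positivity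
    by_cases hK : r - rk D < K
    · by_cases hev : ev D
      · rw [if_pos hev, mul_one]
        refine le_add_of_le_of_nonneg ?_ (sum_nonneg hnn)
        rw [pow_mul', ]
        exact pow_le_pow_left₀ (Nat.cast_nonneg _) (hle.trans (pow_le_pow_right₀ hM1 hK.le)) 2
      · have h0 : kerCount N D = 0 := by
          simp only [kerCount, Nat.cast_eq_zero, card_eq_zero, filter_eq_empty_iff]
          exact fun v hv h => hev ⟨by omega, v, hv, h⟩
        rw [h0, if_neg hev]
        simpa using sum_nonneg hnn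
    · refine le_trans ?_ (le_add_of_nonneg_left (by split_ifs <;> positivity))
      refine le_trans ?_ (single_le_sum hnn (mem_Icc.2 ⟨not_lt.1 hK, Nat.sub_le r (rk D)⟩))
      rw [if_pos (by have := rk_le D; omega), mul_one, pow_mul']
      exact pow_le_pow_left₀ (Nat.cast_nonneg _) hle 2
  refine ((matLaw r).ex_mono fun D _ => hpt D).trans ?_
  have hadd : ∀ f g : (Fin r → Fin r → ℤ) → ℝ,
      (matLaw r).ex (fun D => f D + g D) = (matLaw r).ex f + (matLaw r).ex g := fun f g => by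
    simp [Law.ex, mul_add, sum_add_distrib]
  have hite : ∀ (E : (Fin r → Fin r → ℤ) → Prop) [DecidablePred E],
      (matLaw r).ex (fun D => if E D then (1:ℝ) else 0) = (matLaw r).pr E := fun E _ => by
    rw [Law.pr_eq_ex]; congr!
  rw [hadd, Law.ex_mul_left, hite, Law.ex_sum]
  simp only [Law.ex_mul_left, hite]
  have hA : M ^ (2 * K) * (matLaw r).pr ev ≤ 128 * (1/16:ℝ) ^ r := by
    refine le_trans (mul_le_mul_of_nonneg_left
      (hd N (hN.trans (Real.rpow_le_rpow_of_exponent_le one_le_two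
        (mul_le_mul_of_nonneg_right (min_le_left _ _) (by linarith)))) K (by omega)) (by positivity)) ?_
    calc M ^ (2 * K) * ((2:ℝ) ^ r * M ^ K * (2 * (11 / ((45056:ℕ):ℝ)) ^ (r / 2)))
        = M ^ (3 * K) * (2 * (2:ℝ) ^ r * ((1/64:ℝ) ^ (2 * (r / 2)))) := by
          rw [pow_mul (1/64:ℝ), show (3 * K) = 2 * K + K by omega, pow_add M (2 * K) K]
          norm_num; ring
      _ ≤ 2 ^ r * (2 * (2:ℝ) ^ r * ((1/64:ℝ) ^ r * 64)) := by
          refine mul_le_mul ?_ (mul_le_mul_of_nonneg_left ?_ (by positivity)) (by positivity) (by positivity)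
          · refine (pow_le_pow_left₀ (by linarith) hMexp _).trans ?_
            rw [← Real.exp_nat_mul, ← Real.rpow_natCast 2 r, Real.rpow_def_of_pos two_pos]
            refine Real.exp_le_exp.2 ?_
            have := mul_le_mul_of_nonneg_right (show (21/100:ℝ) ≤ Real.log 2 by
              linarith [Real.log_two_gt_d9]) (show (0:ℝ) ≤ r by linarith)
            rw [hKv]; norm_num
            linarith
          · calc (1/64:ℝ) ^ (2 * (r / 2)) = (1/64:ℝ) ^ (2 * (r / 2) + 1) * 64 := by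
                  rw [pow_succ]; ring
              _ ≤ _ := mul_le_mul_of_nonneg_right
                  (pow_le_pow_of_le_one (by norm_num) (by norm_num) (by omega)) (by norm_num)
      _ = _ := by
          rw [show (1/64:ℝ) = 1/16 * (1/2) * (1/2) by norm_num, mul_pow, mul_pow]
          have : (2:ℝ) ^ r * (1/2:ℝ) ^ r = 1 := by rw [← mul_pow]; norm_num
          calc _ = 128 * (1/16:ℝ) ^ r * ((2:ℝ) ^ r * (1/2:ℝ) ^ r) ^ 2 := by ring
            _ = _ := by rw [this]; ring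
  have hB : ∀ k ∈ Icc K r, M ^ (2 * k) * (matLaw r).pr (fun D => rk D + k = r)
      ≤ 3 * (1/16:ℝ) ^ r := by
    intro k hk
    obtain ⟨hk1, hk2⟩ := mem_Icc.1 hk
    refine le_trans (mul_le_mul (pow_le_pow_left₀ (by linarith) hMexp _) (hc k (by omega) hk2)
      (Law.pr_nonneg _ _) (by positivity)) ?_
    rw [← Real.exp_nat_mul]
    calc Real.exp (((2 * k : ℕ) : ℝ) * ((r:ℝ) / 10000)) * (3 * 2 ^ r * Real.exp (-((k:ℝ) * r) / 100))
        = 3 * (2 ^ r * Real.exp (((2 * k : ℕ) : ℝ) * ((r:ℝ) / 10000) + -((k:ℝ) * r) / 100)) := by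
          rw [Real.exp_add]; ring
      _ ≤ _ := by
          refine mul_le_mul_of_nonneg_left ?_ (by norm_num)
          rw [← Real.rpow_natCast 2 r, ← Real.rpow_natCast (1/16:ℝ) r,
            Real.rpow_def_of_pos two_pos, Real.rpow_def_of_pos (by norm_num : (0:ℝ) < 1/16),
            ← Real.exp_add]
          refine Real.exp_le_exp.2 ?_
          have hk' : (700:ℝ) ≤ k := by exact_mod_cast hKv ▸ hk1
          have := mul_le_mul_of_nonneg_right hk' (show (0:ℝ) ≤ r by linarith)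
          have hl : Real.log (1/16:ℝ) = -4 * Real.log 2 := by
            rw [show (1/16:ℝ) = (2 ^ 4)⁻¹ by norm_num, Real.log_inv, Real.log_pow]; push_cast; ring
          have := mul_le_mul_of_nonneg_right (show Real.log 2 ≤ 1 by linarith [Real.log_two_lt_d9])
            (show (0:ℝ) ≤ r by linarith)
          rw [hl]; push_cast
          linarith
  refine le_trans (add_le_add hA (sum_le_sum hB)) ?_
  rw [sum_const, nsmul_eq_mul, Nat.card_Icc]
  have hcard : ((r + 1 - K : ℕ) : ℝ) ≤ (r:ℝ) + 1 := by exact_mod_cast (show r + 1 - K ≤ r + 1 by omega)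
  have e : (1/16:ℝ) ^ r = (1/8:ℝ) ^ r * (1/2:ℝ) ^ r := by rw [← mul_pow]; norm_num
  have h16 : (0:ℝ) ≤ 3 * (1/16:ℝ) ^ r := by positivity
  refine le_trans (add_le_add le_rfl (mul_le_mul_of_nonneg_right hcard h16)) ?_
  rw [e]
  calc _ = (1/8:ℝ) ^ r * (3 * ((r:ℝ) ^ 1 * (1/2:ℝ) ^ r) + 3 * (1/2:ℝ) ^ r + 128 * (1/2:ℝ) ^ r) := by ring
    _ ≤ _ := mul_le_of_le_one_right (by positivity) hsmall

end Vale.Agent.P160.Height
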