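import Mathlib

/-! Finite laws and the statements shared by the height modules of P160. -/

noncomputable section

open Finset
open scoped BigOperators

namespace Vale.Agent.P160.Height

/-- A finitely supported probability law. -/
structure Law (α : Type) where
  supp : Finset α
  w : α → ℝ
  nonneg : ∀ x, 0 ≤ w x
  sum_one : ∑ x ∈ supp, w x = 1

/-- Expectation. -/
def Law.ex {α : Type} (μ : Law α) (f : α → ℝ) : ℝ := ∑ x ∈ μ.supp, μ.w x * f x

open Classical in
/-- Probability of an event. -/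
def Law.pr {α : Type} (μ : Law α) (P : α → Prop) : ℝ := ∑ x ∈ μ.supp.filter P, μ.w x

/-- Independent coordinates. -/
def Law.pi {ι α : Type} [Fintype ι] [DecidableEq ι] (μ : ι → Law α) : Law (ι → α) where
  supp := Fintype.piFinset fun i => (μ i).supp
  w x := ∏ i, (μ i).w (x i)
  nonneg _ := prod_nonneg fun i _ => (μ i).nonneg _
  sum_one := by
    rw [← prod_univ_sum]
    exact prod_eq_one fun i _ => (μ i).sum_one

/-- The Gaussian weights on `[-B, B]`, normalised. -/
def gauss (β : ℝ) (B : ℕ) : Law ℤ where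
  supp := Icc (-(B : ℤ)) B
  w x := Real.exp (-β * (x : ℝ) ^ 2) / ∑ y ∈ Icc (-(B : ℤ)) B, Real.exp (-β * (y : ℝ) ^ 2)
  nonneg _ := div_nonneg (Real.exp_pos _).le (sum_nonneg fun _ _ => (Real.exp_pos _).le)
  sum_one := by
    rw [← sum_div]
    refine div_self (ne_of_gt ?_)
    exact sum_pos (fun _ _ => Real.exp_pos _) ⟨0, by simp⟩

/-- The lazy sign law: `±1` with probability `1 / (64 m²)` each. -/
def lazySign (m : ℕ) : Law ℤ where
  supp := {-1, 0, 1}
  w x := if x = 0 then 1 - 2 * (1 / (64 * (m : ℝ) ^ 2)) else 1 / (64 * (m : ℝ) ^ 2)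
  nonneg x := by
    rcases Nat.eq_zero_or_pos m with rfl | hm
    · split_ifs <;> norm_num
    · have h1 : (1 : ℝ) ≤ m := by exact_mod_cast hm
      have : 1 / (64 * (m : ℝ) ^ 2) ≤ 1 / 64 := by
        gcongr
        nlinarith
      split_ifs
      · linarith
      · positivity
  sum_one := by
    simp [Finset.sum_insert]
    ring

/-- The law of a row with independent coordinates. -/
def rowLaw (μ : Law ℤ) (r : ℕ) : Law (Fin r → ℤ) := Law.pi fun _ => μ

/-- An integer vector as a rational one. -/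
def qcast {r : ℕ} (x : Fin r → ℤ) : Fin r → ℚ := fun i => (x i : ℚ)

/-- Comparison of two Gaussian laws on subspaces of codimension at least `k`. -/
def GaussCompare : Prop :=
  ∃ R0 : ℕ, ∀ r k : ℕ, R0 ≤ r → 1 ≤ k → ∀ H : Submodule ℚ (Fin r → ℚ),
    Module.finrank ℚ H + k ≤ r →
      (rowLaw (gauss 2 r) r).pr (fun x => qcast x ∈ H) ≤
        Real.exp (-(k : ℝ) / 50) * (rowLaw (gauss 3 r) r).pr (fun x => qcast x ∈ H)

/-- The inequality of Halász for dense vectors of at most exponential height. -/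
def HalaszBound : Prop :=
  ∀ m : ℕ, 1 ≤ m → ∃ δ : ℝ, 0 < δ ∧ ∃ R0 : ℕ, ∀ r : ℕ, R0 ≤ r → ∀ N : ℕ,
    (N : ℝ) ≤ (2 : ℝ) ^ (δ * r) → ∀ v : Fin r → ℤ, (∀ i, |v i| ≤ (N : ℤ)) →
      r ≤ 2 * (univ.filter fun i => v i ≠ 0).card →
        (rowLaw (gauss 2 r) r).pr (fun x => ∑ i, x i * v i = 0) ≤
            11 / (m : ℝ) * (rowLaw (lazySign m) r).pr (fun x => ∑ i, x i * v i = 0) ∧
          1 / (2 * (r : ℝ) * N + 1) ≤ (rowLaw (lazySign m) r).pr (fun x => ∑ i, x i * v i = 0)

end Vale.Agent.P160.Height
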