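import Vale.Agent.P160.Height.Basic

/-! The inequality of Halász for dense vectors of at most exponential height. -/

noncomputable section

open Finset
open scoped BigOperators Pointwise

namespace Vale.Agent.P160.Height

namespace Halasz

variable {p : ℕ} [hpr : Fact p.Prime]

/-- Squared sine on `ZMod p`. -/
def sn (z : ZMod p) : ℝ := Real.sin (Real.pi * z.val / p) ^ 2

/-- The Fourier transform of a symmetric law. -/
def phi (μ : Law ℤ) (z : ZMod p) : ℝ :=
  μ.ex fun x => Real.cos (2 * Real.pi * (x : ℝ) * z.val / p)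

theorem sn_intCast (k : ℤ) : sn (k : ZMod p) = Real.sin (Real.pi * k / p) ^ 2 := by
  have hp0 : (p : ℝ) ≠ 0 := by exact_mod_cast hpr.out.ne_zero
  have hv : (((k : ZMod p).val : ℤ)) = k % p := ZMod.val_intCast k
  have hk : (k : ℝ) = ((k : ZMod p).val : ℝ) + (p : ℝ) * ((k / p : ℤ) : ℝ) := by
    have h := (Int.emod_add_mul_ediv k p).symm
    rw [← hv] at h
    exact_mod_cast h
  have he : Real.pi * k / p = Real.pi * ((k : ZMod p).val : ℝ) / p + ((k / p : ℤ) : ℝ) * Real.pi := by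
    rw [hk]; field_simp
  rw [he, Real.sin_add_int_mul_pi, mul_pow, sn]
  rcases Int.even_or_odd (k / (p : ℤ)) with h | h <;> simp [h.neg_one_zpow]

theorem sn_zero : sn (0 : ZMod p) = 0 := by simp [sn]

theorem sn_add_le (a b : ZMod p) (j : ℝ) (hj : 0 < j) :
    sn (a + b) ≤ (1 + 1 / j) * sn a + (1 + j) * sn b := by
  have h : sn (a + b) = Real.sin (Real.pi * a.val / p + Real.pi * b.val / p) ^ 2 := by
    have e : a + b = (((a.val + b.val : ℕ) : ℤ) : ZMod p) := by simp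
    conv_lhs => rw [e]
    rw [sn_intCast]; push_cast; ring_nf
  rw [h, sn, sn, Real.sin_add]
  generalize Real.pi * a.val / p = x
  generalize Real.pi * b.val / p = y
  set u := Real.sin x
  set w := Real.sin y
  have hu : (u * Real.cos y) ^ 2 ≤ u ^ 2 := by
    rw [mul_pow]; exact mul_le_of_le_one_right (sq_nonneg _) (Real.cos_sq_le_one y)
  have hw : (Real.cos x * w) ^ 2 ≤ w ^ 2 := by
    rw [mul_pow]; exact mul_le_of_le_one_left (sq_nonneg _) (Real.cos_sq_le_one x)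
  generalize u * Real.cos y = s at hu ⊢
  generalize Real.cos x * w = t at hw ⊢
  have key : 0 ≤ (1 / j) * (s - j * t) ^ 2 := by positivity
  have e : (1 / j) * (s - j * t) ^ 2 = (1 / j) * s ^ 2 - 2 * (s * t) + j * t ^ 2 := by
    field_simp; ring
  have h1 : (1 + 1 / j) * s ^ 2 ≤ (1 + 1 / j) * u ^ 2 :=
    mul_le_mul_of_nonneg_left hu (by positivity)
  have h2 : (1 + j) * t ^ 2 ≤ (1 + j) * w ^ 2 := mul_le_mul_of_nonneg_left hw (by positivity)
  nlinarith

theorem char_eq (x : ℤ) (z : ZMod p) :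
    ZMod.stdAddChar ((x : ZMod p) * z) =
      Complex.exp (((2 * Real.pi * (x : ℝ) * z.val / p : ℝ) : ℂ) * Complex.I) := by
  have e : (x : ZMod p) * z = ((x * (z.val : ℤ) : ℤ) : ZMod p) := by simp
  rw [e, ZMod.stdAddChar_coe]
  congr 1
  push_cast
  ring

theorem sum_sn : ∑ z : ZMod p, sn z = (p : ℝ) / 2 := by
  have h0 : ∑ z : ZMod p, ZMod.stdAddChar (((1 : ℤ) : ZMod p) * z) = 0 := by
    have := AddChar.sum_mulShift (1 : ZMod p) (ZMod.isPrimitive_stdAddChar p)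
    simpa using this
  have h1 : ∑ z : ZMod p, Real.cos (2 * (Real.pi * z.val / p)) = 0 := by
    have := congrArg Complex.re h0
    simp only [char_eq, Complex.re_sum, Complex.exp_ofReal_mul_I_re, Complex.zero_re] at this
    rw [← this]
    exact Finset.sum_congr rfl fun z _ => by push_cast; ring_nf
  calc ∑ z : ZMod p, sn z
      = ∑ z : ZMod p, (1 / 2 - Real.cos (2 * (Real.pi * z.val / p)) / 2) :=
        Finset.sum_congr rfl fun z _ => by rw [sn, Real.sin_sq_eq_half_sub]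
    _ = (p : ℝ) / 2 := by
        rw [sum_sub_distrib, ← sum_div, ← sum_div, h1]
        simp [ZMod.card]

variable {r : ℕ}

/-- The exponent at frequency `ξ`. -/
def S (v : Fin r → ℤ) (ξ : ZMod p) : ℝ := ∑ i, sn (ξ * (v i : ZMod p))

theorem S_add_le (v : Fin r → ℤ) (a b : ZMod p) (j : ℝ) (hj : 0 < j) :
    S v (a + b) ≤ (1 + 1 / j) * S v a + (1 + j) * S v b := by
  rw [S, S, S, mul_sum, mul_sum, ← sum_add_distrib]
  refine sum_le_sum fun i _ => ?_
  rw [add_mul a]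
  exact sn_add_le _ _ j hj

theorem sum_S_ge (v : Fin r → ℤ) (hv : ∀ i, v i ≠ 0 → (v i : ZMod p) ≠ 0) :
    ((univ.filter fun i => v i ≠ 0).card : ℝ) * ((p : ℝ) / 2) ≤ ∑ ξ : ZMod p, S v ξ := by
  simp only [S]
  rw [sum_comm]
  calc ((univ.filter fun i => v i ≠ 0).card : ℝ) * ((p : ℝ) / 2)
      = ∑ _i ∈ univ.filter fun i => v i ≠ 0, (p : ℝ) / 2 := by simp
    _ = ∑ i ∈ univ.filter fun i => v i ≠ 0, ∑ ξ : ZMod p, sn (ξ * (v i : ZMod p)) := by
        refine sum_congr rfl fun i hi => ?_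
        rw [← sum_sn (p := p)]
        exact (Fintype.sum_equiv (Equiv.mulRight₀ _ (hv i (mem_filter.1 hi).2)) _ _
          fun ξ => rfl).symm
    _ ≤ _ := sum_le_univ_sum_of_nonneg fun i => sum_nonneg fun ξ _ => sq_nonneg _

/-- Cauchy-Davenport for the sublevel sets. -/
theorem sumset_grow (v : Fin r → ℤ) {s : ℝ} (hs : 0 ≤ s) (j : ℕ) :
    ∃ T : Finset (ZMod p),
      min p (j * ((univ.filter fun ξ : ZMod p => S v ξ ≤ s).card - 1) + 1) ≤ T.card ∧
        ∀ d ∈ T, S v d ≤ (j : ℝ) ^ 2 * s := by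
  have h0 : S v (0 : ZMod p) = 0 := by simp [S, sn_zero]
  set A := univ.filter fun ξ : ZMod p => S v ξ ≤ s with hA
  have hAne : A.Nonempty := ⟨0, by simp [hA, h0, hs]⟩
  induction j with
  | zero => exact ⟨{0}, by simp, fun d hd => by simp_all⟩
  | succ j ih =>
    obtain ⟨T, hT, hmem⟩ := ih
    have hTne : T.Nonempty := by
      refine card_pos.1 (lt_of_lt_of_le ?_ hT)
      exact lt_min hpr.out.pos (by omega)
    refine ⟨T + A, ?_, fun d hd => ?_⟩
    · have hcd := ZMod.cauchy_davenport hpr.out hTne hAne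
      have := hAne.card_pos
      have : (j + 1) * (A.card - 1) = j * (A.card - 1) + (A.card - 1) := by ring
      omega
    · obtain ⟨a, ha, b, hb, rfl⟩ := mem_add.1 hd
      have ha' := hmem a ha
      have hb' : S v b ≤ s := (mem_filter.1 hb).2
      rcases Nat.eq_zero_or_pos j with rfl | hj
      · have : ∀ i, 0 ≤ sn (a * (v i : ZMod p)) := fun i => sq_nonneg _
        have hz : S v a = 0 := le_antisymm (by simpa using ha') (sum_nonneg fun i _ => this i)
        have hzi : ∀ i, sn (a * (v i : ZMod p)) = 0 := fun i =>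
          (sum_eq_zero_iff_of_nonneg fun i _ => this i).1 hz i (mem_univ i)
        have hle : S v (a + b) ≤ s := by
          refine le_trans (le_of_forall_pos_le_add fun e he => ?_) hb'
          have h := S_add_le v a b (e / (S v b + 1))
            (div_pos he (by have : 0 ≤ S v b := sum_nonneg fun i _ => sq_nonneg _; linarith))
          have hb0 : 0 ≤ S v b := sum_nonneg fun i _ => sq_nonneg _
          have h2 : e / (S v b + 1) * S v b ≤ e := by
            rw [div_mul_eq_mul_div, div_le_iff₀ (by linarith)]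
            nlinarith
          rw [hz] at h
          linarith
        simpa using hle
      · have hj' : (0 : ℝ) < j := by exact_mod_cast hj
        calc S v (a + b) ≤ (1 + 1 / (j : ℝ)) * S v a + (1 + (j : ℝ)) * S v b :=
              S_add_le v a b j hj'
          _ ≤ (1 + 1 / (j : ℝ)) * ((j : ℝ) ^ 2 * s) + (1 + (j : ℝ)) * s := by gcongr
          _ = _ := by push_cast; field_simp; ring

theorem level_card (v : Fin r → ℤ) (hv : ∀ i, v i ≠ 0 → (v i : ZMod p) ≠ 0) {s : ℝ} (hs : 0 ≤ s)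
    {m : ℕ} (hm : 1 ≤ m)
    (hlt : (m : ℝ) ^ 2 * s < ((univ.filter fun i => v i ≠ 0).card : ℝ) / 2) :
    ((univ.filter fun ξ : ZMod p => S v ξ ≤ s).card : ℝ) ≤
      ((univ.filter fun ξ : ZMod p => S v ξ ≤ (m : ℝ) ^ 2 * s).card : ℝ) / m + 1 := by
  obtain ⟨T, hT, hmem⟩ := sumset_grow (p := p) v hs m
  set A := univ.filter fun ξ : ZMod p => S v ξ ≤ s
  set A' := univ.filter fun ξ : ZMod p => S v ξ ≤ (m : ℝ) ^ 2 * s with hA'
  have hsub : T ⊆ A' := fun d hd => mem_filter.2 ⟨mem_univ d, hmem d hd⟩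
  have hTA := card_le_card hsub
  have hp0 : (0 : ℝ) < p := by exact_mod_cast hpr.out.pos
  have hAp : A'.card < p := by
    by_contra h
    have hu : A' = univ := eq_univ_of_card _ (le_antisymm (card_le_univ _) (by
      rw [ZMod.card]; omega))
    have hall : ∀ ξ : ZMod p, S v ξ ≤ (m : ℝ) ^ 2 * s := fun ξ => by
      have : ξ ∈ A' := hu ▸ mem_univ ξ
      exact (mem_filter.1 this).2
    have h1 : ∑ ξ : ZMod p, S v ξ ≤ (p : ℝ) * ((m : ℝ) ^ 2 * s) :=
      (sum_le_sum fun ξ _ => hall ξ).trans_eq (by simp [ZMod.card])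
    have h2 := sum_S_ge (p := p) v hv
    nlinarith
  have h3 : m * (A.card - 1) + 1 ≤ A'.card := by
    have := min_le_iff.1 (hT.trans hTA)
    omega
  have hm0 : (0 : ℝ) < m := by exact_mod_cast hm
  rcases Nat.eq_zero_or_pos A.card with h | h
  · rw [h]; push_cast; positivity
  have h4 : (m : ℝ) * ((A.card : ℝ) - 1) + 1 ≤ A'.card := by
    rw [← Nat.cast_one (R := ℝ), ← Nat.cast_sub h]; exact_mod_cast h3
  rw [← sub_le_iff_le_add, le_div_iff₀ hm0]
  linarith

/-- A law on the integers that is symmetric. -/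
structure Symm (μ : Law ℤ) : Prop where
  supp : ∀ x ∈ μ.supp, -x ∈ μ.supp
  w : ∀ x, μ.w (-x) = μ.w x

theorem phi_complex {μ : Law ℤ} (hμ : Symm μ) (z : ZMod p) :
    (phi μ z : ℂ) = ∑ x ∈ μ.supp, (μ.w x : ℂ) * ZMod.stdAddChar ((x : ZMod p) * z) := by
  have hodd : ∑ x ∈ μ.supp, μ.w x * Real.sin (2 * Real.pi * (x : ℝ) * z.val / p) = 0 := by
    have h : ∑ x ∈ μ.supp, μ.w x * Real.sin (2 * Real.pi * (x : ℝ) * z.val / p)
        = ∑ x ∈ μ.supp, -(μ.w x * Real.sin (2 * Real.pi * (x : ℝ) * z.val / p)) := by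
      refine sum_nbij' (fun x => -x) (fun x => -x) (fun x hx => hμ.supp x hx)
        (fun x hx => hμ.supp x hx) (fun x _ => neg_neg x) (fun x _ => neg_neg x) fun x _ => ?_
      rw [hμ.w, show (2 * Real.pi * ((-x : ℤ) : ℝ) * z.val / p)
        = -(2 * Real.pi * (x : ℝ) * z.val / p) by push_cast; ring, Real.sin_neg]
      ring
    rw [sum_neg_distrib] at h
    linarith
  apply Complex.ext
  · simp only [phi, Law.ex, char_eq, Complex.re_sum, Complex.ofReal_re, Complex.re_ofReal_mul,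
      Complex.exp_ofReal_mul_I_re]
  · simp only [Complex.ofReal_im, Complex.im_sum, char_eq, Complex.im_ofReal_mul,
      Complex.exp_ofReal_mul_I_im]
    exact hodd.symm

theorem char_sum {ι : Type} (ψ : AddChar (ZMod p) ℂ) (s : Finset ι) (f : ι → ZMod p) :
    ψ (∑ i ∈ s, f i) = ∏ i ∈ s, ψ (f i) := by
  classical
  induction s using Finset.induction with
  | empty => simp
  | insert a s ha ih => rw [sum_insert ha, prod_insert ha, AddChar.map_add_eq_mul, ih]

theorem fourier {μ : Law ℤ} (hμ : Symm μ) {B N : ℕ} (hB : ∀ x ∈ μ.supp, |x| ≤ (B : ℤ))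
    (v : Fin r → ℤ) (hv : ∀ i, |v i| ≤ (N : ℤ)) (y : ℤ) (hp : r * B * N + y.natAbs < p) :
    ((p : ℝ) * (rowLaw μ r).pr (fun x => ∑ i, x i * v i = y) : ℂ) =
      ∑ ξ : ZMod p, ZMod.stdAddChar (ξ * ((-y : ℤ) : ZMod p)) *
        ((∏ i, phi μ (ξ * (v i : ZMod p)) : ℝ) : ℂ) := by
  classical
  have hev : ∀ x ∈ (rowLaw μ r).supp, ((((∑ i, x i * v i) - y : ℤ) : ZMod p) = 0 ↔
      ∑ i, x i * v i = y) := by
    intro x hx
    have hx' := Fintype.mem_piFinset.1 hx
    refine ⟨fun h => ?_, fun h => by simp [h]⟩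
    rw [ZMod.intCast_zmod_eq_zero_iff_dvd] at h
    have h1 : |∑ i, x i * v i| ≤ (r : ℤ) * B * N := by
      refine (abs_sum_le_sum_abs _ _).trans ((sum_le_sum (g := fun _ => (B : ℤ) * N) fun i _ => ?_).trans_eq ?_)
      · rw [abs_mul]
        exact mul_le_mul (hB _ (hx' i)) (hv i) (abs_nonneg _) (by positivity)
      · simp; ring
    have h2 : |(∑ i, x i * v i) - y| < (p : ℤ) := by
      have h3 := abs_sub (∑ i, x i * v i) y
      have h4 : ((r * B * N + y.natAbs : ℕ) : ℤ) < p := by exact_mod_cast hp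
      push_cast [Nat.cast_natAbs, Int.cast_abs, Int.cast_id] at h4
      linarith
    exact sub_eq_zero.1 (Int.eq_zero_of_abs_lt_dvd h h2)
  have hprod : ∀ ξ : ZMod p, ZMod.stdAddChar (ξ * ((-y : ℤ) : ZMod p)) *
      ((∏ i, phi μ (ξ * (v i : ZMod p)) : ℝ) : ℂ) = ∑ x ∈ (rowLaw μ r).supp,
        ((rowLaw μ r).w x : ℂ) * ZMod.stdAddChar (ξ * (((∑ i, x i * v i) - y : ℤ) : ZMod p)) := by
    intro ξ
    rw [Complex.ofReal_prod]
    simp only [phi_complex hμ]
    rw [prod_univ_sum, mul_sum]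
    refine sum_congr rfl fun x _ => ?_
    rw [prod_mul_distrib, ← char_sum, mul_left_comm, ← AddChar.map_add_eq_mul]
    simp only [rowLaw, Law.pi, Complex.ofReal_prod]
    congr 2
    push_cast
    rw [mul_sub, mul_sum, mul_neg, neg_add_eq_sub]
    congr 1
    exact sum_congr rfl fun i _ => by ring
  simp only [hprod]
  rw [sum_comm]
  simp only [← mul_sum, AddChar.sum_mulShift _ (ZMod.isPrimitive_stdAddChar p), ZMod.card]
  rw [Law.pr, sum_filter]
  push_cast
  rw [mul_sum]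
  refine sum_congr rfl fun x hx => ?_
  have := hev x hx
  push_cast at this
  by_cases h : ∑ i, x i * v i = y
  · rw [if_pos h, if_pos (this.2 h), mul_comm]
  · rw [if_neg h, if_neg (fun hh => h (this.1 hh))]
    simp

theorem fourier_zero {μ : Law ℤ} (hμ : Symm μ) {B N : ℕ} (hB : ∀ x ∈ μ.supp, |x| ≤ (B : ℤ))
    (v : Fin r → ℤ) (hv : ∀ i, |v i| ≤ (N : ℤ)) (hp : r * B * N < p) :
    (p : ℝ) * (rowLaw μ r).pr (fun x => ∑ i, x i * v i = 0) =
      ∑ ξ : ZMod p, ∏ i, phi μ (ξ * (v i : ZMod p)) := by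
  have h := fourier hμ hB v hv 0 (by simpa using hp)
  simp only [neg_zero, Int.cast_zero, mul_zero, AddChar.map_zero_eq_one, one_mul] at h
  exact_mod_cast h

/-- With a nonnegative transform the most likely value is zero. -/
theorem pr_zero_ge {μ : Law ℤ} (hμ : Symm μ) (hB : ∀ x ∈ μ.supp, |x| ≤ (1 : ℤ))
    (hpos : ∀ z : ZMod p, 0 ≤ phi μ z)
    {N : ℕ} (v : Fin r → ℤ) (hv : ∀ i, |v i| ≤ (N : ℤ)) (hp : 2 * (r * N) < p) :
    1 / (2 * (r : ℝ) * N + 1) ≤ (rowLaw μ r).pr (fun x => ∑ i, x i * v i = 0) := by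
  classical
  have hp0 : (0 : ℝ) < p := by exact_mod_cast hpr.out.pos
  have hB' : ∀ x ∈ μ.supp, |x| ≤ ((1 : ℕ) : ℤ) := by simpa using hB
  have h0 := fourier_zero (p := p) hμ hB' v hv (by simp only [mul_one]; omega)
  set P := (rowLaw μ r).pr (fun x => ∑ i, x i * v i = 0) with hP
  set T : Finset ℤ := Icc (-((r * N : ℕ) : ℤ)) ((r * N : ℕ) : ℤ) with hT
  have hmaps : ∀ x ∈ (rowLaw μ r).supp, (∑ i, x i * v i) ∈ T := by
    intro x hx
    have hx' := Fintype.mem_piFinset.1 hx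
    rw [hT, mem_Icc, ← abs_le]
    refine (abs_sum_le_sum_abs _ _).trans ((sum_le_sum (g := fun _ => (N : ℤ)) fun i _ => ?_).trans_eq ?_)
    · rw [abs_mul]
      exact (mul_le_mul (hB _ (hx' i)) (hv i) (abs_nonneg _) zero_le_one).trans_eq (one_mul _)
    · simp
  have h1 : (1 : ℝ) = ∑ y ∈ T, (rowLaw μ r).pr (fun x => ∑ i, x i * v i = y) := by
    rw [← (rowLaw μ r).sum_one, ← sum_fiberwise_of_maps_to hmaps]
    refine sum_congr rfl fun y _ => ?_
    simp only [Law.pr]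
    congr!
  have hle : ∀ y ∈ T, (rowLaw μ r).pr (fun x => ∑ i, x i * v i = y) ≤ P := by
    intro y hy
    rw [hT, mem_Icc, ← abs_le] at hy
    have hy' : r * 1 * N + y.natAbs < p := by
      have : y.natAbs ≤ r * N := by
        have := hy; rw [← Int.natCast_natAbs] at this; exact_mod_cast this
      simp only [mul_one]; omega
    have h := congrArg (fun z : ℂ => ‖z‖) (fourier hμ hB' v hv y hy')
    simp only [← Complex.ofReal_mul, Complex.norm_real,
      Real.norm_eq_abs] at h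
    rw [abs_of_nonneg (mul_nonneg hp0.le (Law.pr_nonneg _ _))] at h
    refine le_of_mul_le_mul_left (h.trans_le ((norm_sum_le _ _).trans (le_of_eq ?_))) hp0
    rw [hP, h0]
    refine sum_congr rfl fun ξ _ => ?_
    rw [norm_mul, AddChar.norm_apply, one_mul, Complex.norm_real, Real.norm_eq_abs,
      abs_of_nonneg (prod_nonneg fun i _ => hpos _)]
  have hcard : (T.card : ℝ) = 2 * (r : ℝ) * N + 1 := by
    rw [hT, Int.card_Icc]
    have : ((((r * N : ℕ) : ℤ) + 1 - -((r * N : ℕ) : ℤ)).toNat) = 2 * (r * N) + 1 := by omega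
    rw [this]; push_cast; ring
  have h2 : (1 : ℝ) ≤ (2 * (r : ℝ) * N + 1) * P := by
    rw [← hcard]
    calc (1 : ℝ) = _ := h1
      _ ≤ T.card • P := sum_le_card_nsmul _ _ _ hle
      _ = _ := nsmul_eq_mul _ _
  rw [div_le_iff₀ (by positivity)]
  linarith

theorem symm_gauss (β : ℝ) (B : ℕ) : Symm (gauss β B) where
  supp x hx := by simp only [gauss, mem_Icc] at hx ⊢; omega
  w x := by simp [gauss]

theorem symm_lazy (m : ℕ) : Symm (lazySign m) where
  supp x hx := by simp only [lazySign, mem_insert, mem_singleton] at hx ⊢; omega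
  w x := by simp [lazySign]

theorem gauss_mass_le (B : ℕ) :
    ∑ y ∈ Icc (-(B : ℤ)) B, Real.exp (-2 * (y : ℝ) ^ 2) ≤ 2 - (1 / 2) ^ B := by
  induction B with
  | zero => norm_num
  | succ B ih =>
    have e : Icc (-((B + 1 : ℕ) : ℤ)) ((B + 1 : ℕ) : ℤ)
        = insert ((B + 1 : ℕ) : ℤ) (insert (-((B + 1 : ℕ) : ℤ)) (Icc (-(B : ℤ)) B)) := by
      ext x; simp only [mem_Icc, mem_insert]; omega
    rw [e, sum_insert (by simp only [mem_insert, mem_Icc]; omega),
      sum_insert (by simp only [mem_Icc]; omega)]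
    push_cast
    rw [show (-((B : ℝ) + 1)) ^ 2 = ((B : ℝ) + 1) ^ 2 by ring]
    have h1 : Real.exp (-2 * ((B : ℝ) + 1) ^ 2) ≤ (1 / 4) ^ (B + 1) := by
      calc Real.exp (-2 * ((B : ℝ) + 1) ^ 2) ≤ Real.exp (((B + 1 : ℕ) : ℝ) * (-2)) := by
            refine Real.exp_le_exp.2 ?_
            push_cast
            nlinarith [Nat.cast_nonneg (α := ℝ) B]
        _ = Real.exp (-2) ^ (B + 1) := Real.exp_nat_mul _ _
        _ ≤ _ := by
            refine pow_le_pow_left₀ (Real.exp_pos _).le ?_ _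
            rw [Real.exp_neg, inv_le_comm₀ (Real.exp_pos _) (by norm_num)]
            have := Real.quadratic_le_exp_of_nonneg (x := 2) (by norm_num)
            norm_num at this ⊢; linarith
    have h2 : ((1 : ℝ) / 4) ^ (B + 1) = (1 / 2) ^ (B + 1) * (1 / 2) ^ (B + 1) := by
      rw [← mul_pow]; norm_num
    have h3 : ((1 : ℝ) / 2) ^ (B + 1) = (1 / 2) ^ B * (1 / 2) := pow_succ _ _
    have h4 : ((1 : ℝ) / 2) ^ B ≤ 1 := pow_le_one₀ (by norm_num) (by norm_num)
    have h5 : (0 : ℝ) ≤ (1 / 2) ^ (B + 1) := by positivity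
    nlinarith

theorem phi_gauss_le {B : ℕ} (hB : 1 ≤ B) (z : ZMod p) :
    |phi (gauss 2 B) z| ≤ Real.exp (-sn z / 4) := by
  set μ := gauss 2 B
  set Z := ∑ y ∈ Icc (-(B : ℤ)) B, Real.exp (-2 * (y : ℝ) ^ 2) with hZ
  have hZ2 : Z ≤ 2 := (gauss_mass_le B).trans (by linarith [pow_nonneg (show (0:ℝ) ≤ 1/2 by norm_num) B])
  have hZ0 : 0 < Z := sum_pos (fun _ _ => Real.exp_pos _) ⟨0, by simp⟩
  set θ : ℤ → ℝ := fun x => 2 * Real.pi * (x : ℝ) * z.val / p
  have hw : ∀ x, μ.w x = Real.exp (-2 * (x : ℝ) ^ 2) / Z := fun x => rfl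
  have hw1 : 1 / 16 ≤ μ.w 1 := by
    rw [hw, le_div_iff₀ hZ0]
    have h8 : Real.exp 2 ≤ 8 := by
      have h1 := Real.exp_one_lt_d9
      rw [show (2 : ℝ) = 1 + 1 by norm_num, Real.exp_add]
      nlinarith [Real.exp_pos 1]
    norm_num
    rw [Real.exp_neg]
    calc (1 : ℝ) / 16 * Z ≤ 1 / 8 := by linarith
      _ ≤ (Real.exp 2)⁻¹ := by rw [one_div]; exact inv_anti₀ (Real.exp_pos _) h8
  have hw0 : 2 * μ.w 1 ≤ μ.w 0 := by
    rw [hw, hw, ← mul_div_assoc]
    refine div_le_div_of_nonneg_right ?_ hZ0.le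
    norm_num
    rw [Real.exp_neg, ← div_eq_mul_inv, div_le_one (Real.exp_pos _)]
    have := Real.add_one_le_exp (2 : ℝ); linarith
  have hsum : ∑ x ∈ μ.supp, μ.w x = 1 := μ.sum_one
  have hup : 4 * μ.w 1 * sn z ≤ 1 - phi μ z := by
    rw [phi, Law.ex, ← hsum, ← sum_sub_distrib]
    have hsub : ({1, -1} : Finset ℤ) ⊆ μ.supp := by
      intro x hx
      simp only [mem_insert, mem_singleton] at hx
      show x ∈ Icc (-(B : ℤ)) B
      rw [mem_Icc]; omega
    refine le_trans (le_of_eq ?_) (sum_le_sum_of_subset_of_nonneg hsub fun x _ _ => ?_)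
    · rw [sum_pair (by norm_num), (symm_gauss 2 B).w 1, sn, Real.sin_sq_eq_half_sub]
      push_cast
      rw [show 2 * Real.pi * (-1 : ℝ) * z.val / p = -(2 * Real.pi * (1 : ℝ) * z.val / p) by ring,
        Real.cos_neg, show 2 * (Real.pi * (z.val : ℝ) / p) = 2 * Real.pi * (1 : ℝ) * z.val / p by ring]
      ring
    · nlinarith [μ.nonneg x, Real.cos_le_one (2 * Real.pi * (x : ℝ) * z.val / p)]
  have hlo : 2 * μ.w 0 ≤ 1 + phi μ z := by
    rw [phi, Law.ex, ← hsum, ← sum_add_distrib]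
    refine le_trans (le_of_eq ?_) (single_le_sum (fun x _ => ?_) (show (0 : ℤ) ∈ μ.supp by
      show (0 : ℤ) ∈ Icc (-(B : ℤ)) B; rw [mem_Icc]; omega))
    · simp; ring
    · nlinarith [μ.nonneg x, Real.neg_one_le_cos (2 * Real.pi * (x : ℝ) * z.val / p)]
  have hs0 : 0 ≤ sn z := sq_nonneg _
  have hs1 : sn z ≤ 1 := Real.sin_sq_le_one _
  have hexp := Real.add_one_le_exp (-sn z / 4)
  rw [abs_le]
  constructor <;> nlinarith [μ.nonneg 1]

theorem phi_lazy (m : ℕ) (z : ZMod p) :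
    phi (lazySign m) z = 1 - 4 * (1 / (64 * (m : ℝ) ^ 2)) * sn z := by
  rw [phi, Law.ex, sn, Real.sin_sq_eq_half_sub]
  simp [lazySign, sum_insert]
  simp [neg_div, Real.cos_neg]
  ring_nf

theorem phi_lazy_ge {m : ℕ} (hm : 1 ≤ m) (z : ZMod p) :
    Real.exp (-sn z / (8 * (m : ℝ) ^ 2)) ≤ phi (lazySign m) z := by
  have hs0 : 0 ≤ sn z := sq_nonneg _
  have hs1 : sn z ≤ 1 := Real.sin_sq_le_one _
  have hm1 : (1 : ℝ) ≤ (m : ℝ) ^ 2 := by
    have : (1 : ℝ) ≤ m := by exact_mod_cast hm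
    nlinarith
  rw [phi_lazy]
  set x := sn z / (16 * (m : ℝ) ^ 2) with hx
  have e1 : 4 * (1 / (64 * (m : ℝ) ^ 2)) * sn z = x := by rw [hx]; field_simp; ring
  have e2 : -sn z / (8 * (m : ℝ) ^ 2) = -(2 * x) := by rw [hx]; field_simp; ring
  have hx0 : 0 ≤ x := by positivity
  have hx1 : x ≤ 1 / 16 := by
    rw [hx, div_le_iff₀ (by linarith)]; nlinarith
  rw [e1, e2, Real.exp_neg]
  have h := Real.add_one_le_exp (2 * x)
  rw [inv_le_iff_one_le_mul₀ (Real.exp_pos _)]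
  nlinarith

theorem height_small {m r N : ℕ} (hm : 1 ≤ m) (hr : 100000 * m ^ 5 ≤ r)
    (hN : (N : ℝ) ≤ (2 : ℝ) ^ (1 / (64 * (m : ℝ) ^ 2) * r)) :
    (2 * (r : ℝ) * N + 1) * ((m : ℝ) * Real.exp (-((r / (8 * m ^ 2) : ℕ) : ℝ) / 4)) ≤ 35 / 100 := by
  have hm0 : (0 : ℝ) < m := by exact_mod_cast hm
  have hr' : 100000 * (m : ℝ) ^ 5 ≤ r := by exact_mod_cast hr
  have hr0 : (0 : ℝ) < r := lt_of_lt_of_le (by positivity) hr'
  have hr1 : (1 : ℝ) ≤ r := by
    have : (0 : ℕ) < r := by exact_mod_cast hr0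
    exact_mod_cast this
  set y : ℝ := (r : ℝ) / (64 * (m : ℝ) ^ 2) with hy
  have hy0 : 0 ≤ y := by positivity
  set J := r / (8 * m ^ 2)
  have hJ : (r : ℝ) ≤ ((J : ℝ) + 1) * (8 * (m : ℝ) ^ 2) := by
    have := Nat.lt_div_mul_add (a := r) (show 0 < 8 * m ^ 2 by positivity)
    have h' : r ≤ (J + 1) * (8 * m ^ 2) := by rw [add_one_mul]; exact this.le
    exact_mod_cast h'
  have h2y : 2 * y - 1 / 4 ≤ (J : ℝ) / 4 := by
    have : 8 * y ≤ (J : ℝ) + 1 := by
      rw [hy, ← mul_div_assoc, div_le_iff₀ (by positivity)]; nlinarith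
    linarith
  have hNy : (N : ℝ) ≤ Real.exp y := by
    refine hN.trans ?_
    rw [Real.rpow_def_of_pos two_pos, Real.exp_le_exp, show 1 / (64 * (m : ℝ) ^ 2) * r = y by rw [hy]; ring]
    exact mul_le_of_le_one_left hy0 (by linarith [Real.log_two_lt_d9])
  have hM : 2 * (r : ℝ) * N + 1 ≤ 3 * r * Real.exp y := by
    have := mul_le_mul_of_nonneg_left hNy (show (0 : ℝ) ≤ 2 * r by positivity)
    have := one_le_mul_of_one_le_of_one_le hr1 (Real.one_le_exp hy0)
    linarith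
  have hE : Real.exp (-(J : ℝ) / 4) ≤ 4 / 3 * (Real.exp y * Real.exp y)⁻¹ := by
    calc Real.exp (-(J : ℝ) / 4) ≤ Real.exp (1 / 4 + -(y + y)) :=
          Real.exp_le_exp.2 (by linarith)
      _ = Real.exp (1 / 4) * (Real.exp y * Real.exp y)⁻¹ := by
          rw [Real.exp_add, Real.exp_neg, Real.exp_add]
      _ ≤ _ := by
          refine mul_le_mul_of_nonneg_right ?_ (by positivity)
          exact (Real.exp_bound_div_one_sub_of_interval (x := 1/4) (by norm_num) (by norm_num)).trans (by norm_num)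
  have hq : y ^ 2 / 2 ≤ Real.exp y := by
    have := Real.quadratic_le_exp_of_nonneg hy0; linarith
  calc (2 * (r : ℝ) * N + 1) * ((m : ℝ) * Real.exp (-(J : ℝ) / 4))
      ≤ (3 * r * Real.exp y) * ((m : ℝ) * (4 / 3 * (Real.exp y * Real.exp y)⁻¹)) := by gcongr
    _ = 4 * r * m * (Real.exp y)⁻¹ := by field_simp
    _ ≤ 4 * r * m * (y ^ 2 / 2)⁻¹ := by
        gcongr
    _ = 32768 * (m : ℝ) ^ 5 / r := by rw [hy]; field_simp; ring
    _ ≤ 35 / 100 := by rw [div_le_iff₀ hr0]; nlinarith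

end Halasz

open Halasz in
theorem halasz_bound : HalaszBound := by
  classical
  intro m hm
  refine ⟨1 / (64 * (m : ℝ) ^ 2), by
    have : (0 : ℝ) < m := by exact_mod_cast hm
    positivity, 100000 * m ^ 5, fun r hr N hN v hv hdense => ?_⟩
  have hm0 : (0 : ℝ) < m := by exact_mod_cast hm
  have hr1 : 1 ≤ r := le_trans (Nat.one_le_iff_ne_zero.2 (by positivity)) hr
  obtain ⟨p, hp, hprime⟩ :=
    Nat.exists_infinite_primes (r * r * N + 2 * (r * N) + N + 30 * m * (2 * r * N + 1) + 1)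
  have : Fact p.Prime := ⟨hprime⟩
  have hp0 : (0 : ℝ) < p := by exact_mod_cast hprime.pos
  have hμB : ∀ x ∈ (lazySign m).supp, |x| ≤ (1 : ℤ) := by
    intro x hx
    simp only [lazySign, mem_insert, mem_singleton] at hx
    rcases hx with rfl | rfl | rfl <;> norm_num
  have hgB : ∀ x ∈ (gauss 2 r).supp, |x| ≤ (r : ℤ) := fun x hx => abs_le.2 (mem_Icc.1 hx)
  have hpos : ∀ z : ZMod p, 0 ≤ phi (lazySign m) z := fun z =>
    le_trans (Real.exp_pos _).le (phi_lazy_ge hm z)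
  have hlow := pr_zero_ge (r := r) (symm_lazy m) hμB hpos v hv (by omega)
  refine ⟨?_, hlow⟩
  have hG := fourier_zero (p := p) (symm_gauss 2 r) hgB v hv (by omega)
  have hμ := fourier_zero (p := p) (B := 1) (symm_lazy m) (by simpa using hμB) v hv
    (by simp only [mul_one]; omega)
  set Pg := (rowLaw (gauss 2 r) r).pr (fun x => ∑ i, x i * v i = 0)
  set Pm := (rowLaw (lazySign m) r).pr (fun x => ∑ i, x i * v i = 0)
  set F : ℝ := (p : ℝ) * Pm with hF
  set J := r / (8 * m ^ 2) with hJ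
  have hv' : ∀ i, v i ≠ 0 → (v i : ZMod p) ≠ 0 := by
    intro i hi h
    rw [ZMod.intCast_zmod_eq_zero_iff_dvd] at h
    refine hi (Int.eq_zero_of_abs_lt_dvd h (lt_of_le_of_lt (hv i) ?_))
    exact_mod_cast (by omega : N < p)
  have hg : ∀ ξ : ZMod p, ∏ i, phi (gauss 2 r) (ξ * (v i : ZMod p)) ≤ Real.exp (-S v ξ / 4) := by
    intro ξ
    refine (le_abs_self _).trans ?_
    rw [abs_prod, S, ← sum_neg_distrib, sum_div, Real.exp_sum]
    exact prod_le_prod (fun i _ => abs_nonneg _) fun i _ => phi_gauss_le hr1 _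
  have hl : ∀ ξ : ZMod p,
      Real.exp (-S v ξ / (8 * (m : ℝ) ^ 2)) ≤ ∏ i, phi (lazySign m) (ξ * (v i : ZMod p)) := by
    intro ξ
    rw [S, ← sum_neg_distrib, sum_div, Real.exp_sum]
    exact prod_le_prod (fun i _ => (Real.exp_pos _).le) fun i _ => phi_lazy_ge hm _
  set q : ℝ := Real.exp (-(1 / 8)) with hq
  have hq0 : 0 ≤ q := (Real.exp_pos _).le
  have hq1 : q ≤ 8 / 9 := by
    rw [hq, Real.exp_neg, inv_le_comm₀ (Real.exp_pos _) (by norm_num)]
    have := Real.add_one_le_exp (1 / 8 : ℝ)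
    norm_num at this ⊢; linarith
  have hlev : ∀ k < J, Real.exp (-(k : ℝ) / 4) *
      ((univ.filter fun ξ : ZMod p => S v ξ ≤ (k : ℝ) + 1).card : ℝ) ≤
        q ^ k * (8 / 7 * (F / m)) + q ^ k := by
    intro k hk
    have hdense' : (r : ℝ) ≤ 2 * ((univ.filter fun i => v i ≠ 0).card : ℝ) := by
      exact_mod_cast hdense
    have hmJ : (m : ℝ) ^ 2 * ((k : ℝ) + 1) ≤ (r : ℝ) / 8 := by
      have h1 : (k + 1) * (8 * m ^ 2) ≤ r := (Nat.mul_le_mul_right _ hk).trans (Nat.div_mul_le_self _ _)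
      have h2 : ((k : ℝ) + 1) * (8 * (m : ℝ) ^ 2) ≤ r := by exact_mod_cast h1
      linarith
    have hr0 : (1 : ℝ) ≤ r := by exact_mod_cast hr1
    have hA := level_card (p := p) v hv' (s := (k : ℝ) + 1) (by positivity) hm (by linarith)
    set A' := univ.filter fun ξ : ZMod p => S v ξ ≤ (m : ℝ) ^ 2 * ((k : ℝ) + 1)
    have hA' : Real.exp (-((k : ℝ) + 1) / 8) * (A'.card : ℝ) ≤ F := by
      calc Real.exp (-((k : ℝ) + 1) / 8) * (A'.card : ℝ)
          = ∑ _ξ ∈ A', Real.exp (-((k : ℝ) + 1) / 8) := by simp [mul_comm]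
        _ ≤ ∑ ξ ∈ A', Real.exp (-S v ξ / (8 * (m : ℝ) ^ 2)) := by
            refine sum_le_sum fun ξ hξ => Real.exp_le_exp.2 ?_
            have := (mem_filter.1 hξ).2
            rw [neg_div, neg_div, neg_le_neg_iff, div_le_iff₀ (by positivity)]
            linarith
        _ ≤ ∑ ξ ∈ A', ∏ i, phi (lazySign m) (ξ * (v i : ZMod p)) := sum_le_sum fun ξ _ => hl ξ
        _ ≤ F := by
            rw [hμ]
            exact sum_le_univ_sum_of_nonneg fun ξ => prod_nonneg fun i _ => hpos _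
    have e1 : Real.exp (-(k : ℝ) / 4) = q ^ k * q ^ k := by
      rw [hq, ← Real.exp_nat_mul, ← Real.exp_add]; ring_nf
    have e2 : Real.exp (-((k : ℝ) + 1) / 8) = q ^ k * q := by
      rw [hq, ← Real.exp_nat_mul, ← Real.exp_add]; ring_nf
    rw [e2] at hA'
    have hq2 : 7 / 8 ≤ q := by
      have := Real.add_one_le_exp (-(1 / 8) : ℝ); rw [hq]; linarith
    have hqk : 0 ≤ q ^ k := pow_nonneg hq0 k
    have hqk1 : q ^ k ≤ 1 := pow_le_one₀ hq0 (by linarith)
    have hqA : q ^ k * (A'.card : ℝ) ≤ 8 / 7 * F := by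
      have : 0 ≤ q ^ k * (A'.card : ℝ) := by positivity
      nlinarith
    rw [e1]
    calc q ^ k * q ^ k * _ ≤ q ^ k * q ^ k * ((A'.card : ℝ) / m + 1) :=
          mul_le_mul_of_nonneg_left hA (by positivity)
      _ = q ^ k * (q ^ k * (A'.card : ℝ) / m + q ^ k) := by ring
      _ ≤ q ^ k * (8 / 7 * F / m + 1) := by gcongr
      _ = _ := by ring
  have hgeo : ∑ k ∈ range J, q ^ k ≤ 9 := by
    have hpk : 0 ≤ q ^ J := pow_nonneg hq0 J
    have := geom_sum_mul q J
    have h0 : 0 ≤ ∑ k ∈ range J, q ^ k := sum_nonneg fun k _ => pow_nonneg hq0 k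
    nlinarith
  have hpt : ∀ ξ : ZMod p, Real.exp (-S v ξ / 4) ≤
      (∑ k ∈ range J, if S v ξ ≤ (k : ℝ) + 1 then Real.exp (-(k : ℝ) / 4) else 0)
        + Real.exp (-(J : ℝ) / 4) := by
    intro ξ
    have hS0 : 0 ≤ S v ξ := sum_nonneg fun i _ => sq_nonneg _
    have hnn : ∀ k ∈ range J,
        (0 : ℝ) ≤ if S v ξ ≤ (k : ℝ) + 1 then Real.exp (-(k : ℝ) / 4) else 0 := fun k _ => by
      split_ifs <;> positivity
    rcases le_or_gt (J : ℝ) (S v ξ) with h | h
    · exact le_add_of_nonneg_of_le (sum_nonneg hnn) (Real.exp_le_exp.2 (by linarith))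
    · have hk1 := Nat.floor_le hS0
      have hk2 := Nat.lt_floor_add_one (S v ξ)
      have hkJ : ⌊S v ξ⌋₊ ∈ range J := mem_range.2 ((Nat.floor_lt hS0).2 h)
      refine le_add_of_le_of_nonneg (le_trans ?_ (single_le_sum hnn hkJ)) (Real.exp_pos _).le
      rw [if_pos hk2.le]
      exact Real.exp_le_exp.2 (by linarith)
  have hmain : (p : ℝ) * Pg ≤ 9 * (8 / 7 * (F / m)) + 9 + (p : ℝ) * Real.exp (-(J : ℝ) / 4) := by
    rw [hG]
    refine (sum_le_sum fun ξ _ => (hg ξ).trans (hpt ξ)).trans ?_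
    rw [sum_add_distrib, sum_comm, sum_const, card_univ, ZMod.card, nsmul_eq_mul]
    refine add_le_add_left ?_ _
    calc ∑ k ∈ range J, ∑ ξ : ZMod p, (if S v ξ ≤ (k : ℝ) + 1 then Real.exp (-(k : ℝ) / 4) else 0)
        ≤ ∑ k ∈ range J, (q ^ k * (8 / 7 * (F / m)) + q ^ k) := by
          refine sum_le_sum fun k hk => ?_
          rw [← sum_filter, sum_const, nsmul_eq_mul, mul_comm]
          exact hlev k (mem_range.1 hk)
      _ = (∑ k ∈ range J, q ^ k) * (8 / 7 * (F / m)) + ∑ k ∈ range J, q ^ k := by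
          rw [sum_add_distrib, sum_mul]
      _ ≤ _ := by
          have : 0 ≤ F := mul_nonneg hp0.le (sum_nonneg fun x _ => (rowLaw (lazySign m) r).nonneg x)
          gcongr
  have hsmall := height_small hm hr hN
  have hpbig : 30 * (m : ℝ) * (2 * r * N + 1) ≤ p := by
    exact_mod_cast (by omega : 30 * m * (2 * r * N + 1) ≤ p)
  have hM0 : (0 : ℝ) < 2 * r * N + 1 := by positivity
  have hPm : 1 ≤ (2 * (r : ℝ) * N + 1) * Pm := by
    rw [div_le_iff₀ hM0] at hlow; linarith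
  have hFm : (p : ℝ) * Pm / m = (p : ℝ) * (Pm / m) := by ring
  rw [hF, hFm] at hmain
  have h1 : (9 : ℝ) ≤ 3 / 10 * ((p : ℝ) * (Pm / m)) := by
    have : 30 * (m : ℝ) ≤ p * Pm := by
      have hP0 : 0 ≤ Pm := le_trans (by positivity) hlow
      calc 30 * (m : ℝ) = 30 * (m : ℝ) * 1 := (mul_one _).symm
        _ ≤ 30 * (m : ℝ) * ((2 * (r : ℝ) * N + 1) * Pm) := by gcongr
        _ = 30 * (m : ℝ) * (2 * r * N + 1) * Pm := by ring
        _ ≤ _ := mul_le_mul_of_nonneg_right hpbig hP0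
    rw [← mul_div_assoc, ← mul_div_assoc, le_div_iff₀ hm0]; linarith
  have h2 : Real.exp (-(J : ℝ) / 4) ≤ 35 / 100 * (Pm / m) := by
    rw [← mul_div_assoc, le_div_iff₀ hm0]
    refine le_of_mul_le_mul_left ?_ hM0
    calc (2 * (r : ℝ) * N + 1) * (Real.exp (-(J : ℝ) / 4) * m)
        = (2 * (r : ℝ) * N + 1) * ((m : ℝ) * Real.exp (-(J : ℝ) / 4)) := by ring
      _ ≤ 35 / 100 * 1 := by linarith [hsmall]
      _ ≤ 35 / 100 * ((2 * (r : ℝ) * N + 1) * Pm) := by gcongr
      _ = _ := by ring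
  refine le_of_mul_le_mul_left ?_ hp0
  have h3 := mul_le_mul_of_nonneg_left h2 hp0.le
  have hP0 : 0 ≤ (p : ℝ) * (Pm / m) := by linarith
  calc (p : ℝ) * Pg ≤ _ := hmain
    _ ≤ 11 * ((p : ℝ) * (Pm / m)) := by nlinarith
    _ = _ := by ring

end Vale.Agent.P160.Height
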