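import Vale.Agent.P160.Height.Corank
import Vale.Agent.P160.Height.Halasz
import Vale.Agent.P160.Prob

/-! From symmetric sign matrices to non-symmetric Gaussian ones: Fourier analysis on three blocks and
the inequality of Loomis and Whitney. -/

noncomputable section

open Finset

namespace Vale.Agent.P160.Height

open Halasz

variable {p : ℕ} [hp : Fact p.Prime]

/-- Cosine on `ZMod p`. -/
def cz (z : ZMod p) : ℝ := Real.cos (2 * Real.pi * z.val / p)

lemma char_apply (z : ZMod p) :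
    ZMod.stdAddChar z = Complex.exp (((2 * Real.pi * z.val / p : ℝ) : ℂ) * Complex.I) := by
  simpa using char_eq 1 z

lemma char_add_neg (z : ZMod p) :
    ZMod.stdAddChar z + ZMod.stdAddChar (-z) = ((2 * cz z : ℝ) : ℂ) := by
  rw [char_apply z, show -z = ((-1 : ℤ) : ZMod p) * z by simp, char_eq, cz, Complex.ofReal_mul,
    Complex.ofReal_cos, Complex.ofReal_ofNat, Complex.two_cos]
  congr 2
  push_cast; ring

lemma char_orth {ι : Type} [Fintype ι] [DecidableEq ι] (X : ι → ZMod p) :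
    ∑ ξ : ι → ZMod p, ZMod.stdAddChar (∑ i, ξ i * X i) =
      (((p : ℝ) ^ Fintype.card ι * (if ∀ i, X i = 0 then 1 else 0) : ℝ) : ℂ) := by
  classical
  simp only [char_sum]
  rw [← Fintype.prod_sum (fun i x => ZMod.stdAddChar (x * X i))]
  simp only [AddChar.sum_mulShift _ (ZMod.isPrimitive_stdAddChar p), ZMod.card]
  split_ifs with h
  · simp [h]
  · obtain ⟨i, hi⟩ := not_forall.1 h
    rw [prod_eq_zero (mem_univ i) (by simp [hi])]
    simp

/-- The frequency seen by the entry `e`. -/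
def freq {ι : Type} [Fintype ι] [DecidableEq ι] (v : ι → ℤ) (ξ : ι → ZMod p) (e : Sym2 ι) : ZMod p :=
  ∑ x ∈ (univ : Finset (ι × ι)).filter (fun x => s(x.1, x.2) = e), ξ x.1 * (v x.2 : ZMod p)

lemma freq_mk {ι : Type} [Fintype ι] [DecidableEq ι] (v : ι → ℤ) (ξ : ι → ZMod p) {i k : ι}
    (h : i ≠ k) : freq v ξ s(i, k) = ξ i * (v k : ZMod p) + ξ k * (v i : ZMod p) := by
  have : (univ : Finset (ι × ι)).filter (fun x => s(x.1, x.2) = s(i, k)) = {(i, k), (k, i)} := by
    ext ⟨a, b⟩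
    simp
  rw [freq, this, sum_pair (by simp [h])]

/-- Kernel probability through characters. -/
theorem prob_kernel_le {ι : Type} [Fintype ι] [DecidableEq ι] (v : ι → ℤ) :
    prob (fun ω : Sym2 ι → Bool => ∀ i, ∑ k, sgn (ω s(i, k)) * v k = 0) ≤
      (1 / (p : ℝ) ^ Fintype.card ι) * ∑ ξ : ι → ZMod p, ∏ e, |cz (freq v ξ e)| := by
  classical
  set X : (Sym2 ι → Bool) → ι → ZMod p := fun ω i =>
    ((∑ k, sgn (ω s(i, k)) * v k : ℤ) : ZMod p)
  have hid : ∀ ξ : ι → ZMod p, ∑ ω : Sym2 ι → Bool, ZMod.stdAddChar (∑ i, ξ i * X ω i)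
      = ((∏ e, (2 * cz (freq v ξ e)) : ℝ) : ℂ) := by
    intro ξ
    have h1 : ∀ ω : Sym2 ι → Bool, ∑ i, ξ i * X ω i
        = ∑ e, (sgn (ω e) : ZMod p) * freq v ξ e := by
      intro ω
      calc ∑ i, ξ i * X ω i = ∑ x : ι × ι, (sgn (ω s(x.1, x.2)) : ZMod p) * (ξ x.1 * (v x.2 : ZMod p)) := by
            rw [Fintype.sum_prod_type]
            refine sum_congr rfl fun i _ => ?_
            simp only [X, Int.cast_sum, Int.cast_mul, mul_sum]
            exact sum_congr rfl fun k _ => by ring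
        _ = _ := by
            rw [← sum_fiberwise_of_maps_to (g := fun x : ι × ι => s(x.1, x.2))
              (t := (univ : Finset (Sym2 ι))) (fun x _ => mem_univ _)]
            refine sum_congr rfl fun e _ => ?_
            rw [freq, mul_sum]
            exact sum_congr rfl fun x hx => by rw [(mem_filter.1 hx).2]
    simp only [h1, char_sum]
    rw [← Fintype.prod_sum (fun e b => ZMod.stdAddChar ((sgn b : ZMod p) * freq v ξ e)),
      Complex.ofReal_prod]
    refine prod_congr rfl fun e _ => ?_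
    rw [Fintype.sum_bool, ← char_add_neg]
    simp [sgn]
  have htot : ((p : ℝ) ^ Fintype.card ι) * (∑ ω : Sym2 ι → Bool, if ∀ i, X ω i = 0 then (1:ℝ) else 0)
      = ∑ ξ : ι → ZMod p, ∏ e, (2 * cz (freq v ξ e)) := by
    refine Complex.ofReal_injective ?_
    rw [mul_sum, Complex.ofReal_sum, Complex.ofReal_sum]
    simp only [← hid, ← char_orth]
    exact sum_comm
  have hp0 : (0:ℝ) < (p:ℝ) ^ Fintype.card ι := pow_pos (by exact_mod_cast hp.out.pos) _
  refine le_trans (prob_mono (Q := fun ω : Sym2 ι → Bool => ∀ i, X ω i = 0)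
    fun ω h i => by simp only [X]; rw [h i, Int.cast_zero]) ?_
  rw [prob_eq_sum, div_le_iff₀ (by positivity), one_div, inv_mul_eq_div, div_mul_eq_mul_div,
    le_div_iff₀ hp0, mul_comm, htot, sum_mul]
  refine sum_le_sum fun ξ _ => ?_
  refine (le_abs_self _).trans (le_of_eq ?_)
  rw [abs_prod]
  simp only [abs_mul, abs_two, prod_mul_distrib, prod_const, card_univ]
  rw [mul_comm, Fintype.card_fun, Fintype.card_bool]
  norm_num

lemma gauss_sq_le (B : ℕ) : ∑ y ∈ Icc (-(B : ℤ)) B, (y : ℝ) ^ 2 * Real.exp (-2 * (y : ℝ) ^ 2)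
    ≤ 9 / 20 * (1 - (3 / 8) ^ B) := by
  induction B with
  | zero => simp
  | succ B ih =>
    have e : Icc (-((B + 1 : ℕ) : ℤ)) ((B + 1 : ℕ) : ℤ)
        = insert ((B + 1 : ℕ) : ℤ) (insert (-((B + 1 : ℕ) : ℤ)) (Icc (-(B : ℤ)) B)) := by
      ext x; simp only [mem_Icc, mem_insert]; omega
    rw [e, sum_insert (by simp only [mem_insert, mem_Icc]; omega),
      sum_insert (by simp only [mem_Icc]; omega)]
    set n : ℝ := ((B + 1 : ℕ) : ℝ)
    have hn : (1:ℝ) ≤ n := by simp only [n]; exact_mod_cast Nat.succ_pos B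
    have he : Real.exp (-1) ≤ 3 / 8 := by
      rw [Real.exp_neg, inv_le_comm₀ (Real.exp_pos _) (by norm_num)]
      linarith [Real.exp_one_gt_d9]
    have h1 : n ^ 2 * Real.exp (-2 * n ^ 2) ≤ 3 / 8 * (3 / 8) ^ (B + 1) := by
      have ha : n ^ 2 * Real.exp (-n ^ 2) ≤ Real.exp (-1) := by
        calc n ^ 2 * Real.exp (-n ^ 2) ≤ Real.exp (n ^ 2 - 1) * Real.exp (-n ^ 2) :=
              mul_le_mul_of_nonneg_right (by linarith [Real.add_one_le_exp (n ^ 2 - 1)]) (Real.exp_pos _).le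
          _ = _ := by rw [← Real.exp_add]; ring_nf
      have hb : Real.exp (-n ^ 2) ≤ Real.exp (-1) ^ (B + 1) := by
        rw [← Real.exp_nat_mul]
        refine Real.exp_le_exp.2 ?_
        have : n ≤ n ^ 2 := by nlinarith
        simp only [n] at this ⊢
        linarith
      rw [show -2 * n ^ 2 = -n ^ 2 + -n ^ 2 by ring, Real.exp_add, ← mul_assoc]
      exact mul_le_mul (ha.trans he) (hb.trans (pow_le_pow_left₀ (Real.exp_pos _).le he _))
        (Real.exp_pos _).le (by norm_num)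
    have e1 : (((B + 1 : ℕ) : ℤ) : ℝ) = n := by simp [n]
    rw [Int.cast_neg, e1, neg_sq, pow_succ (3/8:ℝ) B]
    rw [pow_succ (3/8:ℝ) B] at h1
    linarith

lemma abs_sin_nat_mul (k : ℕ) (t : ℝ) : |Real.sin (k * t)| ≤ k * |Real.sin t| := by
  induction k with
  | zero => simp
  | succ k ih =>
    push_cast
    rw [add_mul, one_mul, Real.sin_add]
    refine (abs_add_le _ _).trans ?_
    rw [abs_mul, abs_mul, add_mul, one_mul]
    exact add_le_add ((mul_le_of_le_one_right (abs_nonneg _) (Real.abs_cos_le_one _)).trans ih)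
      (mul_le_of_le_one_left (abs_nonneg _) (Real.abs_cos_le_one _))

/-- The squared cosine is dominated by the transform of a law of variance at most `1/2`. -/
theorem cz_sq_le (B : ℕ) (z : ZMod p) : cz z ^ 2 ≤ phi (gauss 2 B) (z + z) := by
  set t := 2 * Real.pi * (z.val : ℝ) / p
  have hcos : ∀ x : ℤ, Real.cos (2 * Real.pi * (x:ℝ) * (z + z).val / p) = Real.cos (2 * ((x:ℝ) * t)) := by
    intro x
    have h := congrArg Complex.re ((char_eq x (z + z)).symm.trans
      (show ZMod.stdAddChar ((x : ZMod p) * (z + z))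
        = ZMod.stdAddChar (((2 * x : ℤ) : ZMod p) * z) by push_cast; ring_nf))
    rw [char_eq, Complex.exp_ofReal_mul_I_re, Complex.exp_ofReal_mul_I_re] at h
    rw [h]; congr 1; simp only [t]; push_cast; ring
  set g := gauss 2 B
  have hvar : ∑ x ∈ g.supp, g.w x * (x:ℝ) ^ 2 ≤ 1 / 2 := by
    change ∑ x ∈ Icc (-(B:ℤ)) B, Real.exp (-2 * (x:ℝ) ^ 2) / _ * (x:ℝ) ^ 2 ≤ _
    simp only [div_mul_eq_mul_div, ← sum_div]
    have hZ : (1:ℝ) ≤ ∑ y ∈ Icc (-(B : ℤ)) B, Real.exp (-2 * (y : ℝ) ^ 2) := by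
      have h := single_le_sum (f := fun y : ℤ => Real.exp (-2 * (y:ℝ) ^ 2))
        (fun y _ => (Real.exp_pos (-2 * (y:ℝ) ^ 2)).le)
        (show (0:ℤ) ∈ Icc (-(B : ℤ)) B by simp)
      refine le_trans ?_ h
      simp
    rw [div_le_iff₀ (by linarith)]
    have h1 := gauss_sq_le B
    have h2 : (0:ℝ) ≤ (3 / 8) ^ B := by positivity
    rw [show ∑ i ∈ Icc (-(B : ℤ)) B, Real.exp (-2 * (i : ℝ) ^ 2) * (i : ℝ) ^ 2
      = ∑ i ∈ Icc (-(B : ℤ)) B, (i : ℝ) ^ 2 * Real.exp (-2 * (i : ℝ) ^ 2) from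
        sum_congr rfl fun i _ => mul_comm _ _]
    linarith
  have hb : ∀ x ∈ g.supp, g.w x * (1 - 2 * ((x:ℝ) ^ 2 * Real.sin t ^ 2))
      ≤ g.w x * Real.cos (2 * Real.pi * (x:ℝ) * (z + z).val / p) := by
    intro x _
    refine mul_le_mul_of_nonneg_left ?_ (g.nonneg x)
    rw [hcos, Real.cos_two_mul]
    have h1 : |Real.sin ((x:ℝ) * t)| ≤ |(x:ℝ)| * |Real.sin t| := by
      have h := abs_sin_nat_mul x.natAbs t
      rw [Nat.cast_natAbs, Int.cast_abs] at h
      rcases le_total 0 (x:ℝ) with hx | hx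
      · rwa [abs_of_nonneg hx] at h ⊢
      · rw [abs_of_nonpos hx] at h ⊢
        rwa [neg_mul, Real.sin_neg, abs_neg] at h
    have h2 : Real.sin ((x:ℝ) * t) ^ 2 ≤ (x:ℝ) ^ 2 * Real.sin t ^ 2 := by
      rw [← mul_pow, sq_le_sq, abs_mul]; exact h1
    have := Real.sin_sq_add_cos_sq ((x:ℝ) * t)
    linarith
  refine le_trans ?_ (sum_le_sum hb)
  simp only [mul_sub, mul_one, sum_sub_distrib, g.sum_one]
  rw [cz, Real.cos_sq']
  have e : ∑ x ∈ g.supp, g.w x * (2 * ((x:ℝ) ^ 2 * Real.sin t ^ 2))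
      = 2 * Real.sin t ^ 2 * ∑ x ∈ g.supp, g.w x * (x:ℝ) ^ 2 := by
    rw [mul_sum]; exact sum_congr rfl fun x _ => by ring
  rw [e]
  have := mul_le_mul_of_nonneg_left hvar (show 0 ≤ 2 * Real.sin t ^ 2 by positivity)
  linarith

variable {r : ℕ}

/-- A vector with its frequency. -/
abbrev Pt (p r : ℕ) := (Fin r → ℤ) × (Fin r → ZMod p)

/-- The contribution of the entries between two blocks. -/
def crossF (x y : Pt p r) : ℝ :=
  ∏ i, ∏ k, |cz (x.2 i * (y.1 k : ZMod p) + y.2 k * (x.1 i : ZMod p))|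

lemma crossF_nonneg (x y : Pt p r) : 0 ≤ crossF x y :=
  prod_nonneg fun i _ => prod_nonneg fun k _ => abs_nonneg _

/-- The points over a set of vectors. -/
def pts (p r N : ℕ) [NeZero p] : Finset (Pt p r) := denseBox r N ×ˢ univ

/-- The sum of squares of the cross factor. -/
theorem crossF_sq_sum_le (hp2 : p ≠ 2) {N : ℕ} (hpN : r * r * N < p) :
    ∑ a ∈ pts p r N, ∑ b ∈ pts p r N, crossF a b ^ 2
      ≤ ((p : ℝ) ^ r) ^ 2 * (matLaw r).ex (fun D => kerCount N D ^ 2) := by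
  classical
  set L := matLaw r
  set V := denseBox r N
  have htwo : ((2 : ZMod p)) ≠ 0 := by
    intro h
    have h' : ((2 : ℕ) : ZMod p) = 0 := by simpa using h
    rw [ZMod.natCast_eq_zero_iff] at h'
    exact hp2 ((Nat.prime_dvd_prime_iff_eq hp.out Nat.prime_two).1 h')
  have hzero : ∀ v ∈ V, ∀ x ∈ (rowLaw (gauss 2 r) r).supp,
      (((∑ i, x i * v i : ℤ) : ZMod p) + ((∑ i, x i * v i : ℤ) : ZMod p) = 0) →
        ∑ i, x i * v i = 0 := by
    intro v hv x hx h
    rw [← two_mul, mul_eq_zero] at h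
    have h' := (ZMod.intCast_zmod_eq_zero_iff_dvd _ _).1 (h.resolve_left htwo)
    refine Int.eq_zero_of_abs_lt_dvd h' (lt_of_le_of_lt ?_ (by exact_mod_cast hpN : ((r * r * N : ℕ) : ℤ) < p))
    refine (abs_sum_le_sum_abs _ _).trans ((sum_le_sum (g := fun _ => ((r * N : ℕ) : ℤ)) fun i _ => ?_).trans_eq ?_)
    · rw [abs_mul]; push_cast
      have hxi := mem_Icc.1 ((Fintype.mem_piFinset.1 hx) i)
      exact mul_le_mul (abs_le.2 hxi) (mem_box.1 (mem_filter.1 hv).1 i) (abs_nonneg _) (by positivity)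
    · simp; ring
  have hpair : ∀ v ∈ V, ∀ w ∈ V, ∑ ξ : Fin r → ZMod p, ∑ η : Fin r → ZMod p, crossF (v, ξ) (w, η) ^ 2
      ≤ ((p : ℝ) ^ r) ^ 2 * L.pr (fun D =>
          (∀ i, ∑ k, D i k * w k = 0) ∧ ∀ k, ∑ i, D i k * v i = 0) := by
    intro v hv w hw
    have h1 : ∀ ξ η : Fin r → ZMod p, crossF (v, ξ) (w, η) ^ 2 ≤ ∏ i, ∏ k, phi (gauss 2 r)
        ((ξ i * (w k : ZMod p) + η k * (v i : ZMod p))
          + (ξ i * (w k : ZMod p) + η k * (v i : ZMod p))) := by
      intro ξ η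
      simp only [crossF, ← prod_pow, sq_abs]
      exact prod_le_prod (fun i _ => prod_nonneg fun k _ => sq_nonneg _) fun i _ =>
        prod_le_prod (fun k _ => sq_nonneg _) fun k _ => cz_sq_le r _
    refine (sum_le_sum fun ξ _ => sum_le_sum fun η _ => h1 ξ η).trans ?_
    set A : (Fin r → Fin r → ℤ) → Fin r → ZMod p := fun D i =>
      ((∑ k, D i k * w k : ℤ) : ZMod p) + ((∑ k, D i k * w k : ℤ) : ZMod p)
    set B : (Fin r → Fin r → ℤ) → Fin r → ZMod p := fun D k =>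
      ((∑ i, D i k * v i : ℤ) : ZMod p) + ((∑ i, D i k * v i : ℤ) : ZMod p)
    have hexp : ∀ ξ η : Fin r → ZMod p, (((∏ i, ∏ k, phi (gauss 2 r)
        ((ξ i * (w k : ZMod p) + η k * (v i : ZMod p))
          + (ξ i * (w k : ZMod p) + η k * (v i : ZMod p)))) : ℝ) : ℂ)
        = ∑ D ∈ L.supp, ((L.w D : ℝ) : ℂ) *
            (ZMod.stdAddChar (∑ i, ξ i * A D i) * ZMod.stdAddChar (∑ k, η k * B D k)) := by
      intro ξ η
      simp only [Complex.ofReal_prod, phi_complex (symm_gauss 2 r), prod_univ_sum]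
      refine sum_congr rfl fun D _ => ?_
      simp only [prod_mul_distrib, ← char_sum, ← AddChar.map_add_eq_mul]
      congr 1
      · simp [L, matLaw, rowLaw, Law.pi]
      · congr 1
        have hAs : ∑ i, ξ i * A D i
            = ∑ i, ∑ k, ξ i * ((D i k : ZMod p) * (w k : ZMod p) + (D i k : ZMod p) * (w k : ZMod p)) := by
          refine sum_congr rfl fun i _ => ?_
          simp [A, mul_sum, mul_add, sum_add_distrib]
        have hBs : ∑ k, η k * B D k
            = ∑ i, ∑ k, η k * ((D i k : ZMod p) * (v i : ZMod p) + (D i k : ZMod p) * (v i : ZMod p)) := by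
          rw [sum_comm]
          refine sum_congr rfl fun k _ => ?_
          simp [B, mul_sum, mul_add, sum_add_distrib]
        rw [hAs, hBs, ← sum_add_distrib]
        refine sum_congr rfl fun i _ => ?_
        rw [← sum_add_distrib]
        exact sum_congr rfl fun k _ => by ring
    have hcalc : (∑ ξ : Fin r → ZMod p, ∑ η : Fin r → ZMod p, ∏ i, ∏ k, phi (gauss 2 r)
        ((ξ i * (w k : ZMod p) + η k * (v i : ZMod p))
          + (ξ i * (w k : ZMod p) + η k * (v i : ZMod p))))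
        = ∑ D ∈ L.supp, L.w D * (((p : ℝ) ^ r * (if ∀ i, A D i = 0 then 1 else 0)) *
            ((p : ℝ) ^ r * (if ∀ k, B D k = 0 then 1 else 0))) := by
      refine Complex.ofReal_injective ?_
      simp only [Complex.ofReal_sum, hexp]
      simp only [sum_comm (t := L.supp), ← mul_sum, ← sum_mul]
      refine sum_congr rfl fun D _ => ?_
      rw [char_orth, char_orth, Fintype.card_fin]
      push_cast
      ring_nf
    rw [hcalc, Law.pr, sum_filter, mul_sum]
    refine le_of_eq (sum_congr rfl fun D hD => ?_)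
    have hD' := Fintype.mem_piFinset.1 hD
    have hA : (∀ i, A D i = 0) ↔ ∀ i, ∑ k, D i k * w k = 0 :=
      ⟨fun h i => hzero w hw _ (hD' i) (h i), fun h i => by simp only [A]; rw [h i]; simp⟩
    have hcol : ∀ k, (fun i => D i k) ∈ (rowLaw (gauss 2 r) r).supp := fun k =>
      Fintype.mem_piFinset.2 fun i => (Fintype.mem_piFinset.1 (hD' i)) k
    have hB : (∀ k, B D k = 0) ↔ ∀ k, ∑ i, D i k * v i = 0 :=
      ⟨fun h k => hzero v hv _ (hcol k) (h k), fun h k => by simp only [B]; rw [h k]; simp⟩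
    by_cases ha : ∀ i, ∑ k, D i k * w k = 0
    · by_cases hb : ∀ k, ∑ i, D i k * v i = 0
      · rw [if_pos (hA.2 ha), if_pos (hB.2 hb), if_pos ⟨ha, hb⟩]; ring
      · simp [mt hB.1 hb, hb]
    · simp [mt hA.1 ha, ha]
  calc ∑ a ∈ pts p r N, ∑ b ∈ pts p r N, crossF a b ^ 2
      = ∑ v ∈ V, ∑ w ∈ V, ∑ ξ : Fin r → ZMod p, ∑ η : Fin r → ZMod p, crossF (v, ξ) (w, η) ^ 2 := by
        simp only [pts, sum_product]
        exact sum_congr rfl fun v _ => sum_comm
    _ ≤ ∑ v ∈ V, ∑ w ∈ V, ((p : ℝ) ^ r) ^ 2 * L.pr (fun D =>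
          (∀ i, ∑ k, D i k * w k = 0) ∧ ∀ k, ∑ i, D i k * v i = 0) :=
        sum_le_sum fun v hv => sum_le_sum fun w hw => hpair v hv w hw
    _ = ((p : ℝ) ^ r) ^ 2 * L.ex (fun D => kerCount N (fun k i => D i k) * kerCount N D) := by
        simp only [← mul_sum, Law.pr_eq_ex, ← Law.ex_sum]
        congr 1
        refine congrArg L.ex (funext fun D => ?_)
        simp only [kerCount, ← sum_boole, sum_mul_sum]
        refine sum_congr rfl fun v _ => sum_congr rfl fun w _ => ?_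
        split_ifs <;> simp_all
    _ ≤ _ := by
        refine mul_le_mul_of_nonneg_left ?_ (by positivity)
        have htr : L.ex (fun D => kerCount N (fun k i => D i k) ^ 2)
            = L.ex (fun D => kerCount N D ^ 2) := by
          refine sum_nbij' (fun D k i => D i k) (fun D k i => D i k) ?_ ?_ (fun _ _ => rfl)
            (fun _ _ => rfl) fun D _ => ?_
          · intro D hD
            exact Fintype.mem_piFinset.2 fun k => Fintype.mem_piFinset.2 fun i =>
              Fintype.mem_piFinset.1 (Fintype.mem_piFinset.1 hD i) k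
          · intro D hD
            exact Fintype.mem_piFinset.2 fun k => Fintype.mem_piFinset.2 fun i =>
              Fintype.mem_piFinset.1 (Fintype.mem_piFinset.1 hD i) k
          · congr 1
            simp only [L, matLaw, rowLaw, Law.pi]
            exact prod_comm
        refine (L.ex_mono (g := fun D => (1/2) * kerCount N (fun k i => D i k) ^ 2
          + (1/2) * kerCount N D ^ 2) fun D _ => ?_).trans (le_of_eq ?_)
        · linarith [two_mul_le_add_sq (kerCount N (fun k i => D i k)) (kerCount N D)]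
        · rw [show L.ex (fun D => (1/2) * kerCount N (fun k i => D i k) ^ 2 + (1/2) * kerCount N D ^ 2)
            = L.ex (fun D => (1/2) * kerCount N (fun k i => D i k) ^ 2)
              + L.ex (fun D => (1/2) * kerCount N D ^ 2) by simp [Law.ex, mul_add, sum_add_distrib],
            Law.ex_mul_left, Law.ex_mul_left, htr]
          ring

/-- The inequality of Loomis and Whitney for three weights. -/
theorem loomis_whitney {α : Type} (X : Finset α) (f : α → α → ℝ) {b : ℝ} (hb : 0 ≤ b)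
    (hf : ∑ a ∈ X, ∑ c ∈ X, f a c ^ 2 ≤ b ^ 2) :
    ∑ a ∈ X, ∑ c ∈ X, ∑ d ∈ X, f a c * (f a d * f c d) ≤ b ^ 3 := by
  classical
  set G : α × α → ℝ := fun q => ∑ d ∈ X, f q.1 d * f q.2 d
  have h1 : ∑ a ∈ X, ∑ c ∈ X, ∑ d ∈ X, f a c * (f a d * f c d)
      = ∑ q ∈ X ×ˢ X, f q.1 q.2 * G q := by
    rw [sum_product]; simp only [G, mul_sum]
  have h2 : ∑ q ∈ X ×ˢ X, G q ^ 2 ≤ b ^ 2 * b ^ 2 := by
    calc ∑ q ∈ X ×ˢ X, G q ^ 2
        ≤ ∑ q ∈ X ×ˢ X, (∑ d ∈ X, f q.1 d ^ 2) * ∑ d ∈ X, f q.2 d ^ 2 :=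
          sum_le_sum fun q _ => sum_mul_sq_le_sq_mul_sq _ _ _
      _ = (∑ a ∈ X, ∑ d ∈ X, f a d ^ 2) * ∑ a ∈ X, ∑ d ∈ X, f a d ^ 2 := by
          rw [sum_product, sum_mul_sum]
      _ ≤ _ := mul_le_mul hf hf (sum_nonneg fun a _ => sum_nonneg fun c _ => sq_nonneg _) (sq_nonneg b)
  have h3 := sum_mul_sq_le_sq_mul_sq (X ×ˢ X) (fun q => f q.1 q.2) G
  rw [sum_product (f := fun q : α × α => f q.1 q.2 ^ 2)] at h3
  have h4 : (∑ q ∈ X ×ˢ X, f q.1 q.2 * G q) ^ 2 ≤ (b ^ 3) ^ 2 := by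
    refine h3.trans ((mul_le_mul hf h2 (sum_nonneg fun q _ => sq_nonneg _) (sq_nonneg b)).trans (le_of_eq ?_))
    ring
  rw [h1]
  exact (abs_le_of_sq_le_sq' h4 (by positivity)).2

/-- Three blocks and a remainder. -/
abbrev Blocks (r j : ℕ) := (Fin r ⊕ Fin r) ⊕ (Fin r ⊕ Fin j)

/-- The vector with given blocks. -/
def glue {j : ℕ} {β : Type} (q : ((Fin r → β) × (Fin r → β)) × ((Fin r → β) × (Fin j → β))) :
    Blocks r j → β :=
  Sum.elim (Sum.elim q.1.1 q.1.2) (Sum.elim q.2.1 q.2.2)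

lemma prod_freq_le {j : ℕ} (v : ((Fin r → ℤ) × (Fin r → ℤ)) × ((Fin r → ℤ) × (Fin j → ℤ)))
    (ξ : ((Fin r → ZMod p) × (Fin r → ZMod p)) × ((Fin r → ZMod p) × (Fin j → ZMod p))) :
    ∏ e, |cz (freq (glue v) (glue ξ) e)| ≤
      crossF (v.1.1, ξ.1.1) (v.1.2, ξ.1.2) *
        (crossF (v.1.1, ξ.1.1) (v.2.1, ξ.2.1) * crossF (v.1.2, ξ.1.2) (v.2.1, ξ.2.1)) := by
  classical
  let g : (Fin r × Fin r) ⊕ ((Fin r × Fin r) ⊕ (Fin r × Fin r)) → Sym2 (Blocks r j) :=
    Sum.elim (fun x => s(Sum.inl (Sum.inl x.1), Sum.inl (Sum.inr x.2)))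
      (Sum.elim (fun x => s(Sum.inl (Sum.inl x.1), Sum.inr (Sum.inl x.2)))
        (fun x => s(Sum.inl (Sum.inr x.1), Sum.inr (Sum.inl x.2))))
  have hg : Function.Injective g := by
    rintro (⟨a, b⟩ | ⟨a, b⟩ | ⟨a, b⟩) (⟨c, d⟩ | ⟨c, d⟩ | ⟨c, d⟩) h <;> simp [g] at h ⊢ <;> exact h
  have hle : ∏ e, |cz (freq (glue v) (glue ξ) e)|
      ≤ ∏ e ∈ univ.image g, |cz (freq (glue v) (glue ξ) e)| := by
    rw [← prod_sdiff (subset_univ (univ.image g))]
    exact mul_le_of_le_one_left (prod_nonneg fun e _ => abs_nonneg _)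
      (prod_le_one (fun e _ => abs_nonneg _) fun e _ => Real.abs_cos_le_one _)
  refine hle.trans (le_of_eq ?_)
  rw [prod_image hg.injOn]
  simp only [Fintype.prod_sum_type, Fintype.prod_prod_type, crossF, g, Sum.elim_inl, Sum.elim_inr]
  congr 1
  · refine prod_congr rfl fun i _ => prod_congr rfl fun k _ => ?_
    rw [freq_mk _ _ (by simp)]
    rfl
  · congr 1
    · refine prod_congr rfl fun i _ => prod_congr rfl fun k _ => ?_
      rw [freq_mk _ _ (by simp)]
      rfl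
    · refine prod_congr rfl fun i _ => prod_congr rfl fun k _ => ?_
      rw [freq_mk _ _ (by simp)]
      rfl

theorem blocks_sum_le {j N : ℕ} {b : ℝ} (hb : 0 ≤ b) (hp2 : p ≠ 2) (hpN : r * r * N < p)
    (hmom : (matLaw r).ex (fun D => kerCount N D ^ 2) ≤ b ^ 2) :
    ∑ v ∈ (denseBox r N ×ˢ denseBox r N) ×ˢ (denseBox r N ×ˢ box j N),
      prob (fun ω : Sym2 (Blocks r j) → Bool => ∀ i, ∑ k, sgn (ω s(i, k)) * glue v k = 0)
      ≤ (2 * (N:ℝ) + 1) ^ j * b ^ 3 := by
  classical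
  have hp0 : (0:ℝ) < p := by exact_mod_cast hp.out.pos
  set V := denseBox r N
  set n := Fintype.card (Blocks r j)
  have hn : n = 3 * r + j := by simp [n]; omega
  have hcross : ∀ v : ((Fin r → ℤ) × (Fin r → ℤ)) × ((Fin r → ℤ) × (Fin j → ℤ)),
      prob (fun ω : Sym2 (Blocks r j) → Bool => ∀ i, ∑ k, sgn (ω s(i, k)) * glue v k = 0)
      ≤ (1 / (p:ℝ) ^ n) * ((p:ℝ) ^ j * ∑ ξ1 : Fin r → ZMod p, ∑ ξ2 : Fin r → ZMod p,
          ∑ ξ3 : Fin r → ZMod p, crossF (v.1.1, ξ1) (v.1.2, ξ2) *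
            (crossF (v.1.1, ξ1) (v.2.1, ξ3) * crossF (v.1.2, ξ2) (v.2.1, ξ3))) := by
    intro v
    refine (prob_kernel_le (p := p) (glue v)).trans (mul_le_mul_of_nonneg_left ?_ (by positivity))
    let e : ((Fin r → ZMod p) × (Fin r → ZMod p)) × ((Fin r → ZMod p) × (Fin j → ZMod p))
        ≃ (Blocks r j → ZMod p) :=
      ((Equiv.sumArrowEquivProdArrow _ _ _).symm.prodCongr
        (Equiv.sumArrowEquivProdArrow _ _ _).symm).trans (Equiv.sumArrowEquivProdArrow _ _ _).symm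
    rw [← e.sum_comp]
    refine (sum_le_sum fun ξ _ => (show ∏ e', |cz (freq (glue v) (e ξ) e')| ≤ _ from prod_freq_le v ξ)).trans
      (le_of_eq ?_)
    simp only [Fintype.sum_prod_type, sum_const, card_univ, Fintype.card_fun, ZMod.card,
      Fintype.card_fin, nsmul_eq_mul, Nat.cast_pow, mul_sum]
  refine (sum_le_sum fun v _ => hcross v).trans ?_
  rw [← mul_sum, ← mul_sum]
  have hV : ∑ v ∈ (V ×ˢ V) ×ˢ (V ×ˢ box j N), ∑ ξ1 : Fin r → ZMod p, ∑ ξ2 : Fin r → ZMod p,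
      ∑ ξ3 : Fin r → ZMod p, crossF (v.1.1, ξ1) (v.1.2, ξ2) *
        (crossF (v.1.1, ξ1) (v.2.1, ξ3) * crossF (v.1.2, ξ2) (v.2.1, ξ3))
      = (box j N).card * ∑ a ∈ pts p r N, ∑ c ∈ pts p r N, ∑ d ∈ pts p r N,
          crossF a c * (crossF a d * crossF c d) := by
    simp only [sum_product, sum_const, nsmul_eq_mul, pts, mul_sum]
    refine sum_congr rfl fun v1 _ => ?_
    rw [sum_comm (s := univ) (t := V)]
    refine sum_congr rfl fun v2 _ => ?_
    rw [sum_comm (s := V)]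
    refine sum_congr rfl fun ξ1 _ => ?_
    rw [sum_comm (s := V)]
  have hLW := loomis_whitney (pts p r N) crossF (b := (p:ℝ) ^ r * b) (by positivity)
    ((crossF_sq_sum_le hp2 hpN).trans (by
      rw [mul_pow]; exact mul_le_mul_of_nonneg_left hmom (by positivity)))
  have hcard : ((box j N).card : ℝ) = (2 * (N:ℝ) + 1) ^ j := by
    rw [box, Fintype.card_piFinset, prod_const, card_univ, Fintype.card_fin, Int.card_Icc]
    have : ((N:ℤ) + 1 - -(N:ℤ)).toNat = 2 * N + 1 := by omega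
    rw [this]; push_cast; ring
  rw [hV, hcard]
  refine le_trans (mul_le_mul_of_nonneg_left (mul_le_mul_of_nonneg_left
    (mul_le_mul_of_nonneg_left hLW (by positivity)) (by positivity)) (by positivity)) (le_of_eq ?_)
  rw [hn]
  field_simp
  ring

end Vale.Agent.P160.Height
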