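import Vale.Agent.P160.Height.Rho

/-! Gaussian sums on `ℤ` and `ℤ^r`, and the variance bound on saturated sublattices. -/

noncomputable section

open scoped ENNReal
open Finset

namespace Vale.Agent.P160.Height

variable {r : ℕ}

/-- one-dimensional Gaussian mass -/
def gz1 (γ : ℝ) (n : ℤ) : ℝ := Real.exp (-γ * (n : ℝ) ^ 2)

/-- one-dimensional Gaussian sum -/
def Z (γ : ℝ) : ℝ := ∑' n : ℤ, gz1 γ n

/-- one-dimensional second moment -/
def W (γ : ℝ) : ℝ := ∑' n : ℤ, gz1 γ n * (n : ℝ) ^ 2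

/-- one-dimensional variance -/
def V (γ : ℝ) : ℝ := W γ / Z γ

lemma gz1_pos (γ : ℝ) (n : ℤ) : 0 < gz1 γ n := Real.exp_pos _

lemma gz1_neg (γ : ℝ) (n : ℤ) : gz1 γ (-n) = gz1 γ n := by simp [gz1]

lemma gz1_le_of_le {γ γ' : ℝ} (h : γ ≤ γ') (n : ℤ) : gz1 γ' n ≤ gz1 γ n := by
  unfold gz1
  apply Real.exp_le_exp.2
  nlinarith [sq_nonneg (n : ℝ)]

lemma summable_gz1 {γ : ℝ} (hγ : 0 < γ) : Summable (gz1 γ) := by
  have h : Summable fun n : ℕ => gz1 γ (n : ℤ) := by
    refine Summable.of_nonneg_of_le (fun n => (gz1_pos _ _).le) (fun n => ?_)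
      (Real.summable_exp_nat_mul_iff.2 (neg_lt_zero.2 hγ))
    unfold gz1
    apply Real.exp_le_exp.2
    have : (n : ℝ) ≤ ((n : ℤ) : ℝ) ^ 2 := by
      push_cast
      exact_mod_cast Nat.le_self_pow (by norm_num) n
    nlinarith
  refine Summable.of_nat_of_neg h ?_
  simpa only [gz1_neg] using h

lemma summable_gz1_sq {γ : ℝ} (hγ : 0 < γ) : Summable fun n : ℤ => gz1 γ n * (n : ℝ) ^ 2 := by
  refine Summable.of_nonneg_of_le (fun n => mul_nonneg (gz1_pos _ _).le (sq_nonneg _)) (fun n => ?_)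
    ((summable_gz1 (half_pos hγ)).mul_left (2 / γ))
  have h1 := Real.add_one_le_exp (γ / 2 * (n : ℝ) ^ 2)
  have e : gz1 γ n * Real.exp (γ / 2 * (n : ℝ) ^ 2) = gz1 (γ / 2) n := by
    unfold gz1; rw [← Real.exp_add]; congr 1; ring
  rw [← e, div_mul_eq_mul_div, le_div_iff₀ hγ]
  have h0 := (gz1_pos γ n).le
  nlinarith [mul_le_mul_of_nonneg_left h1 h0]

lemma one_le_Z {γ : ℝ} (hγ : 0 < γ) : 1 ≤ Z γ := by
  have := (summable_gz1 hγ).le_tsum (0 : ℤ) (fun n _ => (gz1_pos _ _).le)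
  simpa [gz1, Z] using this

lemma Z_pos {γ : ℝ} (hγ : 0 < γ) : 0 < Z γ := lt_of_lt_of_le one_pos (one_le_Z hγ)

lemma W_nonneg (γ : ℝ) : 0 ≤ W γ :=
  tsum_nonneg fun n => mul_nonneg (gz1_pos _ _).le (sq_nonneg _)

lemma Z_anti {γ γ' : ℝ} (hγ : 0 < γ) (h : γ ≤ γ') : Z γ' ≤ Z γ :=
  (summable_gz1 (hγ.trans_le h)).tsum_le_tsum (gz1_le_of_le h) (summable_gz1 hγ)

lemma W_anti {γ γ' : ℝ} (hγ : 0 < γ) (h : γ ≤ γ') : W γ' ≤ W γ :=
  (summable_gz1_sq (hγ.trans_le h)).tsum_le_tsum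
    (fun n => mul_le_mul_of_nonneg_right (gz1_le_of_le h n) (sq_nonneg _)) (summable_gz1_sq hγ)

/-- Jensen for the exponential. -/
lemma jensen_exp {ι : Type*} (w f : ι → ℝ) (hw : ∀ i, 0 ≤ w i) (hsw : Summable w)
    (hwf : Summable fun i => w i * f i) (hwe : Summable fun i => w i * Real.exp (-f i))
    (hpos : 0 < ∑' i, w i) :
    (∑' i, w i) * Real.exp (-((∑' i, w i * f i) / ∑' i, w i)) ≤
      ∑' i, w i * Real.exp (-f i) := by
  set S := ∑' i, w i with hS
  set c := (∑' i, w i * f i) / S with hc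
  have hmean : c * S = ∑' i, w i * f i := by rw [hc, div_mul_cancel₀ _ hpos.ne']
  calc S * Real.exp (-c) = Real.exp (-c) * ((1 + c) * S - ∑' i, w i * f i) := by
        rw [← hmean]; ring
    _ = ∑' i, Real.exp (-c) * ((1 + c) * w i - w i * f i) := by
        rw [tsum_mul_left, (hsw.mul_left (1 + c)).tsum_sub hwf, tsum_mul_left]
    _ ≤ ∑' i, w i * Real.exp (-f i) := by
        refine (((hsw.mul_left (1 + c)).sub hwf).mul_left _).tsum_le_tsum (fun i => ?_) hwe
        have h := Real.add_one_le_exp (c - f i)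
        have e : Real.exp (-f i) = Real.exp (-c) * Real.exp (c - f i) := by
          rw [← Real.exp_add]; congr 1; ring
        rw [e]
        nlinarith [mul_le_mul_of_nonneg_left h
          (mul_nonneg (hw i) (Real.exp_pos (-c)).le)]

/-- The derivative bounds for the one-dimensional sum, in finite form. -/
lemma Z_step {γ h : ℝ} (hγ : 0 < γ) (hh : 0 ≤ h) :
    Z γ * Real.exp (-(h * V γ)) ≤ Z (γ + h) := by
  have e : ∀ n : ℤ, gz1 γ n * Real.exp (-(h * (n : ℝ) ^ 2)) = gz1 (γ + h) n := fun n => by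
    unfold gz1; rw [← Real.exp_add]; congr 1; ring
  have hj := jensen_exp (gz1 γ) (fun n : ℤ => h * (n : ℝ) ^ 2) (fun n => (gz1_pos _ _).le)
    (summable_gz1 hγ) (by simpa [mul_left_comm] using (summable_gz1_sq hγ).mul_left h)
    (by simpa [e] using summable_gz1 (show 0 < γ + h by linarith)) (Z_pos hγ)
  simp only [e, mul_left_comm _ h, tsum_mul_left, mul_div_assoc] at hj
  exact hj

lemma Z_step_back {γ h : ℝ} (hγ : 0 < γ) (hh : 0 ≤ h) :
    Z (γ + h) * Real.exp (h * V (γ + h)) ≤ Z γ := by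
  have hg : 0 < γ + h := by linarith
  have e : ∀ n : ℤ, gz1 (γ + h) n * Real.exp (-(-h * (n : ℝ) ^ 2)) = gz1 γ n := fun n => by
    unfold gz1; rw [← Real.exp_add]; congr 1; ring
  have e2 : ∀ n : ℤ, gz1 (γ + h) n * (-h * (n : ℝ) ^ 2)
      = -h * (gz1 (γ + h) n * (n : ℝ) ^ 2) := fun n => by ring
  have hj := jensen_exp (gz1 (γ + h)) (fun n : ℤ => -h * (n : ℝ) ^ 2) (fun n => (gz1_pos _ _).le)
    (summable_gz1 hg) (((summable_gz1_sq hg).mul_left (-h)).congr fun n => (e2 n).symm)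
    ((summable_gz1 hγ).congr fun n => (e n).symm) (Z_pos hg)
  rw [tsum_congr e, tsum_congr e2, tsum_mul_left] at hj
  refine le_trans (le_of_eq ?_) hj
  simp only [V, W, Z, neg_mul, neg_div, neg_neg, mul_div_assoc]

/-- the translated one-dimensional sum -/
def Z1 (γ t : ℝ) : ℝ := ∑' n : ℤ, Real.exp (-γ * ((n : ℝ) + t) ^ 2)

lemma summable_shift {γ : ℝ} (hγ : 0 < γ) (t : ℝ) :
    Summable fun n : ℤ => Real.exp (-γ * ((n : ℝ) + t) ^ 2) := by
  refine Summable.of_nonneg_of_le (fun n => (Real.exp_pos _).le) (fun n => ?_)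
    ((summable_gz1 (half_pos hγ)).mul_left (Real.exp (γ * t ^ 2)))
  rw [gz1, ← Real.exp_add]
  apply Real.exp_le_exp.2
  nlinarith [sq_nonneg ((n : ℝ) + 2 * t)]

lemma Z1_nonneg (γ t : ℝ) : 0 ≤ Z1 γ t := tsum_nonneg fun _ => (Real.exp_pos _).le

lemma Z1_zero (γ : ℝ) : Z1 γ 0 = Z γ := by simp [Z1, Z, gz1]

lemma exp_add_exp_neg_le (a : ℝ) : Real.exp a + Real.exp (-a) ≤ 2 * Real.exp (a ^ 2 / 2) := by
  have := Real.cosh_le_exp_half_sq a
  rw [Real.cosh_eq] at this
  linarith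

lemma two_add_sq_le (a : ℝ) : 2 + a ^ 2 ≤ Real.exp a + Real.exp (-a) := by
  have h := Real.hasSum_cosh a
  have h2 := h.summable.sum_le_tsum (Finset.range 2)
    (fun i _ => div_nonneg (by rw [pow_mul]; positivity) (Nat.cast_nonneg _))
  rw [h.tsum_eq, Real.cosh_eq] at h2
  simp [Finset.sum_range_succ, Nat.factorial] at h2
  linarith

lemma Z1_le {γ : ℝ} (t : ℝ) (hγ : 0 < γ - 2 * γ ^ 2 * t ^ 2) (hγ0 : 0 < γ) :
    Z1 γ t ≤ Real.exp (-γ * t ^ 2) * Z (γ - 2 * γ ^ 2 * t ^ 2) := by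
  have hsum := summable_shift hγ0 t
  have hneg : Summable fun n : ℤ => Real.exp (-γ * (((-n : ℤ) : ℝ) + t) ^ 2) :=
    hsum.comp_injective neg_injective
  have e : Z1 γ t = ∑' n : ℤ, Real.exp (-γ * (((-n : ℤ) : ℝ) + t) ^ 2) :=
    ((Equiv.neg ℤ).tsum_eq fun n : ℤ => Real.exp (-γ * ((n : ℝ) + t) ^ 2)).symm
  have h : 2 * Z1 γ t ≤ 2 * (Real.exp (-γ * t ^ 2) * Z (γ - 2 * γ ^ 2 * t ^ 2)) := by
    calc 2 * Z1 γ t
        = Z1 γ t + ∑' n : ℤ, Real.exp (-γ * (((-n : ℤ) : ℝ) + t) ^ 2) := by rw [← e]; ring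
      _ = ∑' n : ℤ, (Real.exp (-γ * ((n : ℝ) + t) ^ 2)
            + Real.exp (-γ * (((-n : ℤ) : ℝ) + t) ^ 2)) := (hsum.tsum_add hneg).symm
      _ ≤ ∑' n : ℤ, 2 * (Real.exp (-γ * t ^ 2) * gz1 (γ - 2 * γ ^ 2 * t ^ 2) n) := by
          refine (hsum.add hneg).tsum_le_tsum (fun n => ?_)
            (((summable_gz1 hγ).mul_left _).mul_left 2)
          have h1 := exp_add_exp_neg_le (-2 * γ * n * t)
          have h0 := (Real.exp_pos (-γ * ((n : ℝ) ^ 2 + t ^ 2))).le
          calc Real.exp (-γ * ((n : ℝ) + t) ^ 2) + Real.exp (-γ * (((-n : ℤ) : ℝ) + t) ^ 2)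
              = Real.exp (-γ * ((n : ℝ) ^ 2 + t ^ 2)) *
                  (Real.exp (-2 * γ * n * t) + Real.exp (-(-2 * γ * n * t))) := by
                rw [mul_add, ← Real.exp_add, ← Real.exp_add]
                push_cast
                ring_nf
            _ ≤ Real.exp (-γ * ((n : ℝ) ^ 2 + t ^ 2)) *
                  (2 * Real.exp ((-2 * γ * n * t) ^ 2 / 2)) := mul_le_mul_of_nonneg_left h1 h0
            _ = _ := by
                rw [gz1, mul_left_comm, ← Real.exp_add, ← Real.exp_add]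
                ring_nf
      _ = _ := by rw [tsum_mul_left, tsum_mul_left]; rfl
  linarith

lemma ennreal_tsum_pi : ∀ (r : ℕ) (f : Fin r → ℤ → ℝ≥0∞),
    ∑' z : Fin r → ℤ, ∏ i, f i (z i) = ∏ i, ∑' n, f i n := by
  intro r
  induction r with
  | zero =>
    intro f
    rw [tsum_eq_single Fin.elim0 (fun z hz => absurd (funext fun i => i.elim0) hz)]
    simp
  | succ r ih =>
    intro f
    rw [← (Fin.consEquiv fun _ : Fin (r + 1) => ℤ).tsum_eq]
    simp only [Fin.consEquiv, Equiv.coe_fn_mk, Fin.prod_univ_succ, Fin.cons_zero, Fin.cons_succ]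
    rw [tsum_prod_mul (f 0) (fun y : Fin r → ℤ => ∏ i, f i.succ (y i)), ih]

lemma rhoFull_eq {β : ℝ} (hβ : 0 < β) (y : Fin r → ℝ) :
    rhoFull β y = ENNReal.ofReal (∏ i, Z1 β (y i)) := by
  have h : ∀ z : Fin r → ℤ, gw β (icast z + y)
      = ∏ i, ENNReal.ofReal (Real.exp (-β * ((z i : ℝ) + y i) ^ 2)) := by
    intro z
    rw [gw, ← ENNReal.ofReal_prod_of_nonneg (fun i _ => (Real.exp_pos _).le), ← Real.exp_sum]
    congr 2
    simp [nsq, icast, Finset.mul_sum]
  rw [rhoFull, tsum_congr h,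
    ennreal_tsum_pi r fun i n => ENNReal.ofReal (Real.exp (-β * ((n : ℝ) + y i) ^ 2)),
    ENNReal.ofReal_prod_of_nonneg (fun i _ => Z1_nonneg _ _)]
  exact Finset.prod_congr rfl fun i _ =>
    (ENNReal.ofReal_tsum_of_nonneg (fun _ => (Real.exp_pos _).le) (summable_shift hβ _)).symm

lemma summable_full {β : ℝ} (hβ : 0 < β) (y : Fin r → ℝ) :
    Summable fun z : Fin r → ℤ => Real.exp (-β * nsq (icast z + y)) := by
  have h : (∑' z : Fin r → ℤ, gw β (icast z + y)) ≠ ⊤ := by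
    change rhoFull β y ≠ ⊤
    rw [rhoFull_eq hβ]
    exact ENNReal.ofReal_ne_top
  have := ENNReal.summable_toReal h
  simpa [gw, ENNReal.toReal_ofReal (Real.exp_pos _).le] using this

lemma tsum_full {β : ℝ} (hβ : 0 < β) (y : Fin r → ℝ) :
    ∑' z : Fin r → ℤ, Real.exp (-β * nsq (icast z + y)) = ∏ i, Z1 β (y i) := by
  have h := (ENNReal.ofReal_tsum_of_nonneg (fun z : Fin r → ℤ => (Real.exp_pos _).le)
    (summable_full hβ y)).trans (rhoFull_eq hβ y)
  exact (ENNReal.ofReal_eq_ofReal_iff (tsum_nonneg fun _ => (Real.exp_pos _).le)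
    (prod_nonneg fun i _ => Z1_nonneg _ _)).1 h

/-- Gaussian mass of an integer vector -/
def gz (β : ℝ) (z : Fin r → ℤ) : ℝ := Real.exp (-β * nsq (icast z))

lemma summable_gz {β : ℝ} (hβ : 0 < β) (M : AddSubgroup (Fin r → ℤ)) :
    Summable fun z : M => gz β (z : Fin r → ℤ) := by
  have h := (summable_full hβ (0 : Fin r → ℝ)).comp_injective
    (Subtype.val_injective : Function.Injective fun z : M => (z : Fin r → ℤ))
  simpa [gz, Function.comp_def] using h

/-- real Gaussian mass of a translate of a subgroup -/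
def rhoR (β : ℝ) (M : AddSubgroup (Fin r → ℤ)) (y : Fin r → ℝ) : ℝ :=
  ∑' z : M, Real.exp (-β * nsq (icast z + y))

lemma summable_rhoR {β : ℝ} (hβ : 0 < β) (M : AddSubgroup (Fin r → ℤ)) (y : Fin r → ℝ) :
    Summable fun z : M => Real.exp (-β * nsq (icast z + y)) :=
  (summable_full hβ y).comp_injective
    (Subtype.val_injective : Function.Injective fun z : M => (z : Fin r → ℤ))

lemma rho_eq {β : ℝ} (hβ : 0 < β) (M : AddSubgroup (Fin r → ℤ)) (y : Fin r → ℝ) :
    rho β M y = ENNReal.ofReal (rhoR β M y) :=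
  (ENNReal.ofReal_tsum_of_nonneg (fun _ => (Real.exp_pos _).le) (summable_rhoR hβ M y)).symm

lemma rhoR_mono {β : ℝ} (hβ : 0 < β) {M : AddSubgroup (Fin r → ℤ)}
    (hsat : ∀ x, x + x ∈ M → x ∈ M) (y : Fin r → ℝ) :
    rhoR β M y * Z β ^ r ≤ rhoR β M 0 * ∏ i, Z1 β (y i) := by
  have h := rho_mono β hsat y
  have hn : ∀ y, 0 ≤ rhoR β M y := fun y => tsum_nonneg fun _ => (Real.exp_pos _).le
  have h0 : ∏ i, Z1 β ((0 : Fin r → ℝ) i) = Z β ^ r := by simp [Z1_zero]
  rw [rho_eq hβ, rho_eq hβ, rhoFull_eq hβ, rhoFull_eq hβ, h0,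
    ← ENNReal.ofReal_mul (hn _), ← ENNReal.ofReal_mul (hn _)] at h
  exact (ENNReal.ofReal_le_ofReal_iff
    (mul_nonneg (hn _) (prod_nonneg fun i _ => Z1_nonneg _ _))).1 h

lemma nsq_smul (c : ℝ) (u : Fin r → ℝ) : nsq (c • u) = c ^ 2 * nsq u := by
  simp [nsq, mul_sum, mul_pow]

/-- scalar product -/
def dot (x u : Fin r → ℝ) : ℝ := ∑ i, x i * u i

lemma nsq_add (x y : Fin r → ℝ) : nsq (x + y) = nsq x + 2 * dot x y + nsq y := by
  simp only [nsq, dot, Pi.add_apply, mul_sum, ← sum_add_distrib]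
  exact sum_congr rfl fun i _ => by ring

/-- the second moment in a direction -/
lemma second_moment_le {β h : ℝ} (hh : 0 < h) (hβh : 0 < β - h) {M : AddSubgroup (Fin r → ℤ)}
    (hsat : ∀ x, x + x ∈ M → x ∈ M) (u : Fin r → ℝ) (hu : nsq u = 1)
    (hB : h * (W (β - h) / Z β) < 1) :
    Summable (fun z : M => gz β (z : Fin r → ℤ) * dot (icast z) u ^ 2) ∧
    ∑' z : M, gz β (z : Fin r → ℤ) * dot (icast z) u ^ 2 ≤
      (∑' z : M, gz β (z : Fin r → ℤ)) *
        ((W (β - h) / Z β) / (1 - h * (W (β - h) / Z β))) := by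
  have hβ : 0 < β := by linarith
  set B := W (β - h) / Z β with hBdef
  set c := Real.sqrt (h / (2 * β ^ 2)) with hc
  have hc2 : 2 * β ^ 2 * c ^ 2 = h := by
    rw [hc, Real.sq_sqrt (by positivity), mul_div_cancel₀ _ (by positivity)]
  set y : Fin r → ℝ := c • u with hy
  have hny : nsq y = c ^ 2 := by rw [hy, nsq_smul, hu, mul_one]
  let a : M → ℝ := fun z => -2 * β * dot (icast z) y
  have ha : ∀ z, a z ^ 2 = 2 * h * dot (icast z) u ^ 2 := by
    intro z
    have : dot (icast z) y = c * dot (icast z) u := by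
      simp only [dot, hy, mul_sum, Pi.smul_apply, smul_eq_mul]
      exact sum_congr rfl fun i _ => by ring
    simp only [a, this]
    rw [← hc2]; ring
  have hsplit : ∀ z : M, Real.exp (-β * nsq (icast z + y))
      = Real.exp (-β * c ^ 2) * (gz β (z : Fin r → ℤ) * Real.exp (a z)) := by
    intro z
    rw [gz, ← Real.exp_add, ← Real.exp_add, nsq_add, hny]
    congr 1
    simp only [a]; ring
  have hsE : Summable fun z : M => gz β (z : Fin r → ℤ) * Real.exp (a z) := by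
    have := (summable_rhoR hβ M y).mul_left (Real.exp (β * c ^ 2))
    refine this.congr fun z => ?_
    rw [hsplit, ← mul_assoc, ← Real.exp_add]
    simp
  have hgneg : ∀ z : M, gz β ((-z : M) : Fin r → ℤ) = gz β (z : Fin r → ℤ) := fun z => by
    simp [gz, icast_neg, nsq_neg]
  have haneg : ∀ z : M, a (-z) = -a z := fun z => by
    simp [a, dot, icast_neg]
  have hsN : Summable fun z : M => gz β (z : Fin r → ℤ) * Real.exp (-a z) := by
    refine (hsE.comp_injective neg_injective).congr fun z => ?_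
    simp only [Function.comp_apply, hgneg, haneg]
  have hEN : ∑' z : M, gz β (z : Fin r → ℤ) * Real.exp (-a z)
      = ∑' z : M, gz β (z : Fin r → ℤ) * Real.exp (a z) := by
    rw [← (Equiv.neg M).tsum_eq (fun z : M => gz β (z : Fin r → ℤ) * Real.exp (a z))]
    refine tsum_congr fun z => ?_
    simp only [Equiv.neg_apply, hgneg, haneg]
  have hg := summable_gz hβ M
  have hdot : Summable fun z : M => gz β (z : Fin r → ℤ) * dot (icast z) u ^ 2 := by
    refine Summable.of_nonneg_of_le (fun z => mul_nonneg (Real.exp_pos _).le (sq_nonneg _))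
      (fun z => ?_) ((hsE.add hsN).mul_left (1 / (2 * h)))
    have h1 := two_add_sq_le (a z)
    rw [ha] at h1
    have h0 : (0 : ℝ) ≤ gz β (z : Fin r → ℤ) := (Real.exp_pos _).le
    rw [div_mul_eq_mul_div, one_mul, le_div_iff₀ (by positivity)]
    nlinarith [mul_le_mul_of_nonneg_left h1 h0]
  refine ⟨hdot, ?_⟩
  set G := ∑' z : M, gz β (z : Fin r → ℤ) with hG
  set Q := ∑' z : M, gz β (z : Fin r → ℤ) * dot (icast z) u ^ 2 with hQ
  set E := ∑' z : M, gz β (z : Fin r → ℤ) * Real.exp (a z) with hE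
  have hlow : G + h * Q ≤ E := by
    have h2 : ∑' z : M, (2 * gz β (z : Fin r → ℤ) + 2 * h * (gz β (z : Fin r → ℤ)
        * dot (icast z) u ^ 2)) ≤ ∑' z : M, (gz β (z : Fin r → ℤ) * Real.exp (a z)
        + gz β (z : Fin r → ℤ) * Real.exp (-a z)) := by
      refine ((hg.mul_left 2).add (hdot.mul_left (2 * h))).tsum_le_tsum (fun z => ?_) (hsE.add hsN)
      have h1 := two_add_sq_le (a z)
      rw [ha] at h1
      have h0 : (0 : ℝ) ≤ gz β (z : Fin r → ℤ) := (Real.exp_pos _).le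
      nlinarith [mul_le_mul_of_nonneg_left h1 h0]
    rw [(hg.mul_left 2).tsum_add (hdot.mul_left (2 * h)), hsE.tsum_add hsN, hEN, tsum_mul_left,
      tsum_mul_left] at h2
    linarith
  have hR : rhoR β M y = Real.exp (-β * c ^ 2) * E := by
    rw [rhoR, tsum_congr hsplit, tsum_mul_left]
  have hR0 : rhoR β M 0 = G := by simp [rhoR, hG, gz]
  have hB0 : 0 ≤ B := div_nonneg (W_nonneg _) (Z_pos hβ).le
  have hu1 : ∀ i, u i ^ 2 ≤ 1 := fun i => by
    rw [← hu]
    exact single_le_sum (f := fun j => u j ^ 2) (fun j _ => sq_nonneg _) (mem_univ i)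
  have hfac : ∀ i, Z1 β (y i) ≤
      Real.exp (-β * y i ^ 2) * (Z β * Real.exp (h * u i ^ 2 * B)) := by
    intro i
    have hs : 2 * β ^ 2 * y i ^ 2 = h * u i ^ 2 := by
      rw [hy, Pi.smul_apply, smul_eq_mul, ← hc2]; ring
    have hs0 : 0 ≤ h * u i ^ 2 := by positivity
    have hsh : h * u i ^ 2 ≤ h := mul_le_of_le_one_right hh.le (hu1 i)
    refine (Z1_le (y i) (by rw [hs]; linarith) hβ).trans ?_
    rw [hs]
    refine mul_le_mul_of_nonneg_left ?_ (Real.exp_pos _).le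
    have hpos : 0 < β - h * u i ^ 2 := by linarith
    have h1 := Z_step hpos hs0
    rw [sub_add_cancel] at h1
    have h2 : V (β - h * u i ^ 2) ≤ B := by
      unfold V
      exact div_le_div₀ (W_nonneg _) (W_anti hβh (by linarith)) (Z_pos hβ)
        (Z_anti hpos (by linarith))
    calc Z (β - h * u i ^ 2)
        = Z (β - h * u i ^ 2) * Real.exp (-(h * u i ^ 2 * V (β - h * u i ^ 2)))
            * Real.exp (h * u i ^ 2 * V (β - h * u i ^ 2)) := by
          rw [mul_assoc, ← Real.exp_add]; simp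
      _ ≤ Z β * Real.exp (h * u i ^ 2 * B) := by
          refine mul_le_mul h1 (Real.exp_le_exp.2 (mul_le_mul_of_nonneg_left h2 hs0))
            (Real.exp_pos _).le (Z_pos hβ).le
  have hprod : ∏ i, Z1 β (y i) ≤ Real.exp (-β * c ^ 2) * (Z β ^ r * Real.exp (h * B)) := by
    refine (prod_le_prod (fun i _ => Z1_nonneg _ _) (fun i _ => hfac i)).trans (le_of_eq ?_)
    rw [prod_mul_distrib, prod_mul_distrib, ← Real.exp_sum, ← Real.exp_sum, prod_const,
      card_univ, Fintype.card_fin, ← mul_sum, ← sum_mul, ← mul_sum]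
    change Real.exp (-β * nsq y) * (Z β ^ r * Real.exp (h * nsq u * B)) = _
    rw [hny, hu, mul_one]
  have hG0 : 0 ≤ G := tsum_nonneg fun _ => (Real.exp_pos _).le
  have hmain := rhoR_mono hβ hsat y
  rw [hR, hR0] at hmain
  have hEle : E ≤ G * Real.exp (h * B) := by
    have h1 := hmain.trans (mul_le_mul_of_nonneg_left hprod hG0)
    have hpos : 0 < Real.exp (-β * c ^ 2) * Z β ^ r :=
      mul_pos (Real.exp_pos _) (pow_pos (Z_pos hβ) r)
    refine le_of_mul_le_mul_left ?_ hpos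
    calc Real.exp (-β * c ^ 2) * Z β ^ r * E = Real.exp (-β * c ^ 2) * E * Z β ^ r := by ring
      _ ≤ G * (Real.exp (-β * c ^ 2) * (Z β ^ r * Real.exp (h * B))) := h1
      _ = _ := by ring
  have hexp : Real.exp (h * B) ≤ 1 / (1 - h * B) :=
    Real.exp_bound_div_one_sub_of_interval (mul_nonneg hh.le hB0) hB
  have hfin : h * Q ≤ h * (G * (B / (1 - h * B))) := by
    have h1 : G + h * Q ≤ G * (1 / (1 - h * B)) :=
      (hlow.trans hEle).trans (mul_le_mul_of_nonneg_left hexp hG0)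
    have hne : (1 : ℝ) - h * B ≠ 0 := (sub_pos.2 hB).ne'
    have e : G * (1 / (1 - h * B)) = G + h * (G * (B / (1 - h * B))) := by
      field_simp
      ring
    linarith
  exact le_of_mul_le_mul_left hfin hh

end Vale.Agent.P160.Height
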