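import Vale.Agent.P160.Height.Defs
import Vale.Agent.P160.Height.GaussMoment

/-! Comparison of two Gaussian laws on subspaces: proof of `GaussCompare`. -/

noncomputable section

open Finset Filter Topology

namespace Vale.Agent.P160.Height

variable {r : ℕ}

/-- Gaussian mass of a subgroup -/
def G (γ : ℝ) (M : AddSubgroup (Fin r → ℤ)) : ℝ := ∑' z : M, gz γ (z : Fin r → ℤ)

lemma gz_zero (γ : ℝ) : gz γ (0 : Fin r → ℤ) = 1 := by simp [gz, nsq, icast]

lemma one_le_G {γ : ℝ} (hγ : 0 < γ) (M : AddSubgroup (Fin r → ℤ)) : 1 ≤ G γ M := by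
  have := (summable_gz hγ M).le_tsum (0 : M) (fun z _ => (Real.exp_pos _).le)
  simpa [G, gz_zero] using this

/-- integer points of a rational subspace -/
def latt (H : Submodule ℚ (Fin r → ℚ)) : AddSubgroup (Fin r → ℤ) where
  carrier := {x | qcast x ∈ H}
  add_mem' {a b} ha hb := by
    have : qcast (a + b) = qcast a + qcast b := by funext i; simp [qcast]
    change qcast (a + b) ∈ H
    rw [this]; exact H.add_mem ha hb
  zero_mem' := by
    have : qcast (0 : Fin r → ℤ) = 0 := by funext i; simp [qcast]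
    change qcast (0 : Fin r → ℤ) ∈ H
    rw [this]; exact H.zero_mem
  neg_mem' {a} ha := by
    have : qcast (-a) = -qcast a := by funext i; simp [qcast]
    change qcast (-a) ∈ H
    rw [this]; exact H.neg_mem ha

lemma latt_sat (H : Submodule ℚ (Fin r → ℚ)) : ∀ x, x + x ∈ latt H → x ∈ latt H := by
  intro x hx
  have : qcast x = (2⁻¹ : ℚ) • qcast (x + x) := by funext i; simp [qcast]; ring
  change qcast x ∈ H
  rw [this]
  exact H.smul_mem _ hx

/-- integer vectors in Euclidean space -/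
def ecast (x : Fin r → ℤ) : EuclideanSpace ℝ (Fin r) := WithLp.toLp 2 (icast x)

lemma norm_ecast (x : Fin r → ℤ) : ‖ecast x‖ ^ 2 = nsq (icast x) := by
  rw [EuclideanSpace.real_norm_sq_eq]; rfl

lemma inner_ecast (x : Fin r → ℤ) (v : EuclideanSpace ℝ (Fin r)) :
    inner ℝ v (ecast x) = dot (icast x) v.ofLp := by
  rw [PiLp.inner_apply]
  simp [dot, ecast]

/-- integer points of a subspace lie in a real subspace of the same dimension -/
lemma exists_real_span (H : Submodule ℚ (Fin r → ℚ)) :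
    ∃ S : Submodule ℝ (EuclideanSpace ℝ (Fin r)),
      Module.finrank ℝ S ≤ Module.finrank ℚ H ∧ ∀ x ∈ latt H, ecast x ∈ S := by
  let b := Module.finBasis ℚ H
  let c : Fin (Module.finrank ℚ H) → EuclideanSpace ℝ (Fin r) := fun j =>
    WithLp.toLp 2 (fun i => ((((b j : H) : Fin r → ℚ) i : ℚ) : ℝ))
  refine ⟨Submodule.span ℝ (Set.range c), (finrank_range_le_card c).trans (by simp), fun x hx => ?_⟩
  have h := congrArg (fun v : H => (v : Fin r → ℚ)) (b.sum_repr ⟨qcast x, hx⟩)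
  have hx' : ecast x = ∑ j, ((b.repr ⟨qcast x, hx⟩ j : ℚ) : ℝ) • c j := by
    ext i
    simp only [WithLp.ofLp_sum, WithLp.ofLp_smul, Finset.sum_apply, Pi.smul_apply, smul_eq_mul, c]
    have hi := congrFun h i
    simp only [Submodule.coe_sum, Submodule.coe_smul, Finset.sum_apply, Pi.smul_apply,
      smul_eq_mul, qcast] at hi
    simp only [ecast, icast]
    rw [← Rat.cast_intCast, ← hi]
    push_cast
    rfl
  rw [hx']
  exact Submodule.sum_mem _ fun j _ => Submodule.smul_mem _ _ (Submodule.subset_span ⟨j, rfl⟩)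

/-- the trace bound -/
lemma trace_le {β h : ℝ} (hh : 0 < h) (hβh : 0 < β - h) (H : Submodule ℚ (Fin r → ℚ))
    (hB : h * (W (β - h) / Z β) < 1) :
    Summable (fun z : latt H => gz β (z : Fin r → ℤ) * nsq (icast (z : Fin r → ℤ))) ∧
    ∑' z : latt H, gz β (z : Fin r → ℤ) * nsq (icast (z : Fin r → ℤ)) ≤
      G β (latt H) * ((Module.finrank ℚ H : ℝ) *
        ((W (β - h) / Z β) / (1 - h * (W (β - h) / Z β)))) := by
  obtain ⟨S, hd, hS⟩ := exists_real_span H
  let b := stdOrthonormalBasis ℝ S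
  let u : Fin (Module.finrank ℝ S) → Fin r → ℝ := fun j => ((b j : S) : EuclideanSpace ℝ (Fin r)).ofLp
  have hu : ∀ j, nsq (u j) = 1 := by
    intro j
    have h1 : ‖((b j : S) : EuclideanSpace ℝ (Fin r))‖ = 1 := b.orthonormal.1 j
    have h2 := EuclideanSpace.real_norm_sq_eq ((b j : S) : EuclideanSpace ℝ (Fin r))
    rw [h1, one_pow] at h2
    exact h2.symm
  have hdec : ∀ z : latt H, gz β (z : Fin r → ℤ) * nsq (icast (z : Fin r → ℤ))
      = ∑ j, gz β (z : Fin r → ℤ) * dot (icast (z : Fin r → ℤ)) (u j) ^ 2 := by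
    intro z
    rw [← mul_sum]
    congr 1
    have h1 := b.sum_sq_inner_right ⟨ecast z, hS _ z.2⟩
    rw [Submodule.coe_norm, norm_ecast] at h1
    rw [← h1]
    refine sum_congr rfl fun j _ => ?_
    rw [Submodule.coe_inner, inner_ecast]
  have hm := fun j => second_moment_le hh hβh (latt_sat H) (u j) (hu j) hB
  have hs : Summable fun z : latt H => ∑ j, gz β (z : Fin r → ℤ) * dot (icast (z : Fin r → ℤ)) (u j) ^ 2 :=
    summable_sum fun j _ => (hm j).1
  refine ⟨hs.congr fun z => (hdec z).symm, ?_⟩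
  rw [tsum_congr hdec, Summable.tsum_finsetSum fun j _ => (hm j).1]
  refine (sum_le_sum fun j _ => (hm j).2).trans ?_
  rw [sum_const, card_univ, Fintype.card_fin, nsmul_eq_mul, mul_left_comm]
  refine mul_le_mul_of_nonneg_left (mul_le_mul_of_nonneg_right (by exact_mod_cast hd) ?_)
    (zero_le_one.trans (one_le_G (by linarith) _))
  exact div_nonneg (div_nonneg (W_nonneg _) (Z_pos (by linarith)).le) (by linarith)

lemma G_step {β h : ℝ} (hβ : 0 < β) (hh : 0 ≤ h) (M : AddSubgroup (Fin r → ℤ))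
    (hs : Summable fun z : M => gz β (z : Fin r → ℤ) * nsq (icast (z : Fin r → ℤ))) :
    G β M * Real.exp (-(h * (∑' z : M, gz β (z : Fin r → ℤ) * nsq (icast (z : Fin r → ℤ))) / G β M)) ≤
      G (β + h) M := by
  have e : ∀ z : M, gz β (z : Fin r → ℤ) * Real.exp (-(h * nsq (icast (z : Fin r → ℤ))))
      = gz (β + h) (z : Fin r → ℤ) := fun z => by
    unfold gz; rw [← Real.exp_add]; congr 1; ring
  have e2 : ∀ z : M, gz β (z : Fin r → ℤ) * (h * nsq (icast (z : Fin r → ℤ)))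
      = h * (gz β (z : Fin r → ℤ) * nsq (icast (z : Fin r → ℤ))) := fun z => by ring
  have hj := jensen_exp (fun z : M => gz β (z : Fin r → ℤ)) (fun z : M => h * nsq (icast (z : Fin r → ℤ)))
    (fun z => (Real.exp_pos _).le) (summable_gz hβ M) ((hs.mul_left h).congr fun z => (e2 z).symm)
    ((summable_gz (show 0 < β + h by linarith) M).congr fun z => (e z).symm)
    (lt_of_lt_of_le one_pos (one_le_G hβ M))
  rw [tsum_congr e, tsum_congr e2, tsum_mul_left] at hj
  exact hj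

lemma V_nonneg {γ : ℝ} (hγ : 0 < γ) : 0 ≤ V γ := div_nonneg (W_nonneg _) (Z_pos hγ).le

lemma V_le {γ : ℝ} (hγ : 1 ≤ γ) : V γ ≤ W 1 :=
  (div_le_self (W_nonneg _) (one_le_Z (by linarith))).trans (W_anti one_pos hγ)

lemma Z_one_le : Z 1 ≤ 22 / 10 := by
  have hq : Real.exp (-1) ≤ 0.37 := by
    have := Real.exp_neg_one_lt_d9
    linarith
  have hN : Summable fun n : ℕ => gz1 1 (n : ℤ) :=
    (summable_gz1 one_pos).comp_injective Nat.cast_injective
  have hT : ∑' n : ℕ, gz1 1 ((n + 1 : ℕ) : ℤ) ≤ 0.6 := by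
    have hg : Summable fun n : ℕ => Real.exp (-1) * Real.exp (-1) ^ n :=
      (summable_geometric_of_lt_one (Real.exp_pos _).le (by linarith)).mul_left _
    refine le_trans (((summable_nat_add_iff 1).2 hN).tsum_le_tsum (fun n => ?_) hg) ?_
    · rw [← pow_succ', ← Real.exp_nat_mul, gz1]
      apply Real.exp_le_exp.2
      push_cast
      nlinarith [(Nat.cast_nonneg n : (0 : ℝ) ≤ n)]
    · rw [tsum_mul_left, tsum_geometric_of_lt_one (Real.exp_pos _).le (by linarith),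
        mul_inv_le_iff₀ (by linarith)]
      linarith
  have hZ : Z 1 = gz1 1 0 + ∑' n : ℕ, gz1 1 ((n + 1 : ℕ) : ℤ)
      + ∑' n : ℕ, gz1 1 ((n + 1 : ℕ) : ℤ) := by
    rw [Z, tsum_of_nat_of_neg_add_one hN]
    · rw [hN.tsum_eq_zero_add]
      congr 1
      refine tsum_congr fun n => ?_
      rw [gz1_neg]
      push_cast
      rfl
    · refine ((summable_nat_add_iff 1).2 hN).congr fun n => ?_
      rw [gz1_neg]
      push_cast
      rfl
  have h0 : gz1 1 0 = 1 := by simp [gz1]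
  rw [hZ, h0]
  linarith

lemma V_ge {γ : ℝ} (h1 : 1 ≤ γ) (h3 : γ ≤ 3) : 1 / 25 ≤ V γ := by
  have hγ : 0 < γ := by linarith
  have hW : 2 * Real.exp (-3) ≤ W γ := by
    have h := (summable_gz1_sq hγ).sum_le_tsum ({-1, 1} : Finset ℤ)
      (fun n _ => mul_nonneg (gz1_pos _ _).le (sq_nonneg _))
    rw [Finset.sum_pair (by norm_num)] at h
    change _ ≤ W γ at h
    simp [gz1] at h
    have : Real.exp (-3) ≤ Real.exp (-γ) := Real.exp_le_exp.2 (by linarith)
    linarith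
  have he : (1 : ℝ) / 21 ≤ Real.exp (-3) := by
    have h2 : Real.exp 3 ≤ 21 := by
      have := Real.exp_one_lt_d9
      have h3' : Real.exp 3 = Real.exp 1 ^ 3 := by rw [← Real.exp_nat_mul]; norm_num
      rw [h3']
      calc Real.exp 1 ^ 3 ≤ (2.7183 : ℝ) ^ 3 :=
            pow_le_pow_left₀ (Real.exp_pos _).le (by linarith) 3
        _ ≤ 21 := by norm_num
    rw [Real.exp_neg, ← one_div]
    exact one_div_le_one_div_of_le (Real.exp_pos _) h2
  have hZ : Z γ ≤ 22 / 10 := (Z_anti one_pos h1).trans Z_one_le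
  rw [V, le_div_iff₀ (Z_pos hγ)]
  linarith

/-- normalised mass -/
def R (γ : ℝ) (M : AddSubgroup (Fin r → ℤ)) : ℝ := G γ M / Z γ ^ r

/-- one step of the comparison -/
lemma R_step {β h : ℝ} (hh : 0 < h) (h2 : 1 ≤ β - h) (h3 : β - h ≤ 3) (hhC : h * W 1 ≤ 1 / 2)
    (H : Submodule ℚ (Fin r → ℚ)) (k : ℕ) (hk : Module.finrank ℚ H + k ≤ r) :
    R β (latt H) * Real.exp (h * ((k : ℝ) / 25 + r * (V (β + h) - V (β - h))
      - r * (h * (2 * W 1 + 2) ^ 2))) ≤ R (β + h) (latt H) := by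
  set C := W 1 with hC
  set V0 := V (β - h) with hV0
  have hβ0 : 0 < β - h := by linarith
  have hβ : 0 < β := by linarith
  have hV0C : V0 ≤ C := V_le h2
  have hV0n : 0 ≤ V0 := V_nonneg hβ0
  have hC0 : 0 ≤ C := W_nonneg 1
  set B := W (β - h) / Z β with hBdef
  have hB0 : 0 ≤ B := div_nonneg (W_nonneg _) (Z_pos hβ).le
  have hBC : B ≤ C :=
    (div_le_self (W_nonneg _) (one_le_Z hβ)).trans (W_anti one_pos h2)
  have hhB : h * B ≤ 1 / 2 := (mul_le_mul_of_nonneg_left hBC hh.le).trans hhC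
  have hx : h * V0 ≤ 1 / 2 := (mul_le_mul_of_nonneg_left hV0C hh.le).trans hhC
  have hBV : B ≤ V0 * (1 + 2 * (h * C)) := by
    have h1 := Z_step hβ0 hh.le
    rw [sub_add_cancel] at h1
    have hexp := Real.exp_bound_div_one_sub_of_interval (x := h * V0) (mul_nonneg hh.le hV0n)
      (by linarith)
    have h4 : 1 / (1 - h * V0) ≤ 1 + 2 * (h * V0) := by
      rw [div_le_iff₀ (by linarith)]
      nlinarith [mul_nonneg (mul_nonneg hh.le hV0n) (show (0 : ℝ) ≤ 1 - 2 * (h * V0) by linarith)]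
    have hW0 : W (β - h) = V0 * Z (β - h) := by
      rw [hV0, V, div_mul_cancel₀ _ (Z_pos hβ0).ne']
    rw [hBdef, div_le_iff₀ (Z_pos hβ), hW0]
    calc V0 * Z (β - h)
        = V0 * (Z (β - h) * Real.exp (-(h * V0)) * Real.exp (h * V0)) := by
          rw [mul_assoc (Z (β - h)), ← Real.exp_add]; simp
      _ ≤ V0 * (Z β * (1 + 2 * (h * C))) := by
          refine mul_le_mul_of_nonneg_left ?_ hV0n
          refine mul_le_mul h1 ?_ (Real.exp_pos _).le (Z_pos hβ).le
          nlinarith [hexp.trans h4, mul_le_mul_of_nonneg_left hV0C hh.le]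
      _ = _ := by ring
  set U := B / (1 - h * B) with hU
  have hUle : U ≤ V0 + h * (2 * C + 2) ^ 2 := by
    have h5 : U ≤ B + 2 * h * B ^ 2 := by
      rw [hU, div_le_iff₀ (by linarith)]
      nlinarith [mul_nonneg (mul_nonneg hh.le (sq_nonneg B))
        (show (0 : ℝ) ≤ 1 - 2 * (h * B) by linarith)]
    have h6 : h * B ^ 2 ≤ h * C ^ 2 := by gcongr
    have h7 : h * C * V0 ≤ h * C * C := by gcongr
    nlinarith [mul_nonneg hh.le hC0]
  obtain ⟨hs, htr⟩ := trace_le hh hβ0 H (by linarith)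
  have hG : 0 < G β (latt H) := lt_of_lt_of_le one_pos (one_le_G hβ _)
  have hstep : G β (latt H) * Real.exp (-(h * ((r : ℝ) - k) * (V0 + h * (2 * C + 2) ^ 2)))
      ≤ G (β + h) (latt H) := by
    refine le_trans (mul_le_mul_of_nonneg_left (Real.exp_le_exp.2 ?_) hG.le)
      (G_step hβ hh.le _ hs)
    rw [neg_le_neg_iff, div_le_iff₀ hG, mul_assoc h, mul_assoc h]
    refine mul_le_mul_of_nonneg_left (htr.trans ?_) hh.le
    have hd : (Module.finrank ℚ H : ℝ) ≤ (r : ℝ) - k := by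
      have : ((Module.finrank ℚ H + k : ℕ) : ℝ) ≤ r := by exact_mod_cast hk
      push_cast at this
      linarith
    rw [mul_comm]
    refine mul_le_mul_of_nonneg_right ?_ hG.le
    refine mul_le_mul hd hUle ?_ ((Nat.cast_nonneg _).trans hd)
    exact div_nonneg hB0 (by linarith)
  have hZ : Z (β + h) ^ r * Real.exp (r * (h * V (β + h))) ≤ Z β ^ r := by
    rw [Real.exp_nat_mul, ← mul_pow]
    exact pow_le_pow_left₀ (mul_nonneg (Z_pos (by linarith)).le (Real.exp_pos _).le)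
      (Z_step_back hβ hh.le) r
  unfold R
  rw [div_mul_eq_mul_div, div_le_div_iff₀ (pow_pos (Z_pos hβ) r) (pow_pos (Z_pos (by linarith)) r)]
  have hk25 : (k : ℝ) / 25 ≤ k * V0 := by
    have h8 := mul_le_mul_of_nonneg_left (V_ge h2 h3) (Nat.cast_nonneg k : (0 : ℝ) ≤ k)
    rw [← hV0] at h8
    linarith
  have hexp : Real.exp (h * ((k : ℝ) / 25 + r * (V (β + h) - V0) - r * (h * (2 * C + 2) ^ 2)))
      ≤ Real.exp (-(h * ((r : ℝ) - k) * (V0 + h * (2 * C + 2) ^ 2)))
        * Real.exp (r * (h * V (β + h))) := by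
    rw [← Real.exp_add]
    refine Real.exp_le_exp.2 ?_
    have hkh : 0 ≤ (k : ℝ) * (h * (2 * C + 2) ^ 2) := by positivity
    nlinarith [mul_le_mul_of_nonneg_left hk25 hh.le, mul_nonneg hh.le hkh]
  calc G β (latt H) * Real.exp (h * ((k : ℝ) / 25 + r * (V (β + h) - V0)
        - r * (h * (2 * C + 2) ^ 2))) * Z (β + h) ^ r
      ≤ G β (latt H) * (Real.exp (-(h * ((r : ℝ) - k) * (V0 + h * (2 * C + 2) ^ 2)))
        * Real.exp (r * (h * V (β + h)))) * Z (β + h) ^ r := by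
        refine mul_le_mul_of_nonneg_right (mul_le_mul_of_nonneg_left hexp hG.le) ?_
        exact pow_nonneg (Z_pos (by linarith)).le r
    _ = (G β (latt H) * Real.exp (-(h * ((r : ℝ) - k) * (V0 + h * (2 * C + 2) ^ 2))))
        * (Z (β + h) ^ r * Real.exp (r * (h * V (β + h)))) := by ring
    _ ≤ G (β + h) (latt H) * Z β ^ r := by
        refine mul_le_mul hstep hZ ?_ (zero_le_one.trans (one_le_G (by linarith) _))
        exact mul_nonneg (pow_nonneg (Z_pos (by linarith)).le r) (Real.exp_pos _).le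

/-- the comparison for complete lattice sums -/
lemma R_compare (H : Submodule ℚ (Fin r → ℚ)) (k : ℕ) (hk : Module.finrank ℚ H + k ≤ r)
    (hk1 : 1 ≤ k) :
    R 2 (latt H) * Real.exp ((k : ℝ) * (7 / 200)) ≤ R 3 (latt H) := by
  set C := W 1 with hC
  have hC0 : 0 ≤ C := W_nonneg 1
  set K := (2 * C + 2) ^ 2 + 2 * C with hK
  have hK0 : 0 ≤ K := by positivity
  obtain ⟨L, hL⟩ := exists_nat_ge (200 * ((r : ℝ) + 1) * (K + 1))
  have hr1 : (1 : ℝ) ≤ (r : ℝ) + 1 := by linarith [(Nat.cast_nonneg r : (0 : ℝ) ≤ r)]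
  have hK1 : (1 : ℝ) ≤ K + 1 := by linarith
  have h200 : 200 * (K + 1) ≤ (L : ℝ) := by nlinarith
  have hLpos : (0 : ℝ) < L := by linarith
  set h : ℝ := 1 / L with hh
  have hhpos : 0 < h := by positivity
  have hhL : (L : ℝ) * h = 1 := mul_one_div_cancel hLpos.ne'
  have hh1 : h ≤ 1 := by
    rw [hh, div_le_one hLpos]; linarith
  have hhC : h * C ≤ 1 / 2 := by
    rw [hh, div_mul_eq_mul_div, one_mul, div_le_iff₀ hLpos]
    nlinarith
  let V' : ℤ → ℝ := fun j => V (2 + j * h)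
  have key : ∀ j : ℕ, j ≤ L → R 2 (latt H) * Real.exp (j * h * ((k : ℝ) / 25)
      + r * h * (V' j + V' ((j : ℤ) - 1) - V' 0 - V' (-1))
      - j * (r * (h * (h * (2 * C + 2) ^ 2)))) ≤ R (2 + j * h) (latt H) := by
    intro j
    induction j with
    | zero => intro _; simp
    | succ j ih =>
      intro hj
      have hj' : (j : ℝ) + 1 ≤ L := by exact_mod_cast hj
      have hjh : (j : ℝ) * h + h ≤ 1 := by
        rw [← hhL]; nlinarith
      have hj0 : 0 ≤ (j : ℝ) * h := by positivity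
      have hs := R_step (β := 2 + j * h) hhpos (by linarith) (by linarith) hhC H k hk
      have hi := ih (by omega)
      rw [show (2 : ℝ) + ((j + 1 : ℕ) : ℝ) * h = 2 + j * h + h by push_cast; ring]
      refine le_trans ?_ hs
      refine le_trans (le_of_eq ?_) (mul_le_mul_of_nonneg_right hi (Real.exp_pos _).le)
      rw [mul_assoc (R 2 (latt H)), ← Real.exp_add]
      congr 2
      simp only [V', C]
      push_cast
      ring_nf
  have hL' := key L le_rfl
  have e3 : (2 : ℝ) + L * h = 3 := by rw [hhL]; norm_num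
  rw [e3] at hL'
  refine le_trans ?_ hL'
  refine mul_le_mul_of_nonneg_left (Real.exp_le_exp.2 ?_)
    (div_nonneg (zero_le_one.trans (one_le_G two_pos _)) (pow_nonneg (Z_pos two_pos).le r))
  have hV0 : V' 0 ≤ C := V_le (by simp)
  have hV1 : V' (-1) ≤ C := V_le (by push_cast; linarith)
  have hVL : 0 ≤ V' L := V_nonneg (by positivity)
  have hVL1 : 0 ≤ V' ((L : ℤ) - 1) := V_nonneg (by push_cast; nlinarith)
  have hrh : (r : ℝ) * h * K ≤ 1 / 200 := by
    rw [hh, mul_one_div, div_mul_eq_mul_div, div_le_iff₀ hLpos]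
    nlinarith
  have hk1' : (1 : ℝ) ≤ k := by exact_mod_cast hk1
  have e4 : (L : ℝ) * (r * (h * (h * (2 * C + 2) ^ 2))) = r * h * (2 * C + 2) ^ 2 := by
    rw [show (L : ℝ) * (r * (h * (h * (2 * C + 2) ^ 2)))
      = (L * h) * (r * h * (2 * C + 2) ^ 2) by ring, hhL, one_mul]
  rw [hhL, one_mul, e4]
  have hrh0 : 0 ≤ (r : ℝ) * h := by positivity
  rw [hK] at hrh
  nlinarith [mul_nonneg hrh0 hVL, mul_nonneg hrh0 hVL1,
    mul_le_mul_of_nonneg_left hV0 hrh0, mul_le_mul_of_nonneg_left hV1 hrh0]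

/-- truncated one-dimensional sum -/
def ZB (γ : ℝ) (B : ℕ) : ℝ := ∑ n ∈ Icc (-(B : ℤ)) B, gz1 γ n

lemma ZB_le {γ : ℝ} (hγ : 0 < γ) (B : ℕ) : ZB γ B ≤ Z γ :=
  (summable_gz1 hγ).sum_le_tsum _ (fun n _ => (gz1_pos _ _).le)

lemma one_le_ZB (γ : ℝ) (B : ℕ) : 1 ≤ ZB γ B := by
  refine le_trans (le_of_eq ?_) (single_le_sum (fun n _ => (gz1_pos _ _).le)
    (show (0 : ℤ) ∈ Icc (-(B : ℤ)) B by simp))
  simp [gz1]

lemma Z_le_ZB {γ : ℝ} (hγ : 2 ≤ γ) (B : ℕ) :
    Z γ ≤ ZB γ B + Real.exp (-((B : ℝ) ^ 2)) * Z 1 := by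
  have hγ0 : 0 < γ := by linarith
  classical
  have hsp := (summable_gz1 hγ0).sum_add_tsum_subtype_compl (Icc (-(B : ℤ)) B)
  rw [Z, ← hsp]
  refine add_le_add le_rfl ?_
  have hle : ∀ n : {n : ℤ // n ∉ Icc (-(B : ℤ)) B},
      gz1 γ n ≤ Real.exp (-((B : ℝ) ^ 2)) * gz1 1 n := by
    intro n
    have hn : (B : ℤ) ^ 2 ≤ (n : ℤ) ^ 2 := by
      have := n.2
      simp only [mem_Icc, not_and_or, not_le] at this
      rcases this with h | h <;> nlinarith [(Int.natCast_nonneg B)]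
    have hn' : (B : ℝ) ^ 2 ≤ ((n : ℤ) : ℝ) ^ 2 := by exact_mod_cast hn
    rw [gz1, gz1, ← Real.exp_add]
    apply Real.exp_le_exp.2
    nlinarith [sq_nonneg ((n : ℤ) : ℝ)]
  have h1 : Summable fun n : {n : ℤ // n ∉ Icc (-(B : ℤ)) B} => gz1 1 (n : ℤ) :=
    (summable_gz1 one_pos).comp_injective Subtype.val_injective
  refine ((summable_gz1 hγ0).comp_injective Subtype.val_injective).tsum_le_tsum hle
    (h1.mul_left _) |>.trans ?_
  rw [tsum_mul_left]
  exact mul_le_mul_of_nonneg_left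
    (Summable.tsum_subtype_le (fun n : ℤ => gz1 1 n) {n : ℤ | n ∉ Icc (-(B : ℤ)) B}
      (fun n => (gz1_pos _ _).le) (summable_gz1 one_pos)) (Real.exp_pos _).le

/-- the box -/
def cube (r : ℕ) : Finset (Fin r → ℤ) := Fintype.piFinset fun _ => Icc (-(r : ℤ)) r

open Classical in
/-- Gaussian mass of a subgroup inside the box -/
def SB (γ : ℝ) (M : AddSubgroup (Fin r → ℤ)) : ℝ :=
  ∑ z ∈ (cube r).filter (fun z => z ∈ M), gz γ z

lemma gz_eq_prod (γ : ℝ) (z : Fin r → ℤ) : gz γ z = ∏ i, gz1 γ (z i) := by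
  simp only [gz, gz1, nsq, icast, mul_sum, Real.exp_sum]

lemma pr_gauss (γ : ℝ) (H : Submodule ℚ (Fin r → ℚ)) :
    (rowLaw (gauss γ r) r).pr (fun x => qcast x ∈ H) = SB γ (latt H) / ZB γ r ^ r := by
  classical
  rw [SB, sum_div, Law.pr]
  refine sum_congr ?_ fun z _ => ?_
  · ext z
    simp [rowLaw, Law.pi, gauss, cube, latt]
  · simp only [rowLaw, Law.pi, gauss, prod_div_distrib, prod_const, card_univ, Fintype.card_fin]
    rw [gz_eq_prod]
    rfl

lemma SB_le_G {γ : ℝ} (hγ : 0 < γ) (M : AddSubgroup (Fin r → ℤ)) : SB γ M ≤ G γ M := by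
  classical
  have h : SB γ M = ∑ z ∈ (cube r).subtype (fun z => z ∈ M), gz γ (z : Fin r → ℤ) := by
    rw [SB]
    exact (Finset.sum_subtype_eq_sum_filter (fun z => gz γ z)).symm
  rw [h]
  exact (summable_gz hγ M).sum_le_tsum _ (fun z _ => (Real.exp_pos _).le)

lemma G_le_SB {γ : ℝ} (hγ : 0 < γ) (M : AddSubgroup (Fin r → ℤ)) :
    G γ M ≤ SB γ M + (Z γ ^ r - ZB γ r ^ r) := by
  classical
  have hs : Summable fun z : Fin r → ℤ => gz γ z := by
    simpa [gz] using summable_full hγ (0 : Fin r → ℝ)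
  have hfull : ∑' z : Fin r → ℤ, gz γ z = Z γ ^ r := by
    have h := tsum_full hγ (0 : Fin r → ℝ)
    simp only [Pi.zero_apply, Z1_zero, prod_const, card_univ, Fintype.card_fin, add_zero] at h
    exact h
  have hbox : ∑ z ∈ cube r, gz γ z = ZB γ r ^ r := by
    simp only [gz_eq_prod, cube]
    rw [← prod_univ_sum]
    simp [ZB]
  let F : (Fin r → ℤ) → ℝ := fun z => if z ∈ M then gz γ z else 0
  let F' : (Fin r → ℤ) → ℝ := fun z => if z ∈ M then 0 else gz γ z
  have hF : Summable F := hs.of_nonneg_of_le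
    (fun z => by simp only [F]; split_ifs; exacts [(Real.exp_pos _).le, le_rfl])
    (fun z => by simp only [F]; split_ifs; exacts [le_rfl, (Real.exp_pos _).le])
  have hF' : Summable F' := hs.of_nonneg_of_le
    (fun z => by simp only [F']; split_ifs; exacts [le_rfl, (Real.exp_pos _).le])
    (fun z => by simp only [F']; split_ifs; exacts [(Real.exp_pos _).le, le_rfl])
  have hsum : ∀ z, gz γ z = F z + F' z := fun z => by simp only [F, F']; split_ifs <;> simp
  have hG : G γ M = ∑' z, F z := by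
    rw [G]
    refine (tsum_subtype (M : Set (Fin r → ℤ)) (gz γ)).trans (tsum_congr fun z => ?_)
    simp [F, Set.indicator]
  have h1 := hF'.sum_le_tsum (cube r) (fun z _ => by
    simp only [F']; split_ifs; exacts [le_rfl, (Real.exp_pos _).le])
  have h2 : ∑' z : Fin r → ℤ, gz γ z = ∑' z, F z + ∑' z, F' z := by
    rw [tsum_congr hsum]; exact hF.tsum_add hF'
  have h3 : ∑ z ∈ cube r, gz γ z = SB γ M + ∑ z ∈ cube r, F' z := by
    rw [SB, sum_filter, ← sum_add_distrib]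
    exact sum_congr rfl fun z _ => hsum z
  rw [hfull, ← hG] at h2
  rw [hbox] at h3
  linarith

lemma tail_small : ∀ᶠ r : ℕ in atTop, (r : ℝ) * (Real.exp (-((r : ℝ) ^ 2)) * Z 1) ≤ 1 / 1000 ∧
    Z 1 ^ r * ((r : ℝ) * (Real.exp (-((r : ℝ) ^ 2)) * Z 1)) ≤ 1 / 1000 := by
  have hZ1 : 1 ≤ Z 1 := one_le_Z one_pos
  have hbd : ∀ᶠ r : ℕ in atTop,
      (r : ℝ) * (Real.exp (-(r : ℝ))) * Z 1 ≤ 1 / 1000 ∧ Real.log (Z 1) + 1 ≤ r := by
    have ht : Tendsto (fun r : ℕ => (r : ℝ) * Real.exp (-(r : ℝ)) * Z 1) atTop (𝓝 0) := by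
      have h := (Real.tendsto_pow_mul_exp_neg_atTop_nhds_zero 1).comp
        tendsto_natCast_atTop_atTop
      simpa [Function.comp_def] using h.mul_const (Z 1)
    exact (ht.eventually_le_const (by norm_num : (0 : ℝ) < 1 / 1000)).and
      ((tendsto_natCast_atTop_atTop (R := ℝ)).eventually_ge_atTop _)
  filter_upwards [hbd] with r hr
  have hr0 : (0 : ℝ) ≤ r := Nat.cast_nonneg r
  have hlog : 0 ≤ Real.log (Z 1) := Real.log_nonneg hZ1
  have key : Z 1 ^ r * Real.exp (-((r : ℝ) ^ 2)) ≤ Real.exp (-(r : ℝ)) := by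
    rw [← Real.exp_log (Z_pos one_pos), ← Real.exp_nat_mul, ← Real.exp_add]
    apply Real.exp_le_exp.2
    nlinarith [mul_le_mul_of_nonneg_left hr.2 hr0]
  have h0 : (0 : ℝ) ≤ r * Z 1 := by positivity
  constructor
  · refine le_trans ?_ hr.1
    have h1 : Real.exp (-((r : ℝ) ^ 2)) ≤ Z 1 ^ r * Real.exp (-((r : ℝ) ^ 2)) :=
      le_mul_of_one_le_left (Real.exp_pos _).le (one_le_pow₀ hZ1)
    nlinarith [mul_le_mul_of_nonneg_left (h1.trans key) h0]
  · refine le_trans ?_ hr.1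
    nlinarith [mul_le_mul_of_nonneg_left key h0]

/-- two Gaussian laws on subspaces of codimension `k` -/
theorem gauss_compare : GaussCompare := by
  obtain ⟨R0, hR0⟩ := eventually_atTop.1 tail_small
  refine ⟨R0, fun r k hr hk1 H hk => ?_⟩
  obtain ⟨ht1, ht2⟩ := hR0 r hr
  set η := Real.exp (-((r : ℝ) ^ 2)) * Z 1 with hη
  have hη0 : 0 ≤ η := mul_nonneg (Real.exp_pos _).le (Z_pos one_pos).le
  have hratio : ∀ γ, 2 ≤ γ → Z γ ^ r ≤ ZB γ r ^ r * Real.exp ((r : ℝ) * η) := by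
    intro γ hγ
    rw [Real.exp_nat_mul, ← mul_pow]
    refine pow_le_pow_left₀ (Z_pos (by linarith)).le ?_ r
    calc Z γ ≤ ZB γ r + η := Z_le_ZB hγ r
      _ ≤ ZB γ r * (1 + η) := by nlinarith [one_le_ZB γ r]
      _ ≤ ZB γ r * Real.exp η := mul_le_mul_of_nonneg_left
          (by linarith [Real.add_one_le_exp η]) (zero_le_one.trans (one_le_ZB γ r))
  have hdiff : Z 3 ^ r - ZB 3 r ^ r ≤ 1 / 1000 := by
    have h1 := hratio 3 (by norm_num)
    have h2 : 1 - (r : ℝ) * η ≤ Real.exp (-((r : ℝ) * η)) := by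
      linarith [Real.add_one_le_exp (-((r : ℝ) * η))]
    have h3 : Z 3 ^ r * Real.exp (-((r : ℝ) * η)) ≤ ZB 3 r ^ r := by
      rw [Real.exp_neg, mul_inv_le_iff₀ (Real.exp_pos _)]
      exact h1
    have h4 : Z 3 ^ r * ((r : ℝ) * η) ≤ 1 / 1000 :=
      le_trans (mul_le_mul_of_nonneg_right (pow_le_pow_left₀ (Z_pos (by norm_num)).le
        (Z_anti one_pos (by norm_num)) r) (by positivity)) ht2
    nlinarith [mul_le_mul_of_nonneg_left h2 (pow_nonneg (Z_pos (show (0:ℝ) < 3 by norm_num)).le r)]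
  have hG3 := G_le_SB (show (0:ℝ) < 3 by norm_num) (latt H)
  have hG31 := one_le_G (show (0:ℝ) < 3 by norm_num) (latt H)
  have hS3 : 999 / 1000 * G 3 (latt H) ≤ SB 3 (latt H) := by linarith
  have hcmp := R_compare H k hk hk1
  have hZ2 : 0 < ZB 2 r ^ r := pow_pos (lt_of_lt_of_le one_pos (one_le_ZB _ _)) r
  have hP2 : SB 2 (latt H) / ZB 2 r ^ r ≤ Real.exp (1 / 1000) * R 2 (latt H) := by
    unfold R
    rw [mul_div_assoc', div_le_div_iff₀ hZ2 (pow_pos (Z_pos two_pos) r)]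
    have h1 : Z 2 ^ r ≤ ZB 2 r ^ r * Real.exp (1 / 1000) := (hratio 2 le_rfl).trans
      (mul_le_mul_of_nonneg_left (Real.exp_le_exp.2 ht1) hZ2.le)
    calc SB 2 (latt H) * Z 2 ^ r
        ≤ G 2 (latt H) * (ZB 2 r ^ r * Real.exp (1 / 1000)) :=
          mul_le_mul (SB_le_G two_pos _) h1 (pow_nonneg (Z_pos two_pos).le r)
            (zero_le_one.trans (one_le_G two_pos _))
      _ = _ := by ring
  have hP3 : R 3 (latt H) ≤ 1000 / 999 * (SB 3 (latt H) / ZB 3 r ^ r) := by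
    have hZ3 : 0 < ZB 3 r ^ r := pow_pos (lt_of_lt_of_le one_pos (one_le_ZB _ _)) r
    unfold R
    rw [mul_div_assoc']
    refine div_le_div₀ ?_ (by linarith) hZ3
      (pow_le_pow_left₀ (zero_le_one.trans (one_le_ZB _ _)) (ZB_le (by norm_num) r) r)
    linarith
  rw [pr_gauss, pr_gauss]
  have hc : (1000 : ℝ) / 999 ≤ Real.exp (1 / 999) := by
    have := Real.add_one_le_exp (1 / 999 : ℝ)
    linarith
  have hS30 : 0 ≤ SB 3 (latt H) / ZB 3 r ^ r :=
    div_nonneg (le_trans (by linarith) hS3) (pow_nonneg (zero_le_one.trans (one_le_ZB _ _)) r)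
  have hk1' : (1 : ℝ) ≤ k := by exact_mod_cast hk1
  calc SB 2 (latt H) / ZB 2 r ^ r ≤ Real.exp (1 / 1000) * R 2 (latt H) := hP2
    _ = Real.exp (1 / 1000 - (k : ℝ) * (7 / 200)) *
          (R 2 (latt H) * Real.exp ((k : ℝ) * (7 / 200))) := by
        rw [mul_left_comm, ← Real.exp_add, mul_comm]
        ring_nf
    _ ≤ Real.exp (1 / 1000 - (k : ℝ) * (7 / 200)) *
          (Real.exp (1 / 999) * (SB 3 (latt H) / ZB 3 r ^ r)) :=
        mul_le_mul_of_nonneg_left
          (hcmp.trans (hP3.trans (mul_le_mul_of_nonneg_right hc hS30))) (Real.exp_pos _).le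
    _ ≤ _ := by
        rw [← mul_assoc, ← Real.exp_add]
        refine mul_le_mul_of_nonneg_right (Real.exp_le_exp.2 ?_) hS30
        linarith

end Vale.Agent.P160.Height
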