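import Vale.Agent.P160.Main
import Vale.Agent.P160.Height.Fourier
import Vale.Agent.P160.Height.Gauss

/-! Kernel vectors of exponential height: the assembly. -/

noncomputable section

open Finset Filter
open scoped Topology

namespace Vale.Agent.P160.Height

/-- `A` has a nonzero integer kernel vector with all entries at most `2 ^ (δ n)` in absolute value. -/
def LowKernel (δ : ℝ) {n : ℕ} (A : Matrix (Fin n) (Fin n) ℤ) : Prop :=
  ∃ v : Fin n → ℤ, v ≠ 0 ∧ A.mulVec v = 0 ∧ ∀ i, |(v i : ℝ)| ≤ (2:ℝ) ^ (δ * n)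

/-- The probability of a kernel vector of height at most `2 ^ (δ n)`. -/
def heightProb (δ : ℝ) (n : ℕ) : ℝ :=
  prob (fun ω : Sym2 (Fin n) → Bool => LowKernel δ (symSignMatrix ω))

/-- The probability of a kernel vector of that height or a structured one. -/
def lowProb (δ : ℝ) (n : ℕ) : ℝ :=
  prob (fun ω : Sym2 (Fin n) → Bool =>
    LowKernel δ (symSignMatrix ω) ∨ StructuredKernel (symSignMatrix ω))

/-- The rest of the singularity probability. -/
def highProb (δ : ℝ) (n : ℕ) : ℝ :=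
  prob (fun ω : Sym2 (Fin n) → Bool => (symSignMatrix ω).det = 0 ∧
    ¬ (LowKernel δ (symSignMatrix ω) ∨ StructuredKernel (symSignMatrix ω)))

theorem low_singular (δ : ℝ) {n : ℕ} (ω : Sym2 (Fin n) → Bool)
    (h : LowKernel δ (symSignMatrix ω) ∨ StructuredKernel (symSignMatrix ω)) :
    (symSignMatrix ω).det = 0 := by
  rcases h with ⟨v, hv, hk, -⟩ | h
  · exact Matrix.exists_mulVec_eq_zero_iff.1 ⟨v, hv, hk⟩
  · exact structured_singular ω h

theorem lowProb_le_singProb (δ : ℝ) (n : ℕ) : lowProb δ n ≤ singProb n :=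
  prob_mono fun ω h => low_singular δ ω h

theorem singProb_eq_low (δ : ℝ) (n : ℕ) : singProb n = highProb δ n + lowProb δ n := by
  unfold singProb highProb lowProb
  rw [← prob_and_not_add (fun ω : Sym2 (Fin n) → Bool => (symSignMatrix ω).det = 0)
    (fun ω => LowKernel δ (symSignMatrix ω) ∨ StructuredKernel (symSignMatrix ω))]
  congr 1
  exact prob_congr fun ω => ⟨fun h => h.2, fun h => ⟨low_singular δ ω h, h⟩⟩

theorem low_of_pair {δ : ℝ} (hδ : 0 ≤ δ) {n : ℕ} {q : (Fin n × Fin n) × Bool} (hq : q ∈ pairSet n)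
    (ω : Sym2 (Fin n) → Bool) (h : PairEvent q ω) : LowKernel δ (symSignMatrix ω) := by
  classical
  obtain ⟨⟨i, j⟩, b⟩ := q
  simp only [pairSet, Finset.mem_product, Finset.mem_filter, Finset.mem_univ, true_and, and_true] at hq
  have hij : i ≠ j := hq.ne
  refine ⟨Pi.single i 1 + Pi.single j (if b then 1 else -1), ?_, ?_, fun k => ?_⟩
  · intro h0
    have := congrFun h0 i
    simp [hij] at this
  · funext k
    have hk : ω s(k, i) = xor b (ω s(k, j)) := h k
    simp [Matrix.mulVec_add, Matrix.mulVec_single, symSignMatrix, hk, sgn]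
    cases b <;> cases hx : ω s(k, j) <;> simp [symSignMatrix, sgn, hx]
  · refine le_trans ?_ (Real.one_le_rpow one_le_two (by positivity))
    rcases eq_or_ne k i with rfl | hki
    · simp [hij]
    · rcases eq_or_ne k j with rfl | hkj
      · cases b <;> simp [hki]
      · simp [hki, hkj]

theorem heightProb_lower {δ : ℝ} (hδ : 0 ≤ δ) : ∀ᶠ n : ℕ in atTop,
    (n : ℝ) * ((n : ℝ) - 1) * (1/2:ℝ) ^ n - 256 * (n : ℝ) ^ 4 * (1/4:ℝ) ^ n ≤ heightProb δ n := by
  filter_upwards [eventually_ge_atTop 8] with n hn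
  classical
  unfold heightProb
  refine le_trans ?_ (prob_mono (P := fun ω => ∃ q ∈ pairSet n, PairEvent q ω)
    (fun ω ⟨q, hq, hω⟩ => low_of_pair hδ hq ω hω))
  refine le_trans ?_ (prob_exists_ge _ _)
  apply sub_le_sub
  · rw [Finset.sum_congr rfl (g := fun _ => (1/2:ℝ) ^ n) ?_, Finset.sum_const, nsmul_eq_mul,
      card_pairSet]
    intro q hq
    obtain ⟨⟨i, j⟩, b⟩ := q
    simp only [pairSet, Finset.mem_product, Finset.mem_filter, Finset.mem_univ, true_and, and_true] at hq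
    rw [prob_pairEvent hq.ne, one_div_pow]
  · refine le_trans (Finset.sum_le_sum (g := fun _ => 256 / (4:ℝ) ^ n) fun qq hqq => ?_) ?_
    · obtain ⟨h1, h2, h3⟩ := Finset.mem_offDiag.1 hqq
      exact prob_pair_and h1 h2 h3
    · rw [Finset.sum_const, nsmul_eq_mul, Finset.offDiag_card]
      have hc : (((pairSet n).card * (pairSet n).card - (pairSet n).card : ℕ) : ℝ)
          ≤ (n:ℝ) ^ 4 := by
        refine le_trans (Nat.cast_le.2 (Nat.sub_le _ _)) ?_
        push_cast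
        rw [card_pairSet]
        have h0 : (1:ℝ) ≤ n := by exact_mod_cast (show 1 ≤ n by omega)
        calc (n:ℝ) * ((n:ℝ) - 1) * ((n:ℝ) * ((n:ℝ) - 1)) ≤ (n:ℝ) * n * ((n:ℝ) * n) := by
              have h1 : (n:ℝ) * ((n:ℝ) - 1) ≤ (n:ℝ) * n := by gcongr; linarith
              exact mul_le_mul h1 h1 (mul_nonneg (by positivity) (by linarith)) (by positivity)
          _ = _ := by ring
      refine le_trans (mul_le_mul_of_nonneg_right hc (by positivity)) (le_of_eq ?_)
      rw [one_div_pow]; ring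

theorem exists_dense_decomp {n : ℕ} (σ : Blocks (n / 3) (n % 3) ≃ Fin n) (N : ℕ) (v : Fin n → ℤ)
    (hv : ∀ i, |v i| ≤ (N : ℤ)) (hz : 2 * numZeros v ≤ n / 3) :
    ∃ q ∈ (denseBox (n / 3) N ×ˢ denseBox (n / 3) N) ×ˢ (denseBox (n / 3) N ×ˢ box (n % 3) N),
      ∀ a, glue q a = v (σ a) := by
  classical
  have hd : ∀ f : Fin (n / 3) → Blocks (n / 3) (n % 3), Function.Injective f →
      (fun i => v (σ (f i))) ∈ denseBox (n / 3) N := by
    intro f hf
    refine mem_filter.2 ⟨mem_box.2 fun i => hv _, ?_⟩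
    have h1 : (univ.filter fun i => v (σ (f i)) = 0).card ≤ numZeros v :=
      card_le_card_of_injOn (fun i => σ (f i)) (fun i hi => by simpa [numZeros] using hi)
        fun a _ b _ h => hf (σ.injective h)
    have h2 := card_filter_add_card_filter_not (s := (univ : Finset (Fin (n / 3))))
      (p := fun i => v (σ (f i)) = 0)
    rw [card_univ, Fintype.card_fin] at h2
    simp only [ne_eq] at h2 ⊢
    omega
  refine ⟨((fun i => v (σ (Sum.inl (Sum.inl i))), fun i => v (σ (Sum.inl (Sum.inr i)))),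
    (fun i => v (σ (Sum.inr (Sum.inl i))), fun i => v (σ (Sum.inr (Sum.inr i))))), ?_, ?_⟩
  · simp only [mem_product]
    exact ⟨⟨hd _ (Sum.inl_injective.comp Sum.inl_injective),
      hd _ (Sum.inl_injective.comp Sum.inr_injective)⟩,
      hd _ (Sum.inr_injective.comp Sum.inl_injective), mem_box.2 fun i => hv _⟩
  · rintro ((a | a) | (a | a)) <;> rfl

/-- The contribution of dense kernel vectors of exponential height. -/
theorem dense_low_small : ∃ δ : ℝ, 0 < δ ∧ ∀ᶠ n : ℕ in atTop,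
    prob (fun ω : Sym2 (Fin n) → Bool => LowKernel δ (symSignMatrix ω) ∧
      ¬ StructuredKernel (symSignMatrix ω)) ≤ 100 * (0.46:ℝ) ^ n := by
  obtain ⟨δ0, hδ0, hmom⟩ := second_moment gauss_compare halasz_bound
  set δ := min (δ0 / 4) (1/100)
  have hδ : 0 < δ := lt_min (by positivity) (by norm_num)
  refine ⟨δ, hδ, ?_⟩
  have hdiv : Tendsto (fun n : ℕ => n / 3) atTop atTop :=
    tendsto_atTop.2 fun b => eventually_atTop.2 ⟨3 * b, fun n hn => by omega⟩
  filter_upwards [hdiv.eventually hmom, eventually_ge_atTop 100, ev_log_ge 20] with n hmom hn hlog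
  classical
  set r := n / 3
  set j := n % 3
  have hnr : n = 3 * r + j := (Nat.div_add_mod n 3).symm
  have hn' : (100:ℝ) ≤ n := by exact_mod_cast hn
  set N := ⌊(2:ℝ) ^ (δ * n)⌋₊
  have hpow0 : (0:ℝ) ≤ (2:ℝ) ^ (δ * n) := by positivity
  have hN : (N:ℝ) ≤ (2:ℝ) ^ (δ * n) := Nat.floor_le hpow0
  have hNr : (N:ℝ) ≤ (2:ℝ) ^ (δ0 * r) := by
    refine hN.trans (Real.rpow_le_rpow_of_exponent_le one_le_two ?_)
    have h4 : (n:ℝ) ≤ 4 * r := by exact_mod_cast (show n ≤ 4 * r by omega)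
    have := mul_le_mul_of_nonneg_right (min_le_left (δ0 / 4) (1/100)) (show (0:ℝ) ≤ n by linarith)
    have := mul_le_mul_of_nonneg_left h4 (show 0 ≤ δ0 / 4 by positivity)
    linarith
  obtain ⟨p, hp, hprime⟩ := Nat.exists_infinite_primes (r * r * N + 3)
  have : Fact p.Prime := ⟨hprime⟩
  have hb : (matLaw r).ex (fun D => kerCount N D ^ 2) ≤ ((2/5:ℝ) ^ r) ^ 2 := by
    refine (hmom N hNr).trans ?_
    rw [← pow_mul, mul_comm r 2, pow_mul]
    exact pow_le_pow_left₀ (by norm_num) (by norm_num) _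
  have hsum := blocks_sum_le (p := p) (j := j) (N := N) (b := (2/5:ℝ) ^ r) (by positivity)
    (by omega) (by omega) hb
  let σ : Blocks r j ≃ Fin n := Fintype.equivFinOfCardEq (by simp; omega)
  let τ : Sym2 (Blocks r j) ≃ Sym2 (Fin n) :=
    ⟨Sym2.map σ, Sym2.map σ.symm, fun x => by simp [Sym2.map_map], fun x => by simp [Sym2.map_map]⟩
  refine le_trans (prob_mono (Q := fun ω : Sym2 (Fin n) → Bool =>
    ∃ q ∈ (denseBox r N ×ˢ denseBox r N) ×ˢ (denseBox r N ×ˢ box j N),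
      ∀ i, ∑ k, sgn (ω (τ s(i, k))) * glue q k = 0) fun ω hω => ?_) ?_
  · obtain ⟨⟨v, hv0, hker, hbd⟩, hns⟩ := hω
    have hz : (numZeros v : ℝ) < 2 * (n:ℝ) / Real.log n := by
      by_contra hcon
      exact hns ⟨v, hv0, hker, Or.inl (not_lt.1 hcon)⟩
    have hz' : 2 * numZeros v ≤ r := by
      have h1 : 2 * (n:ℝ) / Real.log n ≤ n / 10 := by
        rw [div_le_iff₀ (by linarith)]
        have := mul_le_mul_of_nonneg_left hlog (show (0:ℝ) ≤ n / 10 by positivity)
        linarith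
      have h2 : (numZeros v : ℝ) < (n:ℝ) / 10 := hz.trans_le h1
      have h3 : ((10 * numZeros v : ℕ) : ℝ) < (n:ℝ) := by push_cast; linarith
      have h4 : 10 * numZeros v < n := by exact_mod_cast h3
      omega
    have hvN : ∀ i, |v i| ≤ (N : ℤ) := by
      intro i
      have h1 : ((v i).natAbs : ℝ) ≤ (2:ℝ) ^ (δ * n) := by
        rw [Nat.cast_natAbs, Int.cast_abs]; exact hbd i
      rw [← Int.natCast_natAbs]
      exact_mod_cast Nat.le_floor h1
    obtain ⟨q, hq, hqv⟩ := exists_dense_decomp σ N v hvN hz'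
    refine ⟨q, hq, fun i => ?_⟩
    have h := congrFun hker (σ i)
    simp only [Matrix.mulVec, dotProduct, symSignMatrix, Pi.zero_apply] at h
    rw [← h, ← σ.sum_comp]
    refine sum_congr rfl fun k _ => ?_
    rw [hqv]
    rfl
  refine (prob_exists_le _ _).trans ((le_of_eq (sum_congr rfl fun q _ => ?_)).trans (hsum.trans ?_))
  · exact prob_equiv (Equiv.arrowCongr τ.symm (Equiv.refl Bool))
      (fun ω : Sym2 (Blocks r j) → Bool => ∀ i, ∑ k, sgn (ω s(i, k)) * glue q k = 0)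
  have h1 : (1:ℝ) ≤ (2:ℝ) ^ (δ * n) := Real.one_le_rpow one_le_two (by positivity)
  have hj : (2 * (N:ℝ) + 1) ^ j ≤ 9 * (((2:ℝ) ^ (δ * n)) ^ 2) := by
    calc (2 * (N:ℝ) + 1) ^ j ≤ (3 * (2:ℝ) ^ (δ * n)) ^ j :=
          pow_le_pow_left₀ (by positivity) (by linarith) _
      _ ≤ (3 * (2:ℝ) ^ (δ * n)) ^ 2 := pow_le_pow_right₀ (by linarith) (by omega)
      _ = _ := by ring
  have hpow : ((2:ℝ) ^ (δ * n)) ^ 2 ≤ (1.03:ℝ) ^ n := by
    rw [← Real.rpow_natCast _ 2, ← Real.rpow_mul two_pos.le, ← Real.rpow_natCast _ n,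
      Real.rpow_def_of_pos two_pos, Real.rpow_def_of_pos (by norm_num : (0:ℝ) < 1.03)]
    refine Real.exp_le_exp.2 ?_
    have hl : (3/103:ℝ) ≤ Real.log 1.03 := by
      have := Real.one_sub_inv_le_log_of_pos (show (0:ℝ) < 1.03 by norm_num)
      norm_num at this ⊢
      linarith
    have h2 := mul_le_mul_of_nonneg_right (min_le_right (δ0 / 4) (1/100)) (show (0:ℝ) ≤ n by linarith)
    have h3 := mul_le_mul (show Real.log 2 ≤ 1 by linarith [Real.log_two_lt_d9]) h2 (by positivity) zero_le_one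
    have h4 := mul_le_mul_of_nonneg_right hl (show (0:ℝ) ≤ n by linarith)
    push_cast
    linarith
  have h5 : ((2/5:ℝ) ^ r) ^ 3 ≤ 7 * (2/5:ℝ) ^ n := by
    have h6 : (2/5:ℝ) ^ n = ((2/5:ℝ) ^ r) ^ 3 * (2/5:ℝ) ^ j := by
      rw [← pow_mul, ← pow_add]; congr 1; omega
    have h7 : (4/25:ℝ) ≤ (2/5:ℝ) ^ j := by
      calc (4/25:ℝ) = (2/5:ℝ) ^ 2 := by norm_num
        _ ≤ _ := pow_le_pow_of_le_one (by norm_num) (by norm_num) (by omega)
    rw [h6]
    have := mul_le_mul_of_nonneg_left h7 (show 0 ≤ ((2/5:ℝ) ^ r) ^ 3 by positivity)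
    have : 0 ≤ ((2/5:ℝ) ^ r) ^ 3 := by positivity
    linarith
  calc (2 * (N:ℝ) + 1) ^ j * ((2/5:ℝ) ^ r) ^ 3 ≤ 9 * (1.03:ℝ) ^ n * (7 * (2/5:ℝ) ^ n) :=
        mul_le_mul (hj.trans (mul_le_mul_of_nonneg_left hpow (by norm_num))) h5 (by positivity)
          (by positivity)
    _ = 63 * (1.03 * (2/5):ℝ) ^ n := by rw [mul_pow]; ring
    _ ≤ 100 * (0.46:ℝ) ^ n :=
        mul_le_mul (by norm_num) (pow_le_pow_left₀ (by norm_num) (by norm_num) _) (by positivity)
          (by norm_num)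

theorem lowProb_le_add (δ : ℝ) (n : ℕ) : lowProb δ n ≤ structProb n +
    prob (fun ω : Sym2 (Fin n) → Bool => LowKernel δ (symSignMatrix ω) ∧
      ¬ StructuredKernel (symSignMatrix ω)) := by
  refine le_trans (prob_mono fun ω h => ?_) (prob_or_le _ _)
  by_cases hs : StructuredKernel (symSignMatrix ω)
  · exact Or.inl hs
  · exact Or.inr ⟨h.resolve_right hs, hs⟩

theorem exists_height_asymptotic : ∃ δ : ℝ, 0 < δ ∧
    Tendsto (fun n : ℕ => heightProb δ n / ((n : ℝ) ^ 2 * (1/2:ℝ) ^ n)) atTop (𝓝 1) ∧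
    Tendsto (fun n : ℕ => lowProb δ n / ((n : ℝ) ^ 2 * (1/2:ℝ) ^ n)) atTop (𝓝 1) := by
  obtain ⟨δ, hδ, hsmall⟩ := dense_low_small
  refine ⟨δ, hδ, ?_⟩
  have hinv : Tendsto (fun n : ℕ => (1:ℝ) - 1 / (n:ℝ)) atTop (𝓝 1) := by
    simpa using tendsto_const_nhds.sub (tendsto_one_div_atTop_nhds_zero_nat (𝕜 := ℝ))
  have hb : Tendsto (fun n : ℕ => 256 * ((n:ℝ) ^ 2 * (1/2:ℝ) ^ n)) atTop (𝓝 0) := by
    simpa using (tendsto_pow_const_mul_const_pow_of_abs_lt_one 2
      (show |(1/2:ℝ)| < 1 by norm_num)).const_mul 256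
  have hg : Tendsto (fun n : ℕ => (1:ℝ) - 1 / (n:ℝ) - 256 * ((n:ℝ) ^ 2 * (1/2:ℝ) ^ n)) atTop (𝓝 1) := by
    simpa using hinv.sub hb
  have hh : Tendsto (fun n : ℕ => structProb n / ((n : ℝ) ^ 2 * (1/2:ℝ) ^ n) + 100 * (0.92:ℝ) ^ n)
      atTop (𝓝 1) := by
    simpa using structProb_asymptotic.add ((tendsto_pow_atTop_nhds_zero_of_lt_one (by norm_num)
      (by norm_num : (0.92:ℝ) < 1)).const_mul 100)
  have hlow : ∀ᶠ n : ℕ in atTop, (1:ℝ) - 1 / (n:ℝ) - 256 * ((n:ℝ) ^ 2 * (1/2:ℝ) ^ n)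
      ≤ heightProb δ n / ((n : ℝ) ^ 2 * (1/2:ℝ) ^ n) := by
    filter_upwards [heightProb_lower hδ.le, eventually_ge_atTop 1] with n h hn
    have hn0 : (1:ℝ) ≤ n := by exact_mod_cast hn
    rw [le_div_iff₀ (by positivity)]
    refine le_trans (le_of_eq ?_) h
    have e : (1/4:ℝ) ^ n = (1/2:ℝ) ^ n * (1/2:ℝ) ^ n := by rw [← mul_pow]; norm_num
    rw [e]
    field_simp
  have hmid : ∀ n : ℕ, heightProb δ n / ((n : ℝ) ^ 2 * (1/2:ℝ) ^ n)
      ≤ lowProb δ n / ((n : ℝ) ^ 2 * (1/2:ℝ) ^ n) := fun n =>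
    div_le_div_of_nonneg_right (prob_mono fun ω h => Or.inl h) (by positivity)
  have hup : ∀ᶠ n : ℕ in atTop, lowProb δ n / ((n : ℝ) ^ 2 * (1/2:ℝ) ^ n)
      ≤ structProb n / ((n : ℝ) ^ 2 * (1/2:ℝ) ^ n) + 100 * (0.92:ℝ) ^ n := by
    filter_upwards [hsmall, eventually_ge_atTop 1] with n h hn
    have hn0 : (1:ℝ) ≤ n := by exact_mod_cast hn
    rw [div_le_iff₀ (by positivity), add_mul, div_mul_cancel₀ _ (by positivity)]
    refine (lowProb_le_add δ n).trans (add_le_add le_rfl (h.trans ?_))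
    have e : (0.46:ℝ) ^ n = (0.92:ℝ) ^ n * (1/2:ℝ) ^ n := by rw [← mul_pow]; norm_num
    have h1 : (1:ℝ) ≤ (n:ℝ) ^ 2 := one_le_pow₀ hn0
    have := mul_le_mul_of_nonneg_left h1 (show 0 ≤ 100 * ((0.92:ℝ) ^ n * (1/2:ℝ) ^ n) by positivity)
    rw [e]
    linarith
  exact ⟨tendsto_of_tendsto_of_tendsto_of_le_of_le' hg hh hlow
      (hup.mono fun n h => (hmid n).trans h),
    tendsto_of_tendsto_of_tendsto_of_le_of_le' hg hh (hlow.mono fun n h => h.trans (hmid n)) hup⟩

theorem rate_iff_low (δ : ℝ)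
    (hlim : Tendsto (fun n : ℕ => lowProb δ n / ((n : ℝ) ^ 2 * (1/2:ℝ) ^ n)) atTop (𝓝 1)) :
    Tendsto (fun n : ℕ => singProb n ^ (1 / (n : ℝ))) atTop (𝓝 (1/2)) ↔
      ∀ ε > (0:ℝ), ∀ᶠ n : ℕ in atTop, highProb δ n ≤ (1/2 + ε) ^ n := by
  constructor
  · intro h ε hε
    filter_upwards [h.eventually_le_const (show (1/2:ℝ) < 1/2 + ε by linarith),
      eventually_ge_atTop 1] with n hn h1
    have h0 : 0 ≤ singProb n := prob_nonneg _
    have e := singProb_eq_low δ n
    have hs : 0 ≤ lowProb δ n := prob_nonneg _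
    calc highProb δ n ≤ singProb n := by linarith
      _ = (singProb n ^ (1 / (n:ℝ))) ^ n := by
          rw [one_div, Real.rpow_inv_natCast_pow h0 (by omega)]
      _ ≤ _ := by gcongr
  · intro h
    rw [tendsto_order]
    have hlow : ∀ᶠ n : ℕ in atTop, (1/2:ℝ) ^ n ≤ singProb n := by
      filter_upwards [hlim.eventually_const_le (show (1/2:ℝ) < 1 by norm_num),
        eventually_ge_atTop 2] with n hn h2
      rw [le_div_iff₀ (by positivity)] at hn
      refine le_trans ?_ (le_trans hn (lowProb_le_singProb δ n))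
      have h2' : (2:ℝ) ≤ n := by exact_mod_cast h2
      have h4 : (4:ℝ) ≤ (n:ℝ) ^ 2 := by nlinarith
      have := mul_le_mul_of_nonneg_right h4 (show (0:ℝ) ≤ (1/2:ℝ) ^ n by positivity)
      have : (0:ℝ) ≤ (1/2:ℝ) ^ n := by positivity
      linarith
    constructor
    · intro a ha
      filter_upwards [hlow, eventually_ge_atTop 1] with n hn h1
      refine lt_of_lt_of_le ha ?_
      calc (1/2:ℝ) = ((1/2:ℝ) ^ n) ^ (1 / (n:ℝ)) := by
            rw [one_div (n:ℝ), Real.pow_rpow_inv_natCast (by norm_num) (by omega)]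
        _ ≤ _ := Real.rpow_le_rpow (by positivity) hn (by positivity)
    · intro b hb
      set c := (1/2 + b) / 2 with hc
      set ε := (c - 1/2) / 2 with hε
      have hεpos : 0 < ε := by rw [hε, hc]; linarith
      have hcpos : 0 < c := by rw [hc]; linarith
      have hr1 : (1/2:ℝ) / c < 1 := by rw [div_lt_one hcpos, hc]; linarith
      have hr2 : (1/2 + ε) / c < 1 := by rw [div_lt_one hcpos, hε, hc]; linarith
      have t1 : Tendsto (fun n : ℕ => 2 * ((n:ℝ) ^ 2 * ((1/2:ℝ) / c) ^ n) + ((1/2 + ε) / c) ^ n)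
          atTop (𝓝 0) := by
        simpa using ((tendsto_pow_const_mul_const_pow_of_abs_lt_one 2
          (show |(1/2:ℝ) / c| < 1 by rwa [abs_of_nonneg (by positivity)])).const_mul 2).add
          (tendsto_pow_atTop_nhds_zero_of_lt_one (by positivity) hr2)
      filter_upwards [h ε hεpos, eventually_ge_atTop 1, t1.eventually_le_const zero_lt_one,
        hlim.eventually_le_const (show (1:ℝ) < 2 by norm_num)] with n hU h1 ht hS
      have hn1 : (1:ℝ) ≤ n := by exact_mod_cast h1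
      rw [div_le_iff₀ (by positivity)] at hS
      have hq : singProb n ≤ c ^ n := by
        rw [singProb_eq_low δ]
        have hc' : (0:ℝ) < c ^ n := by positivity
        rw [div_pow (1/2:ℝ) c, div_pow (1/2 + ε) c, ← mul_div_assoc, ← mul_div_assoc, ← add_div,
          div_le_one hc'] at ht
        linarith
      have hbc : c < b := by rw [hc]; linarith
      refine lt_of_le_of_lt ?_ hbc
      calc singProb n ^ (1 / (n:ℝ)) ≤ (c ^ n) ^ (1 / (n:ℝ)) :=
            Real.rpow_le_rpow (prob_nonneg _) hq (by positivity)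
        _ = c := by rw [one_div, Real.pow_rpow_inv_natCast hcpos.le (by omega)]

end Vale.Agent.P160.Height
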