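import Mathlib

/-! Gaussian sums over sublattices of `ℤ^r`: the monotonicity of Regev and Stephens-Davidowitz.

The proof of `rho_corr` is the rotation `(a, b) ↦ (a + b, a - b)`, sorted by parity classes.
-/

noncomputable section

open scoped ENNReal
open Finset

namespace Vale.Agent.P160.Height

variable {r : ℕ}

/-- squared Euclidean norm -/
def nsq (x : Fin r → ℝ) : ℝ := ∑ i, x i ^ 2

/-- Gaussian weight -/
def gw (β : ℝ) (x : Fin r → ℝ) : ℝ≥0∞ := ENNReal.ofReal (Real.exp (-β * nsq x))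

/-- integer vectors as real vectors -/
def icast (x : Fin r → ℤ) : Fin r → ℝ := fun i => (x i : ℝ)

/-- Gaussian mass of a translate of a subgroup -/
def rho (β : ℝ) (M : AddSubgroup (Fin r → ℤ)) (y : Fin r → ℝ) : ℝ≥0∞ :=
  ∑' z : M, gw β (icast z + y)

/-- Gaussian mass of a translate of the full lattice -/
def rhoFull (β : ℝ) (y : Fin r → ℝ) : ℝ≥0∞ := ∑' z : Fin r → ℤ, gw β (icast z + y)

lemma icast_add (x y : Fin r → ℤ) : icast (x + y) = icast x + icast y := by
  funext i; simp [icast]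

lemma icast_sub (x y : Fin r → ℤ) : icast (x - y) = icast x - icast y := by
  funext i; simp [icast]

lemma icast_neg (x : Fin r → ℤ) : icast (-x) = -icast x := by
  funext i; simp [icast]

lemma nsq_neg (x : Fin r → ℝ) : nsq (-x) = nsq x := by simp [nsq]

lemma gw_neg (β : ℝ) (x : Fin r → ℝ) : gw β (-x) = gw β x := by simp [gw, nsq_neg]

lemma gw_neg_translate (β : ℝ) (z : Fin r → ℤ) (y : Fin r → ℝ) :
    gw β (icast (-z) + -y) = gw β (icast z + y) := by
  rw [icast_neg, ← neg_add, gw_neg]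

lemma rho_neg (β : ℝ) (M : AddSubgroup (Fin r → ℤ)) (y : Fin r → ℝ) :
    rho β M (-y) = rho β M y := by
  unfold rho
  rw [← (Equiv.neg M).tsum_eq]
  refine tsum_congr fun z => ?_
  simp only [Equiv.neg_apply, AddSubgroup.coe_neg]
  exact gw_neg_translate β _ y

lemma rhoFull_neg (β : ℝ) (y : Fin r → ℝ) : rhoFull β (-y) = rhoFull β y := by
  unfold rhoFull
  rw [← (Equiv.neg (Fin r → ℤ)).tsum_eq]
  refine tsum_congr fun z => ?_
  simp only [Equiv.neg_apply]
  exact gw_neg_translate β _ y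

lemma gw_mul (β : ℝ) (a b : Fin r → ℝ) :
    gw β a * gw β b = gw (β / 2) (a + b) * gw (β / 2) (a - b) := by
  simp only [gw, ← ENNReal.ofReal_mul (Real.exp_pos _).le, ← Real.exp_add]
  congr 2
  simp only [nsq, Pi.add_apply, Pi.sub_apply, mul_sum, ← sum_add_distrib]
  exact sum_congr rfl fun i _ => by ring

/-- coordinatewise parity -/
def parity (x : Fin r → ℤ) : Fin r → ZMod 2 := fun i => (x i : ZMod 2)

/-- Gaussian mass of one parity class -/
def classSum (β : ℝ) (M : AddSubgroup (Fin r → ℤ)) (c : Fin r → ZMod 2) (z : Fin r → ℝ) : ℝ≥0∞ :=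
  ∑' p : M, if parity (p : Fin r → ℤ) = c then gw β (icast p + z) else 0

/-- sum and difference on a subgroup -/
def sumDiff (M : AddSubgroup (Fin r → ℤ)) (ab : M × M) : M × M := (ab.1 + ab.2, ab.1 - ab.2)

lemma sumDiff_injective (M : AddSubgroup (Fin r → ℤ)) : Function.Injective (sumDiff M) := by
  rintro ⟨a, b⟩ ⟨a', b'⟩ h
  simp only [sumDiff, Prod.mk.injEq, Subtype.ext_iff, funext_iff, AddSubgroupClass.coe_sub,
    AddSubgroup.coe_add, Pi.add_apply, Pi.sub_apply] at h
  simp only [Prod.mk.injEq, Subtype.ext_iff, funext_iff]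
  exact ⟨fun i => by have := h.1 i; have := h.2 i; omega,
    fun i => by have := h.1 i; have := h.2 i; omega⟩

lemma mem_range_sumDiff {M : AddSubgroup (Fin r → ℤ)} (hsat : ∀ x, x + x ∈ M → x ∈ M) {p q : M}
    (h : parity (p : Fin r → ℤ) = parity (q : Fin r → ℤ)) : (p, q) ∈ Set.range (sumDiff M) := by
  have hd : ∀ i, ∃ k, (p : Fin r → ℤ) i - (q : Fin r → ℤ) i = k + k := fun i => by
    obtain ⟨k, hk⟩ := (ZMod.intCast_eq_intCast_iff_dvd_sub _ _ 2).1 (congrFun h i).symm
    exact ⟨k, by rw [hk]; push_cast; ring⟩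
  choose k hk using hd
  have hb : k ∈ M := hsat k (by
    have : k + k = (p : Fin r → ℤ) - (q : Fin r → ℤ) := funext fun i => (hk i).symm
    rw [this]; exact M.sub_mem p.2 q.2)
  refine ⟨(p - ⟨k, hb⟩, ⟨k, hb⟩), Prod.ext (by simp [sumDiff]) (Subtype.ext (funext fun i => ?_))⟩
  have := hk i
  simp only [sumDiff, AddSubgroupClass.coe_sub, Pi.sub_apply]
  omega

lemma parity_sumDiff (M : AddSubgroup (Fin r → ℤ)) (ab : M × M) :
    parity ((sumDiff M ab).1 : Fin r → ℤ) = parity ((sumDiff M ab).2 : Fin r → ℤ) := by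
  funext i
  simp [parity, sumDiff, sub_eq_add_neg, ZMod.neg_eq_self_mod_two]

/-- the pair sum restricted to equal parities -/
def pairF (β : ℝ) (M : AddSubgroup (Fin r → ℤ)) (u w : Fin r → ℝ) (pq : M × M) : ℝ≥0∞ :=
  if parity (pq.1 : Fin r → ℤ) = parity (pq.2 : Fin r → ℤ) then
    gw β (icast pq.1 + u) * gw β (icast pq.2 + w) else 0

lemma rho_mul_pair (β : ℝ) {M : AddSubgroup (Fin r → ℤ)} (hsat : ∀ x, x + x ∈ M → x ∈ M)
    (x y : Fin r → ℝ) :
    rho β M x * rho β M y = ∑' pq : M × M, pairF (β / 2) M (x + y) (x - y) pq := by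
  have hsupp : Function.support (pairF (β / 2) M (x + y) (x - y)) ⊆ Set.range (sumDiff M) := by
    rintro ⟨p, q⟩ hpq
    refine mem_range_sumDiff hsat ?_
    by_contra h
    exact hpq (by simp [pairF, h])
  rw [← (sumDiff_injective M).tsum_eq hsupp, rho, rho, ← ENNReal.tsum_mul_right]
  simp only [← ENNReal.tsum_mul_left]
  rw [← ENNReal.tsum_prod]
  refine tsum_congr fun ab : M × M => ?_
  rw [pairF, if_pos (parity_sumDiff M ab), gw_mul]
  simp only [sumDiff, AddSubgroup.coe_add, AddSubgroupClass.coe_sub, icast_add, icast_sub]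
  congr 2 <;> abel

lemma pairF_eq_sum (β : ℝ) (M : AddSubgroup (Fin r → ℤ)) (u w : Fin r → ℝ) (pq : M × M) :
    pairF β M u w pq = ∑ c, (if parity (pq.1 : Fin r → ℤ) = c then gw β (icast pq.1 + u) else 0) *
      (if parity (pq.2 : Fin r → ℤ) = c then gw β (icast pq.2 + w) else 0) := by
  rw [Finset.sum_eq_single (parity (pq.1 : Fin r → ℤ)) (fun c _ hc => by simp [Ne.symm hc])
    (by simp), pairF, if_pos rfl, mul_ite, mul_zero]
  exact if_congr eq_comm rfl rfl

lemma tsum_prod_mul {ι κ : Type*} (f : ι → ℝ≥0∞) (g : κ → ℝ≥0∞) :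
    ∑' p : ι × κ, f p.1 * g p.2 = (∑' i, f i) * ∑' j, g j := by
  rw [ENNReal.tsum_prod (f := fun i j => f i * g j), ← ENNReal.tsum_mul_right]
  exact tsum_congr fun i => ENNReal.tsum_mul_left

lemma tsum_pairF (β : ℝ) (M : AddSubgroup (Fin r → ℤ)) (u w : Fin r → ℝ) :
    ∑' pq : M × M, pairF β M u w pq = ∑ c, classSum β M c u * classSum β M c w := by
  have h1 : ∀ c, classSum β M c u * classSum β M c w = ∑' pq : M × M,
      (fun p : M => if parity (p : Fin r → ℤ) = c then gw β (icast p + u) else 0) pq.1 *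
        (fun q : M => if parity (q : Fin r → ℤ) = c then gw β (icast q + w) else 0) pq.2 :=
    fun c => (tsum_prod_mul (ι := M) (κ := M) _ _).symm
  rw [Finset.sum_congr rfl (fun c _ => h1 c)]
  rw [← Summable.tsum_finsetSum (fun c _ => ENNReal.summable)]
  exact tsum_congr fun pq => pairF_eq_sum β M u w pq

/-- the rotation identity -/
theorem rho_mul (β : ℝ) {M : AddSubgroup (Fin r → ℤ)} (hsat : ∀ x, x + x ∈ M → x ∈ M)
    (x y : Fin r → ℝ) :
    rho β M x * rho β M y =
      ∑ c, classSum (β / 2) M c (x + y) * classSum (β / 2) M c (x - y) := by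
  rw [rho_mul_pair β hsat, tsum_pairF]

lemma two_mul_le_sq_add (a b : ℝ≥0∞) : 2 * (a * b) ≤ a * a + b * b := by
  rcases eq_or_ne a ⊤ with rfl | ha
  · rcases eq_or_ne b 0 with rfl | hb <;> simp [*]
  rcases eq_or_ne b ⊤ with rfl | hb
  · rcases eq_or_ne a 0 with rfl | ha' <;> simp [*]
  lift a to NNReal using ha
  lift b to NNReal using hb
  norm_cast
  rw [← NNReal.coe_le_coe]; push_cast
  nlinarith [sq_nonneg ((a : ℝ) - b)]

/-- the correlation inequality -/
theorem rho_corr (β : ℝ) {M : AddSubgroup (Fin r → ℤ)} (hsat : ∀ x, x + x ∈ M → x ∈ M)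
    (x y : Fin r → ℝ) :
    2 * (rho β M x * rho β M y) ≤
      rho β M (x + y) * rho β M 0 + rho β M (x - y) * rho β M 0 := by
  rw [rho_mul β hsat, rho_mul β hsat (x + y) 0, rho_mul β hsat (x - y) 0, mul_sum,
    ← sum_add_distrib]
  refine sum_le_sum fun c _ => ?_
  simpa using two_mul_le_sq_add (classSum (β / 2) M c (x + y)) (classSum (β / 2) M c (x - y))

/-- representatives and subgroup elements -/
def cosetEquiv (M : AddSubgroup (Fin r → ℤ)) : ((Fin r → ℤ) ⧸ M) × M ≃ (Fin r → ℤ) where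
  toFun cm := cm.1.out + (cm.2 : Fin r → ℤ)
  invFun z := ((z : (Fin r → ℤ) ⧸ M), ⟨-((z : (Fin r → ℤ) ⧸ M).out) + z,
    QuotientAddGroup.eq.1 (QuotientAddGroup.out_eq' _)⟩)
  left_inv cm := by
    have h : ((cm.1.out + (cm.2 : Fin r → ℤ) : Fin r → ℤ) : (Fin r → ℤ) ⧸ M) = cm.1 := by
      rw [QuotientAddGroup.mk_add_of_mem _ cm.2.2]
      exact QuotientAddGroup.out_eq' _
    refine Prod.ext h (Subtype.ext ?_)
    simp only [h]
    abel
  right_inv z := by
    simp

lemma rhoFull_eq_cosets (β : ℝ) (M : AddSubgroup (Fin r → ℤ)) (y : Fin r → ℝ) :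
    rhoFull β y = ∑' c : (Fin r → ℤ) ⧸ M, rho β M (icast c.out + y) := by
  rw [rhoFull, ← (cosetEquiv M).tsum_eq, ENNReal.tsum_prod']
  refine tsum_congr fun c => tsum_congr fun m => ?_
  have h : cosetEquiv M (c, m) = c.out + (m : Fin r → ℤ) := rfl
  rw [h, icast_add]
  congr 1
  abel

/-- the mass of a translate decays faster on a sublattice than on the full lattice -/
theorem rho_mono (β : ℝ) {M : AddSubgroup (Fin r → ℤ)} (hsat : ∀ x, x + x ∈ M → x ∈ M)
    (y : Fin r → ℝ) :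
    rho β M y * rhoFull β (0 : Fin r → ℝ) ≤ rho β M 0 * rhoFull β y := by
  have h2 : 2 * (rho β M y * rhoFull β (0 : Fin r → ℝ)) ≤ 2 * (rho β M 0 * rhoFull β y) := by
    have hR : 2 * (rho β M 0 * rhoFull β y) =
        rho β M 0 * rhoFull β y + rho β M 0 * rhoFull β (-y) := by rw [rhoFull_neg]; ring
    rw [hR, rhoFull_eq_cosets β M 0, rhoFull_eq_cosets β M y, rhoFull_eq_cosets β M (-y)]
    simp only [← ENNReal.tsum_mul_left, ← ENNReal.tsum_add, add_zero]
    refine ENNReal.tsum_le_tsum fun c => ?_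
    refine le_trans (le_of_eq (by ring)) ((rho_corr β hsat (icast c.out) y).trans (le_of_eq ?_))
    rw [mul_comm (rho β M 0), mul_comm (rho β M 0), ← sub_eq_add_neg]
  exact (ENNReal.mul_le_mul_iff_right (by norm_num) (by norm_num)).1 h2

end Vale.Agent.P160.Height
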