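import Vale.Agent.P160.Height.Basic

/-! Exchanging some rows for rows of a more spread law (Kahn, Komlós and Szemerédi). -/

noncomputable section

open Finset Module

namespace Vale.Agent.P160.Height

variable {r : ℕ}

/-- The probability that a row lies in `W`. -/
def rowPr (μ : Law (Fin r → ℤ)) (W : Submodule ℚ (Fin r → ℚ)) : ℝ := μ.pr fun x => qcast x ∈ W

/-- Independent rows inside `W`. -/
def IndepIn {ι : Type} (W : Submodule ℚ (Fin r → ℚ)) (G : ι → Fin r → ℤ) : Prop :=
  LinearIndependent ℚ (fun a => qcast (G a)) ∧ ∀ a, qcast (G a) ∈ W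

/-- The probability of `t` independent rows inside `W`. -/
theorem indep_pr_ge (μ : Law (Fin r → ℤ)) {q : ℝ} (hq0 : 0 ≤ q) (hq1 : q ≤ 1)
    (hodl : ∀ U : Submodule ℚ (Fin r → ℚ), rowPr μ U ≤ q ^ (r - finrank ℚ U))
    (W : Submodule ℚ (Fin r → ℚ)) (t : ℕ) :
    rowPr μ W ^ t - t * rowPr μ W ^ (t - 1) * q ^ (r - t)
      ≤ (Law.pi fun _ : Fin t => μ).pr (IndepIn W) := by
  classical
  set L := Law.pi fun _ : Fin t => μ
  set Pall : (Fin t → Fin r → ℤ) → Prop := fun G => ∀ a, qcast (G a) ∈ W
  have hall : L.pr Pall = rowPr μ W ^ t := by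
    rw [Law.pr_pi_forall (fun _ : Fin t => μ) (fun _ x => qcast x ∈ W)]
    simp [rowPr]
  have hsplit : L.pr Pall ≤ L.pr (IndepIn W) + L.pr (fun G => ∃ a ∈ (univ : Finset (Fin t)),
      Pall G ∧ qcast (G a) ∈ Submodule.span ℚ ((fun b => qcast (G b)) '' (Set.univ \ {a}))) := by
    refine le_trans (L.pr_mono fun G _ hG => ?_) (L.pr_or_le _ _)
    by_cases hi : LinearIndependent ℚ (fun a => qcast (G a))
    · exact Or.inl ⟨hi, hG⟩
    · rw [linearIndependent_iff_notMem_span] at hi
      push_neg at hi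
      obtain ⟨a, ha⟩ := hi
      exact Or.inr ⟨a, mem_univ a, hG, ha⟩
  have hone : ∀ a : Fin t, L.pr (fun G => Pall G ∧ qcast (G a) ∈
      Submodule.span ℚ ((fun b => qcast (G b)) '' (Set.univ \ {a})))
      ≤ rowPr μ W ^ (t - 1) * q ^ (r - t) := by
    intro a
    rw [Law.pr_eq_ex, Law.ex_pi_congr (fun b => b ≠ a)]
    set L' := Law.pi fun _ : {b // b ≠ a} => μ
    have h' : L'.pr (fun y => ∀ b, qcast (y b) ∈ W) = rowPr μ W ^ (t - 1) := by
      rw [Law.pr_pi_forall (fun _ : {b // b ≠ a} => μ) (fun _ x => qcast x ∈ W)]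
      simp [rowPr, Fintype.card_subtype_compl]
    rw [← h', mul_comm, Law.pr_eq_ex, ← Law.ex_mul_left]
    refine Law.ex_mono _ fun y _ => ?_
    set U := Submodule.span ℚ (Set.range fun b : {b // b ≠ a} => qcast (y b))
    set L'' := Law.pi fun _ : {b // ¬b ≠ a} => μ
    have hU : ∀ z : {b // ¬b ≠ a} → Fin r → ℤ,
        ((fun G : Fin t → Fin r → ℤ => if Pall G ∧ qcast (G a) ∈
          Submodule.span ℚ ((fun b => qcast (G b)) '' (Set.univ \ {a})) then (1:ℝ) else 0)
          ((Equiv.piEquivPiSubtypeProd (fun b => b ≠ a) fun _ => Fin r → ℤ).symm (y, z)))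
        ≤ (if ∀ b, qcast (y b) ∈ W then (1:ℝ) else 0) *
          (if ∀ i, qcast (z i) ∈ U then (1:ℝ) else 0) := by
      intro z
      set G := (Equiv.piEquivPiSubtypeProd (fun b => b ≠ a) fun _ => Fin r → ℤ).symm (y, z)
      have hy : ∀ b : {b // b ≠ a}, G b = y b := fun b => by
        simp [G, Equiv.piEquivPiSubtypeProd_symm_apply, b.2]
      have hz : ∀ b : {b // ¬b ≠ a}, G b = z b := fun b => by
        simp [G, Equiv.piEquivPiSubtypeProd_symm_apply, not_not.1 b.2]
        congr 1
        exact Subtype.ext (not_not.1 b.2).symm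
      dsimp only
      by_cases h : Pall G ∧ qcast (G a) ∈
          Submodule.span ℚ ((fun b => qcast (G b)) '' (Set.univ \ {a}))
      · have h1 : ∀ b, qcast (y b) ∈ W := fun b => by rw [← hy b]; exact h.1 b
        have h2 : ∀ i, qcast (z i) ∈ U := fun i => by
          have hi : (i : Fin t) = a := not_not.1 i.2
          rw [← hz i, hi]
          refine Submodule.span_mono ?_ h.2
          rintro _ ⟨b, hb, rfl⟩
          exact ⟨⟨b, by simpa using hb⟩, congrArg qcast (hy ⟨b, by simpa using hb⟩).symm⟩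
        rw [if_pos h, if_pos h1, if_pos h2, mul_one]
      · rw [if_neg h]
        exact mul_nonneg (by split_ifs <;> norm_num) (by split_ifs <;> norm_num)
    refine le_trans (Law.ex_mono _ (g := fun z => (if ∀ b, qcast (y b) ∈ W then (1:ℝ) else 0) *
          (if ∀ i, qcast (z i) ∈ U then (1:ℝ) else 0)) fun z _ => by convert hU z) ?_
    rw [Law.ex_mul_left, show L''.ex (fun z => if ∀ i, qcast (z i) ∈ U then (1:ℝ) else 0)
        = L''.pr (fun z => ∀ i, qcast (z i) ∈ U) by rw [Law.pr_eq_ex]; congr!, Law.pr_pi_forall (fun _ => μ) (fun _ x => qcast x ∈ U),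
      mul_comm]
    refine mul_le_mul ?_ (le_of_eq (by congr!)) (by split_ifs <;> norm_num) (pow_nonneg hq0 _)
    rw [prod_const, card_univ]
    have hc : Fintype.card {b : Fin t // ¬b ≠ a} = 1 := by simp
    rw [hc, pow_one]
    refine (hodl U).trans (pow_le_pow_of_le_one hq0 hq1 ?_)
    have hfin : finrank ℚ U ≤ t - 1 := by
      refine le_trans (finrank_range_le_card _) ?_
      simp [Fintype.card_subtype_compl]
    omega
  have hsum : L.pr (fun G => ∃ a ∈ (univ : Finset (Fin t)),
      Pall G ∧ qcast (G a) ∈ Submodule.span ℚ ((fun b => qcast (G b)) '' (Set.univ \ {a})))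
      ≤ t * rowPr μ W ^ (t - 1) * q ^ (r - t) := by
    refine (L.pr_exists_le _ _).trans ?_
    refine (sum_le_sum fun a _ => hone a).trans (le_of_eq ?_)
    simp
    ring
  linarith [hsplit, hall, hsum]

/-- Some rows can be added to an independent family up to the rank. -/
theorem exists_rows {t d : ℕ} (G : Fin t → Fin r → ℚ) (D : Fin r → Fin r → ℚ)
    (hG : LinearIndependent ℚ G) (htd : t ≤ d)
    (hD : d ≤ finrank ℚ (Submodule.span ℚ (Set.range D))) :
    ∃ S : Finset (Fin r), S.card = d - t ∧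
      LinearIndepOn ℚ (Sum.elim G D) (↑((univ : Finset (Fin t)).disjSum S) : Set (Fin t ⊕ Fin r)) := by
  suffices h : ∀ s, s ≤ d - t → ∃ S : Finset (Fin r), S.card = s ∧
      LinearIndepOn ℚ (Sum.elim G D)
        (↑((univ : Finset (Fin t)).disjSum S) : Set (Fin t ⊕ Fin r)) from h _ le_rfl
  intro s
  induction s with
  | zero =>
    refine fun _ => ⟨∅, rfl, ?_⟩
    have : (↑((univ : Finset (Fin t)).disjSum (∅ : Finset (Fin r))) : Set (Fin t ⊕ Fin r))
        = Set.range Sum.inl := by
      ext x; cases x <;> simp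
    rw [this, linearIndepOn_range_iff Sum.inl_injective]
    exact hG
  | succ s ih =>
    intro hs
    obtain ⟨S, hS, hi⟩ := ih (by omega)
    classical
    set A : Finset (Fin t ⊕ Fin r) := (univ : Finset (Fin t)).disjSum S
    have hA : A.card = t + s := by simp [A, hS]
    obtain ⟨j, hj⟩ : ∃ j, D j ∉ Submodule.span ℚ (Sum.elim G D '' (A : Set (Fin t ⊕ Fin r))) := by
      by_contra hne
      push_neg at hne
      have hle : Submodule.span ℚ (Set.range D)
          ≤ Submodule.span ℚ (Sum.elim G D '' (A : Set (Fin t ⊕ Fin r))) :=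
        Submodule.span_le.2 (Set.range_subset_iff.2 hne)
      have h1 := (Submodule.finrank_mono hle)
      rw [← Finset.coe_image] at h1
      have h2 : finrank ℚ (Submodule.span ℚ
          (↑(A.image (Sum.elim G D)) : Set (Fin r → ℚ))) ≤ t + s :=
        (finrank_span_finset_le_card _).trans (card_image_le.trans hA.le)
      omega
    have hjS : j ∉ S := fun h => hj (Submodule.subset_span
      ⟨Sum.inr j, by simp [A, h], rfl⟩)
    refine ⟨insert j S, by rw [card_insert_of_notMem hjS, hS], ?_⟩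
    have : (↑((univ : Finset (Fin t)).disjSum (insert j S)) : Set (Fin t ⊕ Fin r))
        = insert (Sum.inr j) ↑A := by
      ext x; cases x <;> simp [A]
    rw [this]
    exact hi.insert hj

/-- The rows of `D` outside `S` lie in `W`, those in `S` extend `G` to an independent family. -/
def Extends {t : ℕ} (W : Submodule ℚ (Fin r → ℚ)) (G : Fin t → Fin r → ℤ) (S : Finset (Fin r))
    (y : {j // j ∈ S} → Fin r → ℤ) : Prop :=
  IndepIn W (Sum.elim G y)

/-- The weight of the exchanged configurations. -/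
def extPr {t : ℕ} (μ μ' : Law (Fin r → ℤ)) (W : Submodule ℚ (Fin r → ℚ)) (S : Finset (Fin r)) : ℝ :=
  (Law.pi fun _ : Fin t => μ').ex fun G => (Law.pi fun _ : {j // j ∈ S} => μ).pr (Extends W G S)

/-- The exchange bound. -/
theorem swap_bound {F : Type} (μ μ' : Law (Fin r → ℤ)) (fam : Finset F)
    (H : F → Submodule ℚ (Fin r → ℚ)) {d t : ℕ} (htd : t ≤ d) (hdr : d ≤ r) (mult : ℕ) {R : ℝ}
    (hR : 0 ≤ R)
    (hmult : ∀ x : Fin d → Fin r → ℤ, (∀ a, x a ∈ μ.supp ∪ μ'.supp) →
      LinearIndependent ℚ (fun a => qcast (x a)) →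
      ∀ s ⊆ fam, (∀ i ∈ s, ∀ a, qcast (x a) ∈ H i) → s.card ≤ mult)
    (hratio : ∀ i ∈ fam, rowPr μ (H i) ^ (r - (d - t))
      ≤ R * (Law.pi fun _ : Fin t => μ').pr (IndepIn (H i))) :
    ∑ i ∈ fam, (Law.pi fun _ : Fin r => μ).pr (fun D => (∀ j, qcast (D j) ∈ H i) ∧
        d ≤ finrank ℚ (Submodule.span ℚ (Set.range fun j => qcast (D j))))
      ≤ (r.choose (d - t) : ℝ) * mult * R := by
  classical
  set L := Law.pi fun _ : Fin r => μ
  set L' := Law.pi fun _ : Fin t => μ'
  set P : F → (Fin r → Fin r → ℤ) → Prop := fun i D => (∀ j, qcast (D j) ∈ H i) ∧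
        d ≤ finrank ℚ (Submodule.span ℚ (Set.range fun j => qcast (D j)))
  set 𝒮 := (univ : Finset (Fin r)).powersetCard (d - t)
  have hkey : ∀ i ∈ fam, L.pr (P i) ≤ R * ∑ S ∈ 𝒮, extPr (t := t) μ μ' (H i) S := by
    intro i hi
    set ρ := rowPr μ (H i)
    set T := ∑ S ∈ 𝒮, extPr (t := t) μ μ' (H i) S
    have hT : 0 ≤ T := sum_nonneg fun S _ => Law.ex_nonneg _ fun G _ => Law.pr_nonneg _ _
    have hρ : 0 ≤ ρ := Law.pr_nonneg _ _
    have hmain : L.pr (P i) * L'.pr (IndepIn (H i)) ≤ ρ ^ (r - (d - t)) * T := by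
      have hG : ∀ G ∈ L'.supp, L.pr (P i) * (if IndepIn (H i) G then 1 else 0)
          ≤ ∑ S ∈ 𝒮, ρ ^ (r - (d - t)) *
            (Law.pi fun _ : {j // j ∈ S} => μ).pr (Extends (H i) G S) := by
        intro G _
        split_ifs with hGI
        swap
        · rw [mul_zero]
          exact sum_nonneg fun S _ => mul_nonneg (pow_nonneg hρ _) (Law.pr_nonneg _ _)
        rw [mul_one]
        refine le_trans (L.pr_mono (Q := fun D => ∃ S ∈ 𝒮, Extends (H i) G S (fun j => D j) ∧
          ∀ j, j ∉ S → qcast (D j) ∈ H i) fun D _ hD => ?_) ?_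
        · obtain ⟨S, hS, hind⟩ := exists_rows (fun a => qcast (G a)) (fun j => qcast (D j))
            hGI.1 htd hD.2
          refine ⟨S, by simp [𝒮, hS], ⟨?_, ?_⟩, fun j _ => hD.1 j⟩
          · let f : Fin t ⊕ {j // j ∈ S} →
                ↥((↑((univ : Finset (Fin t)).disjSum S)) : Set (Fin t ⊕ Fin r)) :=
              fun x => ⟨Sum.map id Subtype.val x, by cases x <;> simp⟩
            have hf : Function.Injective f := fun x y h =>
              Sum.map_injective.2 ⟨Function.injective_id, Subtype.val_injective⟩ (congrArg Subtype.val h)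
            have := hind.linearIndependent.comp f hf
            convert this using 1
            funext x; cases x <;> simp [f]
          · rintro (a | j)
            · exact hGI.2 a
            · exact hD.1 j
        refine (L.pr_exists_le _ _).trans (sum_le_sum fun S hS => le_of_eq ?_)
        have hc : Fintype.card {j // j ∉ S} = r - (d - t) := by
          rw [Fintype.card_subtype_compl, Fintype.card_coe, Fintype.card_fin,
            (mem_powersetCard.1 hS).2]
        have hp : (Law.pi fun _ : {j // j ∉ S} => μ).pr (fun z => ∀ j, qcast (z j) ∈ H i)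
            = ρ ^ (r - (d - t)) := by
          rw [Law.pr_pi_forall (fun _ : {j // j ∉ S} => μ) (fun _ x => qcast x ∈ H i)]
          simp only [prod_const, card_univ, hc]
          rfl
        rw [Law.pr_eq_ex, Law.ex_pi_finset S, ← hp, Law.pr_eq_ex (Law.pi fun _ : {j // j ∈ S} => μ),
          ← Law.ex_mul_left]
        unfold Law.ex
        refine sum_congr rfl fun y _ => ?_
        congr 1
        rw [Law.pr_eq_ex]
        change (Law.pi fun _ : {j // j ∉ S} => μ).ex _ = _ * _
        by_cases hy : Extends (H i) G S y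
        · rw [if_pos hy, mul_one]
          unfold Law.ex
          refine sum_congr rfl fun z _ => ?_
          congr 1
          simp [Equiv.piEquivPiSubtypeProd_symm_apply, hy]
          congr 1
          exact propext (forall₂_congr fun j hj => by simp [hj])
        · rw [if_neg hy, mul_zero]
          unfold Law.ex
          refine sum_eq_zero fun z _ => ?_
          simp [Equiv.piEquivPiSubtypeProd_symm_apply, hy]
      have := L'.ex_mono hG
      rw [Law.ex_mul_left, ← Law.pr_eq_ex, Law.ex_sum] at this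
      simp only [Law.ex_mul_left, ← mul_sum] at this
      exact this
    rcases (Law.pr_nonneg L' (IndepIn (H i))).lt_or_eq with hpos | hzero
    · refine le_of_mul_le_mul_right (hmain.trans ?_) hpos
      calc ρ ^ (r - (d - t)) * T ≤ R * L'.pr (IndepIn (H i)) * T :=
            mul_le_mul_of_nonneg_right (hratio i hi) hT
        _ = _ := by ring
    · refine le_trans (L.pr_mono (Q := fun D => ∀ j, qcast (D j) ∈ H i) fun D _ h => h.1) ?_
      rw [Law.pr_pi_forall (fun _ : Fin r => μ) (fun _ x => qcast x ∈ H i), prod_const, card_univ,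
        Fintype.card_fin]
      change ρ ^ r ≤ _
      have h := hratio i hi
      rw [← hzero, mul_zero] at h
      calc ρ ^ r = ρ ^ (r - (d - t)) * ρ ^ (d - t) := by rw [← pow_add]; congr 1; omega
        _ ≤ 0 * ρ ^ (d - t) := mul_le_mul_of_nonneg_right h (pow_nonneg hρ _)
        _ ≤ R * T := by rw [zero_mul]; positivity
  refine (sum_le_sum hkey).trans ?_
  rw [← mul_sum, sum_comm, mul_comm ((_ : ℝ) * _) R]
  refine mul_le_mul_of_nonneg_left ?_ hR
  refine (sum_le_card_nsmul 𝒮 _ (mult : ℝ) fun S hS => ?_).trans (le_of_eq ?_)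
  swap
  · simp [𝒮, nsmul_eq_mul]
  simp only [extPr]
  rw [← Law.ex_sum]
  refine (L'.ex_mono (g := fun _ => (mult : ℝ)) fun G hGs => ?_).trans (Law.ex_const _ _).le
  simp only [Law.pr_eq_ex]
  rw [← Law.ex_sum]
  refine (Law.ex_mono _ (g := fun _ => (mult : ℝ)) fun y hys => ?_).trans (Law.ex_const _ _).le
  rw [sum_boole]
  refine Nat.cast_le.2 ?_
  by_cases hne : (fam.filter fun i => Extends (H i) G S y).Nonempty
  swap
  · simp [not_nonempty_iff_eq_empty.1 hne]
  obtain ⟨i0, hi0⟩ := hne
  have e : Fin d ≃ Fin t ⊕ {j // j ∈ S} := (Fintype.equivFinOfCardEq (by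
    simp [(mem_powersetCard.1 hS).2]; omega)).symm
  refine hmult (fun a => Sum.elim G y (e a)) (fun a => ?_)
    ((mem_filter.1 hi0).2.1.comp e e.injective) _ (filter_subset _ _)
    fun i hi a => (mem_filter.1 hi).2.2 (e a)
  cases e a with
  | inl b => exact mem_union_right _ (Fintype.mem_piFinset.1 hGs b)
  | inr j => exact mem_union_left _ (Fintype.mem_piFinset.1 hys j)

end Vale.Agent.P160.Height
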